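import Mathlib

/-!
R054 (S0075), common notions: independent finsets, independence number `alp G S` of a finset `S`,
closed neighbourhood `nbC G I` of a finset.
-/

open Finset

namespace Crest.Agent.R054

variable {V : Type*} (G : SimpleGraph V)

/-- `T` is an independent finset of `G`. -/
def Indep (T : Finset V) : Prop := ∀ x ∈ T, ∀ y ∈ T, ¬ G.Adj x y

/-- No edge between `A` and `B`. -/
def NoAdj (A B : Finset V) : Prop := ∀ x ∈ A, ∀ y ∈ B, ¬ G.Adj x y

variable {G}

theorem Indep.subset {T S : Finset V} (h : Indep G T) (hS : S ⊆ T) : Indep G S :=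
  fun x hx y hy => h x (hS hx) y (hS hy)

theorem indep_empty : Indep G (∅ : Finset V) := by
  intro x hx; simp at hx

theorem indep_singleton (v : V) : Indep G {v} := by
  intro x hx y hy
  simp only [mem_singleton] at hx hy
  subst hx; subst hy
  exact G.loopless.irrefl _

theorem NoAdj.symm {A B : Finset V} (h : NoAdj G A B) : NoAdj G B A :=
  fun x hx y hy hxy => h y hy x hx hxy.symm

theorem NoAdj.mono {A B A' B' : Finset V} (h : NoAdj G A B) (hA : A' ⊆ A) (hB : B' ⊆ B) :
    NoAdj G A' B' :=
  fun x hx y hy => h x (hA hx) y (hB hy)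

variable [DecidableEq V]

theorem Indep.union {A B : Finset V} (hA : Indep G A) (hB : Indep G B) (h : NoAdj G A B) :
    Indep G (A ∪ B) := by
  intro x hx y hy
  rcases mem_union.1 hx with hx | hx <;> rcases mem_union.1 hy with hy | hy
  · exact hA x hx y hy
  · exact h x hx y hy
  · exact h.symm x hx y hy
  · exact hB x hx y hy

theorem indep_insert {A : Finset V} {v : V} (hA : Indep G A) (h : ∀ x ∈ A, ¬ G.Adj v x) :
    Indep G (insert v A) := by
  rw [insert_eq]
  refine (indep_singleton v).union hA ?_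
  intro x hx y hy
  rw [mem_singleton] at hx
  subst hx
  exact h y hy

theorem indep_pair {u v : V} (h : ¬ G.Adj u v) : Indep G {u, v} := by
  apply indep_insert (indep_singleton v)
  intro x hx
  rw [mem_singleton] at hx
  subst hx
  exact h

open Classical in
variable (G) in
/-- Independence number of the finset `S`. -/
noncomputable def alp (S : Finset V) : ℕ :=
  (S.powerset.filter (fun T => Indep G T)).sup card

open Classical in
theorem Indep.card_le_alp {T S : Finset V} (hT : Indep G T) (h : T ⊆ S) : T.card ≤ alp G S := by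
  unfold alp
  apply le_sup (f := card)
  simp [mem_filter, mem_powerset, h, hT]

open Classical in
variable (G) in
theorem exists_indep (S : Finset V) : ∃ T ⊆ S, Indep G T ∧ T.card = alp G S := by
  unfold alp
  have hne : (S.powerset.filter (fun T => Indep G T)).Nonempty :=
    ⟨∅, by simp [indep_empty]⟩
  obtain ⟨T, hT, hc⟩ := exists_mem_eq_sup _ hne card
  rw [mem_filter, mem_powerset] at hT
  exact ⟨T, hT.1, hT.2, hc.symm⟩

theorem alp_le_of_forall {S : Finset V} {n : ℕ}
    (h : ∀ T ⊆ S, Indep G T → T.card ≤ n) : alp G S ≤ n := by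
  obtain ⟨T, hT, hI, hc⟩ := exists_indep G S
  rw [← hc]; exact h T hT hI

theorem alp_mono {S T : Finset V} (h : S ⊆ T) : alp G S ≤ alp G T :=
  alp_le_of_forall fun A hA hI => hI.card_le_alp (hA.trans h)

@[simp] theorem alp_empty : alp G (∅ : Finset V) = 0 := by
  apply Nat.le_zero.1
  apply alp_le_of_forall
  intro T hT _
  rw [subset_empty.1 hT]; simp

theorem alp_le_card (S : Finset V) : alp G S ≤ S.card :=
  alp_le_of_forall fun _ hT _ => card_le_card hT

theorem alp_pos {S : Finset V} (h : S.Nonempty) : 1 ≤ alp G S := by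
  obtain ⟨v, hv⟩ := h
  have := (indep_singleton (G := G) v).card_le_alp (S := S) (by simpa using hv)
  simpa using this

theorem alp_eq_zero {S : Finset V} : alp G S = 0 ↔ S = ∅ := by
  constructor
  · intro h
    by_contra hne
    have := alp_pos (G := G) (nonempty_iff_ne_empty.2 hne)
    omega
  · rintro rfl; simp

theorem alp_union_le (A B : Finset V) : alp G (A ∪ B) ≤ alp G A + alp G B := by
  apply alp_le_of_forall
  intro T hT hI
  have h1 : T = (T ∩ A) ∪ (T ∩ B) := by
    rw [← inter_union_distrib_left, inter_eq_left.2 hT]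
  calc T.card = ((T ∩ A) ∪ (T ∩ B)).card := by rw [← h1]
    _ ≤ (T ∩ A).card + (T ∩ B).card := card_union_le _ _
    _ ≤ _ := Nat.add_le_add ((hI.subset inter_subset_left).card_le_alp inter_subset_right)
        ((hI.subset inter_subset_left).card_le_alp inter_subset_right)

/-- Independence number is superadditive on disjoint non-adjacent parts. -/
theorem alp_add_le {A B : Finset V} (hd : Disjoint A B) (h : NoAdj G A B) :
    alp G A + alp G B ≤ alp G (A ∪ B) := by
  obtain ⟨S, hS, hSI, hSc⟩ := exists_indep G A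
  obtain ⟨T, hT, hTI, hTc⟩ := exists_indep G B
  rw [← hSc, ← hTc, ← card_union_of_disjoint (hd.mono hS hT)]
  exact (hSI.union hTI (h.mono hS hT)).card_le_alp (union_subset_union hS hT)

theorem alp_union {A B : Finset V} (hd : Disjoint A B) (h : NoAdj G A B) :
    alp G (A ∪ B) = alp G A + alp G B :=
  le_antisymm (alp_union_le A B) (alp_add_le hd h)

theorem alp_insert_le (v : V) (S : Finset V) : alp G (insert v S) ≤ alp G S + 1 := by
  rw [insert_eq]
  refine (alp_union_le _ _).trans ?_
  have := alp_le_card (G := G) ({v} : Finset V)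
  simp at this
  omega

/-- A set with independence number `≤ 1` is a clique. -/
theorem adj_of_alp_le_one {S : Finset V} (h : alp G S ≤ 1) {x y : V} (hx : x ∈ S) (hy : y ∈ S)
    (hxy : x ≠ y) : G.Adj x y := by
  by_contra hn
  have h1 := (indep_pair hn).card_le_alp (S := S) (by
    intro z hz; simp only [mem_insert, mem_singleton] at hz; rcases hz with rfl | rfl <;> assumption)
  rw [card_pair hxy] at h1
  omega

/-- A clique has independence number `≤ 1`. -/
theorem alp_le_one_of_clique {S : Finset V} (h : ∀ x ∈ S, ∀ y ∈ S, x ≠ y → G.Adj x y) :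
    alp G S ≤ 1 := by
  apply alp_le_of_forall
  intro T hT hI
  rw [card_le_one]
  intro a ha b hb
  by_contra hab
  exact hI a ha b hb (h a (hT ha) b (hT hb) hab)

theorem two_le_alp_of_not_adj {S : Finset V} {x y : V} (hx : x ∈ S) (hy : y ∈ S) (hxy : x ≠ y)
    (hn : ¬ G.Adj x y) : 2 ≤ alp G S := by
  by_contra h
  exact hn (adj_of_alp_le_one (by omega) hx hy hxy)

theorem exists_not_adj_of_two_le_alp {S : Finset V} (h : 2 ≤ alp G S) :
    ∃ x ∈ S, ∃ y ∈ S, x ≠ y ∧ ¬ G.Adj x y := by
  by_contra hcon
  push Not at hcon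
  have := alp_le_one_of_clique (G := G) (S := S) hcon
  omega

section Nbhd

variable [Fintype V]

open Classical in
variable (G) in
/-- Closed neighbourhood of a finset. -/
noncomputable def nbC (I : Finset V) : Finset V :=
  univ.filter (fun x => x ∈ I ∨ ∃ y ∈ I, G.Adj y x)

theorem mem_nbC {I : Finset V} {x : V} : x ∈ nbC G I ↔ x ∈ I ∨ ∃ y ∈ I, G.Adj y x := by
  simp [nbC]

theorem subset_nbC (I : Finset V) : I ⊆ nbC G I := fun x hx => mem_nbC.2 (Or.inl hx)

theorem nbC_mono {I J : Finset V} (h : I ⊆ J) : nbC G I ⊆ nbC G J := by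
  intro x hx
  rw [mem_nbC] at *
  rcases hx with hx | ⟨y, hy, hxy⟩
  · exact Or.inl (h hx)
  · exact Or.inr ⟨y, h hy, hxy⟩

theorem nbC_union (I J : Finset V) : nbC G (I ∪ J) = nbC G I ∪ nbC G J := by
  ext x
  simp only [mem_nbC, mem_union]
  constructor
  · rintro ((h | h) | ⟨y, (hy | hy), hxy⟩)
    · exact Or.inl (Or.inl h)
    · exact Or.inr (Or.inl h)
    · exact Or.inl (Or.inr ⟨y, hy, hxy⟩)
    · exact Or.inr (Or.inr ⟨y, hy, hxy⟩)
  · rintro ((h | ⟨y, hy, hxy⟩) | (h | ⟨y, hy, hxy⟩))
    · exact Or.inl (Or.inl h)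
    · exact Or.inr ⟨y, Or.inl hy, hxy⟩
    · exact Or.inl (Or.inr h)
    · exact Or.inr ⟨y, Or.inr hy, hxy⟩

theorem noAdj_sdiff_nbC {S I : Finset V} : NoAdj G (S \ nbC G I) I := by
  intro x hx y hy hxy
  rw [mem_sdiff, mem_nbC] at hx
  exact hx.2 (Or.inr ⟨y, hy, hxy.symm⟩)

/-- Deleting the closed neighbourhood of an independent set `I` lowers `alp` by at least `|I|`. -/
theorem alp_sdiff_nbC {S I : Finset V} (hI : Indep G I) (hIS : I ⊆ S) :
    alp G (S \ nbC G I) + I.card ≤ alp G S := by
  obtain ⟨T, hT, hTI, hTc⟩ := exists_indep G (S \ nbC G I)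
  rw [← hTc, ← card_union_of_disjoint]
  · refine (hTI.union hI (noAdj_sdiff_nbC.mono hT subset_rfl)).card_le_alp ?_
    exact union_subset (hT.trans sdiff_subset) hIS
  · rw [disjoint_left]
    intro x hx hxI
    exact (mem_sdiff.1 (hT hx)).2 (subset_nbC I hxI)

end Nbhd

end Crest.Agent.R054
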