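import Mathlib

/-!
# R054 / Cyc : cycles given by vertex lists

* `HasCyc G l` : `G` contains a cycle of length `l` (the form of the frozen statement S0075).
* `IsCyc G L`  : the list `L` is the cyclic vertex sequence of a cycle (for `3 ≤ L.length`).
-/

set_option autoImplicit false

namespace Crest.Agent.R054

open SimpleGraph

variable {V : Type*} {G : SimpleGraph V}

/-- `G` contains a cycle of length exactly `l`. -/
def HasCyc (G : SimpleGraph V) (l : ℕ) : Prop :=
  ∃ v : V, ∃ p : G.Walk v v, p.IsCycle ∧ p.length = l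

/-- `L` is the vertex sequence of a path of `G` (possibly empty). -/
def IsPth (G : SimpleGraph V) (L : List V) : Prop := L.Nodup ∧ L.IsChain G.Adj

/-- `L` is the cyclic vertex sequence of a cycle of `G` (degenerate for `L.length ≤ 2`). -/
def IsCyc (G : SimpleGraph V) (L : List V) : Prop :=
  L.Nodup ∧ L.IsChain G.Adj ∧ ∀ a ∈ L.getLast?, ∀ b ∈ L.head?, G.Adj a b

theorem IsCyc.nodup {L : List V} (h : IsCyc G L) : L.Nodup := h.1

theorem IsCyc.isPth {L : List V} (h : IsCyc G L) : IsPth G L := ⟨h.1, h.2.1⟩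

/-- A cyclic list of length at least three gives a cycle. -/
theorem IsCyc.hasCyc {L : List V} (h : IsCyc G L) (h3 : 3 ≤ L.length) : HasCyc G L.length := by
  obtain ⟨hnd, hch, hcl⟩ := h
  match L, h3 with
  | a :: b :: l, h3 =>
    have hl : l ≠ [] := by rintro rfl; simp at h3
    have hne : (a :: b :: l) ≠ [] := by simp
    have hadj : G.Adj ((a :: b :: l).getLast hne) a :=
      hcl _ (by rw [List.getLast?_eq_getLast_of_ne_nil hne]; simp) a (by simp)
    have hch' := hch
    rw [List.isChain_cons_cons] at hch'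
    have hne' : (b :: l) ≠ [] := by simp
    let w' : G.Walk ((b :: l).head hne') ((b :: l).getLast hne') := Walk.ofSupport (b :: l) hne' hch'.2
    have hw's : w'.support = b :: l := Walk.support_ofSupport hne' hch'.2
    have hw'l : w'.length = (b :: l).length - 1 := Walk.length_ofSupport hne' hch'.2
    have hab : G.Adj a ((b :: l).head hne') := hch'.1
    let w : G.Walk a ((b :: l).getLast hne') := Walk.cons hab w'
    have hlast : (a :: b :: l).getLast hne = (b :: l).getLast hne' := by simp
    have hadj2 : G.Adj ((b :: l).getLast hne') a := hlast ▸ hadj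
    refine ⟨_, Walk.cons hadj2 w, ?_, ?_⟩
    · rw [Walk.cons_isCycle_iff]
      constructor
      · rw [Walk.isPath_def]
        show (Walk.cons hab w').support.Nodup
        rw [Walk.support_cons, hw's]
        exact hnd
      · intro hmem
        change s(_, _) ∈ (Walk.cons hab w').edges at hmem
        rw [Walk.edges_cons, List.mem_cons] at hmem
        rcases hmem with hmem | hmem
        · have : (b :: l).getLast hne' = b := by
            rw [Sym2.eq_iff] at hmem
            rcases hmem with ⟨h1, h2⟩ | ⟨h1, h2⟩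
            · exact absurd h1 (hadj2.ne)
            · simpa using h1
          rw [List.getLast_cons hl] at this
          have hb : b ∉ l := by
            have := (List.nodup_cons.1 (List.nodup_cons.1 hnd).2).1
            exact this
          exact hb (this ▸ List.getLast_mem hl)
        · have := Walk.snd_mem_support_of_mem_edges w' hmem
          rw [hw's] at this
          exact (List.nodup_cons.1 hnd).1 this
    · show (Walk.cons hadj2 (Walk.cons hab w')).length = _
      rw [Walk.length_cons, Walk.length_cons, hw'l]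
      simp

theorem IsCyc.hasCyc' {L : List V} (h : IsCyc G L) {n : ℕ} (hn : L.length = n) (h3 : 3 ≤ n) :
    HasCyc G n := by
  subst hn; exact h.hasCyc h3

/-- Transfer of cycles along an injective homomorphism. -/
theorem HasCyc.map {W : Type*} {H : SimpleGraph W} {l : ℕ} (f : W → V)
    (hf : Function.Injective f) (hadj : ∀ a b, H.Adj a b → G.Adj (f a) (f b))
    (h : HasCyc H l) : HasCyc G l := by
  obtain ⟨v, p, hp, hl⟩ := h
  let φ : H →g G := ⟨f, fun {a b} hab => hadj a b hab⟩
  refine ⟨φ v, p.map φ, ?_, by simpa using hl⟩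
  exact (Walk.isCycle_map_iff_of_injective (f := φ) hf).2 hp

theorem IsCyc.map {W : Type*} {H : SimpleGraph W} {L : List W} (f : W → V)
    (hf : Function.Injective f) (hadj : ∀ a b, H.Adj a b → G.Adj (f a) (f b))
    (h : IsCyc H L) : IsCyc G (L.map f) := by
  obtain ⟨h1, h2, h3⟩ := h
  refine ⟨h1.map hf, ?_, ?_⟩
  · rw [List.isChain_map]
    exact h2.imp (fun a b hab => hadj a b hab)
  · intro a ha b hb
    rw [List.getLast?_map] at ha
    rw [List.head?_map] at hb
    simp only [Option.mem_def, Option.map_eq_some_iff] at ha hb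
    obtain ⟨a', ha', rfl⟩ := ha
    obtain ⟨b', hb', rfl⟩ := hb
    exact hadj _ _ (h3 a' ha' b' hb')

theorem IsPth.map {W : Type*} {H : SimpleGraph W} {L : List W} (f : W → V)
    (hf : Function.Injective f) (hadj : ∀ a b, H.Adj a b → G.Adj (f a) (f b))
    (h : IsPth H L) : IsPth G (L.map f) := by
  refine ⟨h.1.map hf, ?_⟩
  rw [List.isChain_map]
  exact h.2.imp (fun a b hab => hadj a b hab)

/-- Paths: appending. -/
theorem isPth_append {L₁ L₂ : List V} : IsPth G (L₁ ++ L₂) ↔
    IsPth G L₁ ∧ IsPth G L₂ ∧ (∀ x ∈ L₁, x ∉ L₂) ∧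
      ∀ x ∈ L₁.getLast?, ∀ y ∈ L₂.head?, G.Adj x y := by
  unfold IsPth
  rw [List.nodup_append', List.isChain_append]
  constructor
  · rintro ⟨⟨h1, h2, h3⟩, h4, h5, h6⟩
    exact ⟨⟨h1, h4⟩, ⟨h2, h5⟩, fun x hx hx' => h3 hx hx', h6⟩
  · rintro ⟨⟨h1, h4⟩, ⟨h2, h5⟩, h3, h6⟩
    exact ⟨⟨h1, h2, fun x hx hx' => h3 x hx hx'⟩, h4, h5, h6⟩

theorem IsPth.reverse {L : List V} (h : IsPth G L) : IsPth G L.reverse := by
  refine ⟨List.nodup_reverse.2 h.1, ?_⟩
  rw [List.isChain_reverse]
  exact h.2.imp (fun a b hab => hab.symm)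

theorem isPth_nil : IsPth G ([] : List V) := ⟨List.nodup_nil, List.isChain_nil⟩

theorem isPth_singleton (a : V) : IsPth G [a] := ⟨List.nodup_singleton a, List.isChain_singleton a⟩

/-- A cyclic list may be rotated. -/
theorem IsCyc.rotate_append {L₁ L₂ : List V} (h : IsCyc G (L₁ ++ L₂)) : IsCyc G (L₂ ++ L₁) := by
  rcases eq_or_ne L₁ [] with rfl | h1
  · simpa using h
  rcases eq_or_ne L₂ [] with rfl | h2
  · simpa using h
  obtain ⟨hnd, hch, hcl⟩ := h
  rw [List.isChain_append] at hch
  refine ⟨List.nodup_append_comm.1 hnd, ?_, ?_⟩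
  · rw [List.isChain_append]
    refine ⟨hch.2.1, hch.1, fun x hx y hy => hcl x ?_ y ?_⟩
    · rw [List.getLast?_append_of_ne_nil _ h2]; exact hx
    · rw [List.head?_append_of_ne_nil _ h1]; exact hy
  · intro x hx y hy
    rw [List.getLast?_append_of_ne_nil _ h1] at hx
    rw [List.head?_append_of_ne_nil _ h2] at hy
    exact hch.2.2 x hx y hy

theorem IsCyc.reverse {L : List V} (h : IsCyc G L) : IsCyc G L.reverse := by
  obtain ⟨hnd, hch, hcl⟩ := h
  refine ⟨List.nodup_reverse.2 hnd, ?_, ?_⟩
  · rw [List.isChain_reverse]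
    exact hch.imp (fun a b hab => hab.symm)
  · intro x hx y hy
    rw [List.getLast?_reverse] at hx
    rw [List.head?_reverse] at hy
    exact (hcl y hy x hx).symm

/-- Shortcut: delete an infix whose two neighbours are adjacent. -/
theorem IsCyc.shortcut {A X B : List V} (h : IsCyc G (A ++ X ++ B)) (hA : A ≠ []) (hB : B ≠ [])
    (hadj : G.Adj (A.getLast hA) (B.head hB)) : IsCyc G (A ++ B) := by
  obtain ⟨hnd, hch, hcl⟩ := h
  rw [List.append_assoc, List.isChain_append, List.isChain_append] at hch
  refine ⟨?_, ?_, ?_⟩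
  · refine hnd.sublist ?_
    rw [List.append_assoc]
    exact (List.Sublist.refl A).append (List.sublist_append_right X B)
  · rw [List.isChain_append]
    refine ⟨hch.1, hch.2.1.2.1, fun x hx y hy => ?_⟩
    rw [List.getLast?_eq_getLast_of_ne_nil hA] at hx
    rw [List.head?_eq_some_head hB] at hy
    simp only [Option.mem_def, Option.some.injEq] at hx hy
    subst hx; subst hy; exact hadj
  · intro x hx y hy
    refine hcl x ?_ y ?_
    · rw [List.getLast?_append_of_ne_nil _ hB] at hx ⊢
      exact hx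
    · rw [List.append_assoc, List.head?_append_of_ne_nil _ hA]
      rw [List.head?_append_of_ne_nil _ hA] at hy
      exact hy

/-- Insertion of a single vertex between two consecutive vertices of a cyclic list. -/
theorem IsCyc.insert {A B : List V} (h : IsCyc G (A ++ B)) (hA : A ≠ []) (hB : B ≠ []) {x : V}
    (hx : x ∉ A ++ B) (h1 : G.Adj (A.getLast hA) x) (h2 : G.Adj x (B.head hB)) :
    IsCyc G (A ++ x :: B) := by
  obtain ⟨hnd, hch, hcl⟩ := h
  rw [List.isChain_append] at hch
  have hx' : x ∉ A ∧ x ∉ B := by simpa using hx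
  rw [List.nodup_append'] at hnd
  refine ⟨?_, ?_, ?_⟩
  · rw [List.nodup_append']
    refine ⟨hnd.1, List.nodup_cons.2 ⟨hx'.2, hnd.2.1⟩, ?_⟩
    intro y hy hy'
    rcases List.mem_cons.1 hy' with rfl | hy'
    · exact hx'.1 hy
    · exact hnd.2.2 hy hy'
  · rw [List.isChain_append]
    refine ⟨hch.1, ?_, ?_⟩
    · match B, hB, h2, hch with
      | b :: B, _, h2, hch => exact List.isChain_cons_cons.2 ⟨h2, hch.2.1⟩
    · intro y hy z hz
      rw [List.getLast?_eq_getLast_of_ne_nil hA] at hy
      simp only [Option.mem_def, Option.some.injEq, List.head?_cons] at hy hz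
      subst hy; subst hz; exact h1
  · intro y hy z hz
    refine hcl y ?_ z ?_
    · rw [List.getLast?_append_of_ne_nil _ (by simp)] at hy
      rw [List.getLast?_append_of_ne_nil _ hB]
      rw [List.getLast?_cons_of_ne_nil hB] at hy
      exact hy
    · rw [List.head?_append_of_ne_nil _ hA] at hz ⊢
      exact hz

/-- Closing two disjoint paths to a cycle. -/
theorem IsPth.close {P Q : List V} (hP : IsPth G P) (hQ : IsPth G Q) (hPn : P ≠ []) (hQn : Q ≠ [])
    (hdisj : ∀ x ∈ P, x ∉ Q) (h1 : G.Adj (P.getLast hPn) (Q.head hQn))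
    (h2 : G.Adj (Q.getLast hQn) (P.head hPn)) : IsCyc G (P ++ Q) := by
  refine ⟨?_, ?_, ?_⟩
  · rw [List.nodup_append']
    exact ⟨hP.1, hQ.1, fun x hx hx' => hdisj x hx hx'⟩
  · rw [List.isChain_append]
    refine ⟨hP.2, hQ.2, fun x hx y hy => ?_⟩
    rw [List.getLast?_eq_getLast_of_ne_nil hPn] at hx
    rw [List.head?_eq_some_head hQn] at hy
    simp only [Option.mem_def, Option.some.injEq] at hx hy
    subst hx; subst hy; exact h1
  · intro x hx y hy
    rw [List.getLast?_append_of_ne_nil _ hQn, List.getLast?_eq_getLast_of_ne_nil hQn] at hx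
    rw [List.head?_append_of_ne_nil _ hPn, List.head?_eq_some_head hPn] at hy
    simp only [Option.mem_def, Option.some.injEq] at hx hy
    subst hx; subst hy; exact h2

/-- Two ports of a cycle `P₁ ++ P₂`: if the last vertices of `P₁` and `P₂` are adjacent, a path `Q`
outside joining the first vertices of `P₁` and `P₂` gives a new cycle through everything. -/
theorem IsCyc.link {P₁ P₂ Q : List V} (h : IsCyc G (P₁ ++ P₂)) (h1 : P₁ ≠ []) (h2 : P₂ ≠ [])
    (hadj : G.Adj (P₁.getLast h1) (P₂.getLast h2)) (hQ : IsPth G Q) (hQn : Q ≠ [])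
    (hdisj : ∀ x ∈ Q, x ∉ P₁ ++ P₂) (ha : G.Adj (P₁.head h1) (Q.head hQn))
    (hb : G.Adj (Q.getLast hQn) (P₂.head h2)) : IsCyc G (P₁.reverse ++ (Q ++ P₂)) := by
  have hP := h.isPth
  rw [isPth_append] at hP
  obtain ⟨hP1, hP2, hd, -⟩ := hP
  have hQ2 : IsPth G (Q ++ P₂) := by
    rw [isPth_append]
    refine ⟨hQ, hP2, fun x hx hx' => hdisj x hx (List.mem_append_right _ hx'), ?_⟩
    intro x hx y hy
    rw [List.getLast?_eq_getLast_of_ne_nil hQn] at hx
    rw [List.head?_eq_some_head h2] at hy
    simp only [Option.mem_def, Option.some.injEq] at hx hy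
    subst hx; subst hy; exact hb
  have hn1 : P₁.reverse ≠ [] := by simpa using h1
  have hn2 : Q ++ P₂ ≠ [] := by simp [h2]
  refine hP1.reverse.close hQ2 hn1 hn2 ?_ ?_ ?_
  · intro x hx hx'
    rw [List.mem_reverse] at hx
    rcases List.mem_append.1 hx' with hx' | hx'
    · exact hdisj x hx' (List.mem_append_left _ hx)
    · exact hd x hx hx'
  · rw [List.getLast_reverse, List.head_append_of_ne_nil hQn]
    exact ha
  · rw [List.head_reverse, List.getLast_append_of_ne_nil hn2 h2]
    exact hadj.symm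

/-! ### Blocks: concatenation of paths with both ends in a clique -/

theorem blocks_aux {M : Set V} (hM : ∀ a ∈ M, ∀ b ∈ M, a ≠ b → G.Adj a b) :
    ∀ bs : List (List V),
      (∀ b ∈ bs, b.IsChain G.Adj ∧ (∀ a ∈ b.head?, a ∈ M) ∧ (∀ a ∈ b.getLast?, a ∈ M)) →
      bs.flatten.Nodup →
      bs.flatten.IsChain G.Adj ∧ (∀ a ∈ bs.flatten.head?, a ∈ M) ∧
        (∀ a ∈ bs.flatten.getLast?, a ∈ M) := by
  intro bs
  induction bs with
  | nil => intro _ _; simp
  | cons b bs ih =>
    intro hb hnd
    rw [List.flatten_cons] at hnd ⊢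
    have hnd' := List.nodup_append'.1 hnd
    obtain ⟨ih1, ih2, ih3⟩ := ih (fun c hc => hb c (List.mem_cons_of_mem _ hc)) hnd'.2.1
    obtain ⟨b1, b2, b3⟩ := hb b (by simp)
    refine ⟨?_, ?_, ?_⟩
    · rw [List.isChain_append]
      refine ⟨b1, ih1, fun x hx y hy => ?_⟩
      refine hM x (b3 x hx) y (ih2 y hy) ?_
      rintro rfl
      exact hnd'.2.2 (List.mem_of_getLast? hx) (List.mem_of_head? hy)
    · intro a ha
      rcases eq_or_ne b [] with rfl | hbn
      · simp only [List.nil_append] at ha
        exact ih2 a ha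
      · rw [List.head?_append_of_ne_nil _ hbn] at ha
        exact b2 a ha
    · intro a ha
      rcases eq_or_ne bs.flatten [] with hbn | hbn
      · rw [hbn, List.append_nil] at ha
        exact b3 a ha
      · rw [List.getLast?_append_of_ne_nil _ hbn] at ha
        exact ih3 a ha

/-- Blocks lemma: paths (blocks) with both ends in a clique `M`, pairwise disjoint, can be
concatenated to a cyclic list. -/
theorem isCyc_flatten {M : Set V} (hM : ∀ a ∈ M, ∀ b ∈ M, a ≠ b → G.Adj a b)
    (bs : List (List V))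
    (hb : ∀ b ∈ bs, b.IsChain G.Adj ∧ (∀ a ∈ b.head?, a ∈ M) ∧ (∀ a ∈ b.getLast?, a ∈ M))
    (hnd : bs.flatten.Nodup) (h2 : 2 ≤ bs.flatten.length) : IsCyc G bs.flatten := by
  obtain ⟨h, hh, hl⟩ := blocks_aux hM bs hb hnd
  refine ⟨hnd, h, fun a ha b hb' => hM a (hl a ha) b (hh b hb') ?_⟩
  rintro rfl
  match hL : bs.flatten, h2 with
  | x :: y :: l, _ =>
    rw [hL] at ha hb' hnd
    simp only [List.head?_cons, Option.mem_def, Option.some.injEq] at hb'
    subst hb'
    rw [List.getLast?_cons_of_ne_nil (by simp)] at ha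
    exact (List.nodup_cons.1 hnd).1 (List.mem_of_getLast? ha)

/-- Blocks plus free vertices of the clique: all lengths between the number of vertices of the blocks
and this number plus the number of unused vertices of the clique. -/
theorem exists_isCyc_of_blocks [DecidableEq V] {M : Finset V}
    (hM : ∀ a ∈ M, ∀ b ∈ M, a ≠ b → G.Adj a b) (bs : List (List V))
    (hb : ∀ b ∈ bs, b.IsChain G.Adj ∧ (∀ a ∈ b.head?, a ∈ M) ∧ (∀ a ∈ b.getLast?, a ∈ M))
    (hnd : bs.flatten.Nodup) {n : ℕ} (hn1 : bs.flatten.length ≤ n)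
    (hn2 : n ≤ bs.flatten.length + (M \ bs.flatten.toFinset).card) (h2 : 2 ≤ n) :
    ∃ L : List V, IsCyc G L ∧ L.length = n ∧ (∀ x ∈ bs.flatten, x ∈ L) ∧
      (∀ x ∈ L, x ∈ bs.flatten ∨ x ∈ M) := by
  obtain ⟨F, hF, hFc⟩ := Finset.exists_subset_card_eq
    (s := M \ bs.flatten.toFinset) (n := n - bs.flatten.length) (by omega)
  have hflat : (F.toList.map (fun x => [x])).flatten = F.toList := by
    induction F.toList with
    | nil => simp
    | cons a l ih => simp [ih]
  have hlen : (bs ++ F.toList.map (fun x => [x])).flatten.length = n := by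
    rw [List.flatten_append, hflat, List.length_append, Finset.length_toList, hFc]
    omega
  refine ⟨(bs ++ F.toList.map (fun x => [x])).flatten, ?_, hlen, ?_, ?_⟩
  · refine isCyc_flatten (M := (M : Set V)) (fun a ha b hb => hM a ha b hb) _ ?_ ?_ (by omega)
    · intro b hb'
      rcases List.mem_append.1 hb' with hb' | hb'
      · exact hb b hb'
      · obtain ⟨x, hx, rfl⟩ := List.mem_map.1 hb'
        have hxM : x ∈ M := (Finset.mem_sdiff.1 (hF (Finset.mem_toList.1 hx))).1
        simpa using hxM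
    · rw [List.flatten_append, hflat, List.nodup_append']
      refine ⟨hnd, Finset.nodup_toList F, fun x hx hx' => ?_⟩
      have := (Finset.mem_sdiff.1 (hF (Finset.mem_toList.1 hx'))).2
      exact this (List.mem_toFinset.2 hx)
  · intro x hx
    rw [List.flatten_append]
    exact List.mem_append_left _ hx
  · intro x hx
    rw [List.flatten_append, hflat] at hx
    rcases List.mem_append.1 hx with hx | hx
    · exact Or.inl hx
    · exact Or.inr (Finset.mem_sdiff.1 (hF (Finset.mem_toList.1 hx))).1

theorem hasCyc_of_blocks [DecidableEq V] {M : Finset V}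
    (hM : ∀ a ∈ M, ∀ b ∈ M, a ≠ b → G.Adj a b) (bs : List (List V))
    (hb : ∀ b ∈ bs, b.IsChain G.Adj ∧ (∀ a ∈ b.head?, a ∈ M) ∧ (∀ a ∈ b.getLast?, a ∈ M))
    (hnd : bs.flatten.Nodup) {n : ℕ} (hn1 : bs.flatten.length ≤ n)
    (hn2 : n ≤ bs.flatten.length + (M \ bs.flatten.toFinset).card) (h3 : 3 ≤ n) :
    HasCyc G n := by
  obtain ⟨L, hL, hn, -⟩ := exists_isCyc_of_blocks hM bs hb hnd hn1 hn2 (by omega)
  exact hL.hasCyc' hn h3

/-! ### Concrete pattern graphs -/

/-- A path certificate in a concrete pattern graph on `Fin n`. -/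
theorem pattern_path {n : ℕ} {adj : Fin n → Fin n → Bool} {f : Fin n → V}
    (hf : Function.Injective f) (hadj : ∀ i j, adj i j = true → G.Adj (f i) (f j))
    (P : List (Fin n)) (h : P.Nodup ∧ P.IsChain (fun i j => adj i j = true)) :
    IsPth G (P.map f) := by
  refine ⟨h.1.map hf, ?_⟩
  rw [List.isChain_map]
  exact h.2.imp (fun a b hab => hadj a b hab)

/-- A pattern path from `i` to `j` closed by an outside path `Q`. -/
theorem pattern_close {n : ℕ} {adj : Fin n → Fin n → Bool} {f : Fin n → V}
    (hf : Function.Injective f) (hadj : ∀ i j, adj i j = true → G.Adj (f i) (f j))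
    (P : List (Fin n)) {i j : Fin n} {l : ℕ}
    (h : P.Nodup ∧ P.IsChain (fun i j => adj i j = true) ∧ P.head? = some i ∧
      P.getLast? = some j) {Q : List V} (hQ : IsPth G Q) (hQn : Q ≠ [])
    (hdisj : ∀ x ∈ Q, ∀ a, x ≠ f a) (h1 : G.Adj (f j) (Q.head hQn))
    (h2 : G.Adj (Q.getLast hQn) (f i)) (hl : P.length + Q.length = l) (h3 : 3 ≤ l) :
    HasCyc G l := by
  obtain ⟨hnd, hch, hi, hj⟩ := h
  have hP := pattern_path hf hadj P ⟨hnd, hch⟩
  have hPn : P.map f ≠ [] := by
    rintro h0
    rw [List.map_eq_nil_iff] at h0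
    subst h0
    simp at hi
  refine (hP.close hQ hPn hQn ?_ ?_ ?_).hasCyc' ?_ h3
  · intro x hx hx'
    obtain ⟨a, -, rfl⟩ := List.mem_map.1 hx
    exact hdisj _ hx' a rfl
  · have : (P.map f).getLast hPn = f j := by
      have := List.getLast?_map (f := f) (l := P)
      rw [hj, List.getLast?_eq_getLast_of_ne_nil hPn] at this
      simpa using this
    rw [this]; exact h1
  · have : (P.map f).head hPn = f i := by
      have := List.head?_map (f := f) (l := P)
      rw [hi, List.head?_eq_some_head hPn] at this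
      simpa using this
    rw [this]; exact h2
  · rw [List.length_append, List.length_map]; exact hl

end Crest.Agent.R054
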