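import Crest.Agent.R054.Alpha
import Crest.Agent.R054.Cyc

/-!
# R054 / Basic : the minimal counterexample

* `MinCE k G` : `G` is a minimal counterexample (`C_{k+1}`-free, `alp G univ ≤ k`,
  `|V| = k * alp G univ + 1`, every proper `T` has `|T| ≤ k * alp G T`).
* `frozen_of_noMinCE` : the frozen statement S0075 follows from "there is no `MinCE`".
* facts on minimal counterexamples.
-/

set_option autoImplicit false

open Finset

namespace Crest.Agent.R054

universe u

section Gen

variable {V : Type*} {G : SimpleGraph V}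

/-- `alp` is invariant under embeddings onto induced subgraphs. -/
theorem alp_map {W : Type*} (H : SimpleGraph W) (f : W ↪ V)
    (hf : ∀ a b, H.Adj a b ↔ G.Adj (f a) (f b)) (T : Finset W) :
    alp G (T.map f) = alp H T := by
  classical
  apply le_antisymm
  · apply alp_le_of_forall
    intro I hIS hI
    obtain ⟨J, hJT, rfl⟩ : ∃ J, J ⊆ T ∧ J.map f = I := by
      refine ⟨T.filter (fun a => f a ∈ I), Finset.filter_subset _ _, ?_⟩
      ext y
      simp only [Finset.mem_map, Finset.mem_filter]
      constructor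
      · rintro ⟨a, ⟨_, ha⟩, rfl⟩
        exact ha
      · intro hy
        have := hIS hy
        rw [Finset.mem_map] at this
        obtain ⟨a, ha, rfl⟩ := this
        exact ⟨a, ⟨ha, hy⟩, rfl⟩
    rw [Finset.card_map]
    refine Indep.card_le_alp ?_ hJT
    intro x hx y hy hxy
    exact hI (f x) (Finset.mem_map_of_mem f hx) (f y) (Finset.mem_map_of_mem f hy) ((hf x y).1 hxy)
  · apply alp_le_of_forall
    intro J hJT hJ
    rw [← Finset.card_map f]
    refine Indep.card_le_alp ?_ (Finset.map_subset_map.2 hJT)
    intro x hx y hy hxy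
    rw [Finset.mem_map] at hx hy
    obtain ⟨a, ha, rfl⟩ := hx
    obtain ⟨b, hb, rfl⟩ := hy
    exact hJ a ha b hb ((hf a b).2 hxy)

theorem Indep.alp_eq {I : Finset V} (h : Indep G I) : alp G I = I.card := by
  classical
  exact le_antisymm (alp_le_card I) (h.card_le_alp (Finset.Subset.refl I))

@[simp] theorem alp_singleton (v : V) : alp G {v} = 1 := by
  rw [(indep_singleton v).alp_eq, Finset.card_singleton]

theorem indep_isNClique {I : Finset V} (h : Indep G I) : Gᶜ.IsNClique I.card I := by
  refine ⟨?_, rfl⟩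
  intro x hx y hy hxy
  rw [SimpleGraph.compl_adj]
  exact ⟨hxy, h x hx y hy⟩

/-- `n ≤ alp G S` iff there is an independent subset of size exactly `n`. -/
theorem le_alp_iff {S : Finset V} {n : ℕ} :
    n ≤ alp G S ↔ ∃ I, I ⊆ S ∧ Indep G I ∧ I.card = n := by
  classical
  constructor
  · intro h
    obtain ⟨I, hIS, hI, hc⟩ := exists_indep G S
    rw [← hc] at h
    obtain ⟨J, hJI, hJ⟩ := Finset.exists_subset_card_eq h
    exact ⟨J, hJI.trans hIS, hI.subset hJI, hJ⟩
  · rintro ⟨I, hIS, hI, hc⟩
    rw [← hc]
    exact hI.card_le_alp hIS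

theorem alp_insert_of_noAdj [DecidableEq V] {v : V} {S : Finset V} (hv : v ∉ S)
    (h : ∀ x ∈ S, ¬ G.Adj v x) : alp G (insert v S) = alp G S + 1 := by
  rw [Finset.insert_eq, alp_union (Finset.disjoint_singleton_left.2 hv), alp_singleton, add_comm]
  intro x hx y hy
  rw [Finset.mem_singleton] at hx
  subst hx
  exact h y hy

/-- Superadditivity over a family of pairwise non-adjacent, pairwise disjoint sets. -/
theorem sum_alp_le_biUnion [DecidableEq V] {ι : Type*} (P : Finset ι)
    (B : ι → Finset V)
    (hfar : ∀ i ∈ P, ∀ j ∈ P, i ≠ j → NoAdj G (B i) (B j))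
    (hdis : ∀ i ∈ P, ∀ j ∈ P, i ≠ j → Disjoint (B i) (B j)) :
    ∑ i ∈ P, alp G (B i) ≤ alp G (P.biUnion B) := by
  classical
  induction P using Finset.induction_on with
  | empty => simp
  | @insert a P ha ih =>
    rw [Finset.sum_insert ha, Finset.biUnion_insert]
    have ih' := ih
      (fun i hi j hj => hfar i (Finset.mem_insert_of_mem hi) j (Finset.mem_insert_of_mem hj))
      (fun i hi j hj => hdis i (Finset.mem_insert_of_mem hi) j (Finset.mem_insert_of_mem hj))
    refine le_trans (Nat.add_le_add_left ih' _) (alp_add_le ?_ ?_)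
    · rw [Finset.disjoint_biUnion_right]
      intro i hi
      have hai : a ≠ i := by rintro rfl; exact ha hi
      exact hdis a (Finset.mem_insert_self a P) i (Finset.mem_insert_of_mem hi) hai
    · intro x hx y hy
      rw [Finset.mem_biUnion] at hy
      obtain ⟨i, hi, hy⟩ := hy
      have hai : a ≠ i := by rintro rfl; exact ha hi
      exact hfar a (Finset.mem_insert_self a P) i (Finset.mem_insert_of_mem hi) hai x hx y hy

theorem sum_alp_le_alp [DecidableEq V] {ι : Type*} (P : Finset ι) (B : ι → Finset V)
    {S : Finset V} (hS : ∀ i ∈ P, B i ⊆ S)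
    (hfar : ∀ i ∈ P, ∀ j ∈ P, i ≠ j → NoAdj G (B i) (B j))
    (hdis : ∀ i ∈ P, ∀ j ∈ P, i ≠ j → Disjoint (B i) (B j)) :
    ∑ i ∈ P, alp G (B i) ≤ alp G S :=
  (sum_alp_le_biUnion P B hfar hdis).trans (alp_mono (Finset.biUnion_subset.2 hS))

/-- A maximum independent set of `S` dominates `S`. -/
theorem exists_adj_of_alp_le_card {I S : Finset V} (hI : Indep G I) (hIS : I ⊆ S)
    (hc : alp G S ≤ I.card) {v : V} (hv : v ∈ S) (hvI : v ∉ I) : ∃ x ∈ I, G.Adj v x := by
  classical
  by_contra hcon
  push Not at hcon
  have h1 : Indep G (insert v I) := indep_insert hI hcon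
  have h2 := h1.card_le_alp (S := S) (Finset.insert_subset hv hIS)
  rw [Finset.card_insert_of_notMem hvI] at h2
  omega

open Classical in
variable (G) in
/-- open neighbourhood of `v` as a finset -/
noncomputable def nb [Fintype V] (v : V) : Finset V := univ.filter (fun w => G.Adj v w)

@[simp] theorem mem_nb [Fintype V] {v w : V} : w ∈ nb G v ↔ G.Adj v w := by
  simp [nb]

theorem notMem_nb_self [Fintype V] (v : V) : v ∉ nb G v := by simp

theorem nbC_singleton [Fintype V] [DecidableEq V] (v : V) : nbC G {v} = insert v (nb G v) := by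
  ext w
  simp [mem_nbC]

theorem mem_nbC_singleton [Fintype V] [DecidableEq V] {v w : V} : w ∈ nbC G {v} ↔ w = v ∨ G.Adj v w := by
  simp [mem_nbC]

theorem card_nbC_singleton [Fintype V] [DecidableEq V] (v : V) : (nbC G {v}).card = (nb G v).card + 1 := by
  rw [nbC_singleton, Finset.card_insert_of_notMem (notMem_nb_self v)]

theorem nbC_pair [Fintype V] [DecidableEq V] (v w : V) :
    nbC G {v, w} = nbC G {v} ∪ nbC G {w} := by
  rw [← nbC_union, Finset.insert_eq]

theorem nbC_insert [Fintype V] [DecidableEq V] (v : V) (I : Finset V) :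
    nbC G (insert v I) = nbC G {v} ∪ nbC G I := by
  rw [← nbC_union, Finset.insert_eq]

/-- A clique of size `≥ n ≥ 3` contains a cycle of length `n`. -/
theorem hasCyc_of_clique {M : Finset V} (hM : ∀ a ∈ M, ∀ b ∈ M, a ≠ b → G.Adj a b) {n : ℕ}
    (h3 : 3 ≤ n) (hn : n ≤ M.card) : HasCyc G n := by
  classical
  refine hasCyc_of_blocks hM [] (by simp) (by simp) (by simp) ?_ h3
  simpa using hn

end Gen

/-- `G` is a minimal counterexample for the parameter `k` (cycle length `k + 1`). -/
structure MinCE (k : ℕ) {V : Type u} [Fintype V] (G : SimpleGraph V) : Prop where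
  hk : 3 ≤ k
  free : ¬ HasCyc G (k + 1)
  alp_le : alp G univ ≤ k
  card_eq : Fintype.card V = k * alp G univ + 1
  proper : ∀ T : Finset V, T ≠ univ → T.card ≤ k * alp G T

/-- Every counterexample contains a minimal one. -/
theorem exists_minCE {k : ℕ} (hk : 3 ≤ k) {V : Type u} [Fintype V] (G : SimpleGraph V)
    (hfree : ¬ HasCyc G (k + 1)) (hal : alp G univ ≤ k)
    (hcard : k * alp G univ < Fintype.card V) :
    ∃ (W : Type u) (_ : Fintype W) (H : SimpleGraph W), MinCE k H := by
  classical
  -- a minimal set `S` with `k * alp S < |S|`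
  obtain ⟨S, hS, hmin⟩ : ∃ S : Finset V, k * alp G S < S.card ∧
      ∀ T : Finset V, T.card < S.card → T.card ≤ k * alp G T := by
    have hex : ∃ n, ∃ S : Finset V, S.card = n ∧ k * alp G S < S.card :=
      ⟨_, univ, rfl, by simpa using hcard⟩
    obtain ⟨S, hSn, hS⟩ := Nat.find_spec hex
    refine ⟨S, hS, fun T hT => ?_⟩
    by_contra hcon
    push Not at hcon
    exact Nat.find_min hex (m := T.card) (by omega) ⟨T, rfl, hcon⟩
  let H : SimpleGraph S := G.comap (Subtype.val)
  have hf : ∀ a b : S, H.Adj a b ↔ G.Adj (Function.Embedding.subtype (· ∈ S) a)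
      (Function.Embedding.subtype (· ∈ S) b) := by
    intro a b
    rfl
  have huniv : (univ : Finset S).map (Function.Embedding.subtype (· ∈ S)) = S := by
    ext x
    simp
  have halS : alp H univ = alp G S := by
    rw [← alp_map H _ hf univ, huniv]
  have hprop : ∀ T : Finset S, T ≠ univ → T.card ≤ k * alp H T := by
    intro T hT
    rw [← alp_map H _ hf T, ← Finset.card_map (Function.Embedding.subtype (· ∈ S))]
    apply hmin
    rw [Finset.card_map]
    have := Finset.card_lt_card ((Finset.ssubset_univ_iff (s := T)).2 hT)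
    simpa using this
  refine ⟨S, inferInstance, H, hk, ?_, ?_, ?_, hprop⟩
  · intro h
    exact hfree (h.map Subtype.val Subtype.val_injective (fun a b hab => hab))
  · rw [halS]
    exact (alp_mono (Finset.subset_univ S)).trans hal
  · -- equality by deleting one vertex
    rw [halS]
    have hSne : S.Nonempty := by
      rw [← Finset.card_pos]; omega
    obtain ⟨v, hv⟩ := hSne
    have h1 := hmin (S.erase v) (by rw [Finset.card_erase_of_mem hv]; have := Finset.card_pos.2 ⟨v, hv⟩; omega)
    rw [Finset.card_erase_of_mem hv] at h1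
    have h2 : alp G (S.erase v) ≤ alp G S := alp_mono (Finset.erase_subset v S)
    have h3 := Nat.mul_le_mul_left k h2
    have h4 : Fintype.card S = S.card := by simp
    rw [h4]
    omega

/-- The frozen statement follows from the non-existence of minimal counterexamples. -/
theorem frozen_of_noMinCE
    (hno : ∀ (k : ℕ) (W : Type) [Fintype W] (H : SimpleGraph W), ¬ MinCE k H)
    (m n : ℕ) (hn : 3 ≤ n) (hnm : n ≤ m)
    (h33 : ¬ (m = 3 ∧ n = 3)) (V : Type) [Fintype V]
    (hV : Fintype.card V = (m - 1) * (n - 1) + 1) (G : SimpleGraph V) :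
    (∃ v : V, ∃ p : G.Walk v v, p.IsCycle ∧ p.length = m) ∨
      (∃ s : Finset V, Gᶜ.IsNClique n s) := by
  classical
  by_contra hcon
  push Not at hcon
  obtain ⟨h1, h2⟩ := hcon
  have hfree : ¬ HasCyc G (m - 1 + 1) := by
    rintro ⟨v, p, hp, hl⟩
    exact h1 v p hp (by omega)
  have hal : alp G univ ≤ n - 1 := by
    by_contra hlt
    push Not at hlt
    obtain ⟨I, _, hI, hc⟩ := le_alp_iff.1 (show n ≤ alp G univ by omega)
    exact h2 I (hc ▸ indep_isNClique hI)
  have hcard : (m - 1) * alp G univ < Fintype.card V := by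
    rw [hV]
    exact Nat.lt_succ_of_le (Nat.mul_le_mul_left _ hal)
  obtain ⟨W, _, H, hH⟩ := exists_minCE (k := m - 1) (by omega) G hfree (by omega) hcard
  exact hno _ W H hH

namespace MinCE

variable {k : ℕ} {V : Type u} [Fintype V] {G : SimpleGraph V}

theorem card_le (h : MinCE k G) (T : Finset V) : T.card ≤ k * alp G T + 1 := by
  classical
  by_cases hT : T = univ
  · subst hT
    rw [Finset.card_univ, h.card_eq]
  · exact (h.proper T hT).trans (Nat.le_succ _)

/-- sets with more than `k * j` vertices have independence number larger than `j` (proper sets) -/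
theorem lt_alp_of_lt_card (h : MinCE k G) {T : Finset V} (hT : T ≠ univ) {j : ℕ}
    (hj : k * j < T.card) : j < alp G T := by
  have h1 := h.proper T hT
  exact lt_of_mul_lt_mul_left (lt_of_lt_of_le hj h1) (Nat.zero_le k)

theorem one_le_alp (h : MinCE k G) : 1 ≤ alp G univ := by
  classical
  have hc := h.card_eq
  apply alp_pos
  rw [← Finset.card_pos, Finset.card_univ]
  omega

/-- two-element (and larger) sets of pairwise adjacent vertices have at most `k` vertices -/
theorem card_clique_le (h : MinCE k G) {K : Finset V}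
    (hK : ∀ a ∈ K, ∀ b ∈ K, a ≠ b → G.Adj a b) : K.card ≤ k := by
  by_contra hcon
  have hk := h.hk
  exact h.free (hasCyc_of_clique hK (by omega) (by omega))

theorem two_le_alp (h : MinCE k G) : 2 ≤ alp G univ := by
  classical
  by_contra hcon
  have h1 := h.card_eq
  have h2 := h.one_le_alp
  have h3 : alp G univ = 1 := by omega
  have h4 := h.card_clique_le (K := univ)
    (fun a ha b hb hab => adj_of_alp_le_one (by omega) ha hb hab)
  rw [Finset.card_univ, h1, h3] at h4
  omega

/-- `|N[I]| ≥ k |I| + 1` for nonempty independent `I`. -/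
theorem card_nbC [DecidableEq V] (h : MinCE k G) {I : Finset V} (hI : Indep G I) (hne : I.Nonempty) :
    k * I.card + 1 ≤ (nbC G I).card := by
  have h1 := alp_sdiff_nbC hI (Finset.subset_univ I)
  have hT : univ \ nbC G I ≠ univ := by
    intro heq
    obtain ⟨v, hv⟩ := hne
    have : v ∈ univ \ nbC G I := by rw [heq]; exact Finset.mem_univ v
    exact (Finset.mem_sdiff.1 this).2 (subset_nbC I hv)
  have h2 := h.proper _ hT
  have h3 := Finset.card_sdiff_add_card_eq_card (Finset.subset_univ (nbC G I))
  rw [Finset.card_univ, h.card_eq] at h3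
  have h4 : k * (alp G (univ \ nbC G I) + I.card) ≤ k * alp G univ := Nat.mul_le_mul_left k h1
  rw [Nat.mul_add] at h4
  omega

/-- Minimum degree at least `k`. -/
theorem le_card_nb (h : MinCE k G) (v : V) : k ≤ (nb G v).card := by
  classical
  have h1 := h.card_nbC (indep_singleton v) (Finset.singleton_nonempty v)
  rw [card_nbC_singleton, Finset.card_singleton] at h1
  omega

/-- Two nonadjacent vertices: `|N[v] ∪ N[w]| ≥ 2k + 1`. -/
theorem card_nbC_pair [DecidableEq V] (h : MinCE k G) {v w : V} (hvw : v ≠ w)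
    (hadj : ¬ G.Adj v w) : 2 * k + 1 ≤ (nbC G {v} ∪ nbC G {w}).card := by
  have h1 := h.card_nbC (indep_pair hadj) (Finset.insert_nonempty v {w})
  rw [Finset.card_pair hvw, nbC_pair] at h1
  omega

/-- Removing at most `k` vertices does not lower the independence number. -/
theorem alp_sdiff_eq [DecidableEq V] (h : MinCE k G) {S : Finset V} (hS : S.card ≤ k) :
    alp G (univ \ S) = alp G univ := by
  apply le_antisymm (alp_mono (Finset.subset_univ _))
  rcases S.eq_empty_or_nonempty with rfl | hne
  · simp
  · have hT : univ \ S ≠ univ := by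
      intro heq
      obtain ⟨v, hv⟩ := hne
      have : v ∈ univ \ S := by rw [heq]; exact Finset.mem_univ v
      exact (Finset.mem_sdiff.1 this).2 hv
    have h3 := Finset.card_sdiff_add_card_eq_card (Finset.subset_univ S)
    rw [Finset.card_univ, h.card_eq] at h3
    have ha := h.one_le_alp
    have h5 : k * (alp G univ - 1) < (univ \ S).card := by
      rw [Nat.mul_sub, Nat.mul_one]
      have : k * 1 ≤ k * alp G univ := Nat.mul_le_mul_left k ha
      omega
    have := h.lt_alp_of_lt_card hT h5
    omega

/-- There is a maximum independent set avoiding a given set of at most `k` vertices; it is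
dominating. -/
theorem exists_indep_avoiding (h : MinCE k G) {S : Finset V} (hS : S.card ≤ k) :
    ∃ I : Finset V, Disjoint I S ∧ Indep G I ∧ I.card = alp G univ ∧
      ∀ v, v ∉ I → ∃ x ∈ I, G.Adj v x := by
  classical
  obtain ⟨I, hIS, hI, hc⟩ := exists_indep G (univ \ S)
  rw [h.alp_sdiff_eq hS] at hc
  refine ⟨I, ?_, hI, hc, ?_⟩
  · rw [Finset.disjoint_left]
    intro x hx
    exact (Finset.mem_sdiff.1 (hIS hx)).2
  · intro v hv
    exact exists_adj_of_alp_le_card hI (Finset.subset_univ I) (le_of_eq hc.symm)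
      (Finset.mem_univ v) hv

/-- Connectedness. -/
theorem not_separated (h : MinCE k G) {A B : Finset V} (hAB : Disjoint A B)
    (hun : ∀ v, v ∈ A ∨ v ∈ B) (hA : A.Nonempty) (hB : B.Nonempty) (hno : NoAdj G A B) :
    False := by
  classical
  have hA' : A ≠ univ := by
    rintro rfl
    obtain ⟨v, hv⟩ := hB
    exact Finset.disjoint_left.1 hAB (Finset.mem_univ v) hv
  have hB' : B ≠ univ := by
    rintro rfl
    obtain ⟨v, hv⟩ := hA
    exact Finset.disjoint_left.1 hAB hv (Finset.mem_univ v)
  have h1 := h.proper A hA'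
  have h2 := h.proper B hB'
  have h3 := alp_add_le hAB hno
  have h4 : A ∪ B = univ := by
    ext v; simpa using hun v
  rw [h4] at h3
  have h5 : A.card + B.card = Fintype.card V := by
    rw [← Finset.card_union_of_disjoint hAB, h4, Finset.card_univ]
  rw [h.card_eq] at h5
  have h6 := Nat.mul_le_mul_left k h3
  rw [Nat.mul_add] at h6
  omega

/-- The sum of the independence numbers of a pairwise far family is at most `k`. -/
theorem sum_alp_le (h : MinCE k G) {ι : Type*} (P : Finset ι) (B : ι → Finset V)
    (hfar : ∀ i ∈ P, ∀ j ∈ P, i ≠ j → NoAdj G (B i) (B j))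
    (hdis : ∀ i ∈ P, ∀ j ∈ P, i ≠ j → Disjoint (B i) (B j)) :
    ∑ i ∈ P, alp G (B i) ≤ k := by
  classical
  exact (sum_alp_le_alp P B (fun i _ => Finset.subset_univ (B i)) hfar hdis).trans h.alp_le

theorem card_indep_le (h : MinCE k G) {I : Finset V} (hI : Indep G I) : I.card ≤ k := by
  classical
  exact (hI.card_le_alp (Finset.subset_univ I)).trans h.alp_le

end MinCE

end Crest.Agent.R054
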