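import Crest.Agent.R054.Ports
import Crest.Agent.R054.Basic

/-!
# R054 / Balls : balls around outside neighbours of the ports of a maximal M-cycle
-/

set_option autoImplicit false

open Finset

set_option linter.unusedSectionVars false

namespace Crest.Agent.R054

variable {V : Type*} [Fintype V] [DecidableEq V] {G : SimpleGraph V}

section General

/-- Independent union of pairwise far independent sets. -/
theorem sum_card_le_alp {ι : Type*} [DecidableEq ι] (U : Finset ι) (S : ι → Finset V) (A : Finset V)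
    (hS : ∀ u ∈ U, S u ⊆ A)
    (hI : ∀ u ∈ U, Indep G (S u))
    (hd : ∀ u ∈ U, ∀ w ∈ U, u ≠ w → ∀ a ∈ S u, ∀ b ∈ S w, a ≠ b ∧ ¬ G.Adj a b) :
    ∑ u ∈ U, (S u).card ≤ alp G A := by
  have h1 : (U.biUnion S).card = ∑ u ∈ U, (S u).card := by
    apply card_biUnion
    intro u hu w hw huw
    show Disjoint (S u) (S w)
    rw [disjoint_left]
    intro a ha hb
    exact (hd u hu w hw huw a ha a hb).1 rfl
  rw [← h1]
  refine Indep.card_le_alp ?_ ?_
  · intro a ha b hb
    obtain ⟨u, hu, ha⟩ := mem_biUnion.1 ha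
    obtain ⟨w, hw, hb⟩ := mem_biUnion.1 hb
    by_cases huw : u = w
    · subst huw; exact hI u hu a ha b hb
    · exact (hd u hu w hw huw a ha b hb).2
  · intro a ha
    obtain ⟨u, hu, ha⟩ := mem_biUnion.1 ha
    exact hS u hu ha

variable {k : ℕ}

/-- A maximum independent set avoiding a small set. -/
theorem exists_max_indep_avoid (hprop : ∀ T : Finset V, T ≠ univ → T.card ≤ k * alp G T)
    (hcard : Fintype.card V = k * alp G univ + 1) (S : Finset V) (hS : S.card ≤ k) :
    ∃ I : Finset V, Indep G I ∧ I.card = alp G univ ∧ ∀ x ∈ I, x ∉ S := by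
  obtain ⟨I, hI, hi, hc⟩ := exists_indep G (univ \ S)
  refine ⟨I, hi, ?_, fun x hx => (mem_sdiff.1 (hI hx)).2⟩
  rcases S.eq_empty_or_nonempty with rfl | hne
  · simpa using hc
  · refine le_antisymm (hi.card_le_alp (subset_univ _)) ?_
    have h1 : univ \ S ≠ univ := by
      intro h
      obtain ⟨x, hx⟩ := hne
      have : x ∈ univ \ S := by rw [h]; exact mem_univ x
      exact (mem_sdiff.1 this).2 hx
    have h2 := hprop _ h1
    have h3 : (univ \ S).card + S.card = Fintype.card V := by
      rw [card_sdiff_add_card_eq_card (subset_univ S)]; rfl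
    rw [hc]
    by_contra hlt
    push Not at hlt
    have h4 : alp G (univ \ S) + 1 ≤ alp G univ := hlt
    have h5 : k * (alp G (univ \ S) + 1) ≤ k * alp G univ := Nat.mul_le_mul_left k h4
    rw [Nat.mul_add, Nat.mul_one] at h5
    omega

/-- Closed neighbourhoods of independent sets are large. -/
theorem card_nbC_ge (hprop : ∀ T : Finset V, T ≠ univ → T.card ≤ k * alp G T)
    (hcard : Fintype.card V = k * alp G univ + 1) {I : Finset V} (hI : Indep G I)
    (hne : I.Nonempty) : k * I.card + 1 ≤ (nbC G I).card := by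
  have h1 : univ \ nbC G I ≠ univ := by
    intro h
    obtain ⟨x, hx⟩ := hne
    have : x ∈ univ \ nbC G I := by rw [h]; exact mem_univ x
    exact (mem_sdiff.1 this).2 (subset_nbC I hx)
  have h2 := hprop _ h1
  have h3 : (univ \ nbC G I).card + (nbC G I).card = Fintype.card V := by
    rw [card_sdiff_add_card_eq_card (subset_univ _)]; rfl
  have h4 := alp_sdiff_nbC hI (subset_univ I)
  have h5 : k * (alp G (univ \ nbC G I) + I.card) ≤ k * alp G univ := Nat.mul_le_mul_left k h4
  rw [Nat.mul_add] at h5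
  omega

theorem card_nbC_singleton_ge (hprop : ∀ T : Finset V, T ≠ univ → T.card ≤ k * alp G T)
    (hcard : Fintype.card V = k * alp G univ + 1) (v : V) : k + 1 ≤ (nbC G {v}).card := by
  have := card_nbC_ge hprop hcard (indep_singleton v) (singleton_nonempty v)
  simpa using this

/-- Every vertex outside a maximum independent set has a neighbour in it. -/
theorem exists_adj_of_max {I : Finset V} (hI : Indep G I) (hc : I.card = alp G univ) {v : V}
    (hv : v ∉ I) : ∃ x ∈ I, G.Adj v x := by
  by_contra hcon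
  push Not at hcon
  have := (indep_insert hI hcon).card_le_alp (subset_univ _)
  rw [card_insert_of_notMem hv] at this
  omega

end General

section Ball

variable {k : ℕ} {M : Finset V} {C : List V}

/-- Hypotheses on a maximal M-cycle. -/
structure MaxCyc (k : ℕ) (G : SimpleGraph V) (M : Finset V) (C : List V) : Prop where
  hprop : ∀ T : Finset V, T ≠ univ → T.card ≤ k * alp G T
  hcard : Fintype.card V = k * alp G univ + 1
  hal : alp G univ ≤ k
  hcyc : ¬ HasCyc G (k + 1)
  hk : 2 ≤ k
  hM : ∀ a ∈ M, ∀ b ∈ M, a ≠ b → G.Adj a b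
  hmaxM : ∀ K : Finset V, (∀ a ∈ K, ∀ b ∈ K, a ≠ b → G.Adj a b) → K.card ≤ M.card
  hC : IsCyc G C
  hMC : ∀ a ∈ M, a ∈ C
  hlen : C.length ≤ k
  hmax : ∀ C', IsCyc G C' → (∀ a ∈ M, a ∈ C') → C'.length ≤ k → C'.length ≤ C.length

open Classical in
/-- the finset of ports -/
noncomputable def ports (M : Finset V) (C : List V) : Finset V :=
  univ.filter (fun u => IsPort M C u)

theorem mem_ports {u : V} : u ∈ ports M C ↔ IsPort M C u := by
  simp [ports]

theorem ports_subset : ports M C ⊆ C.toFinset := by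
  intro u hu
  exact List.mem_toFinset.2 (mem_ports.1 hu).mem

/-- There are at least `|M|` ports. -/
theorem card_le_ports (hC : C.Nodup) (hMC : ∀ a ∈ M, a ∈ C) : M.card ≤ (ports M C).card := by
  classical
  have h : ∀ m ∈ M, ∃ u, Sc C m u := fun m hm => exists_Sc_of_left (hMC m hm)
  choose! f hf using h
  refine card_le_card_of_injOn f ?_ ?_
  · intro m hm
    exact mem_coe.2 (mem_ports.2 ⟨m, hm, hf m hm⟩)
  · intro m hm m' hm' he
    have h1 := hf m hm
    have h2 := hf m' hm'
    rw [he] at h1
    exact h1.left_unique hC h2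

theorem MaxCyc.no_succ_length (h : MaxCyc k G M C) {C' : List V} (hC' : IsCyc G C')
    (hM' : ∀ a ∈ M, a ∈ C') (hl : C'.length = C.length + 1) : False := by
  rcases Nat.lt_or_ge k C'.length with hk | hk
  · have := h.hlen
    exact h.hcyc (hC'.hasCyc' (n := k + 1) (by omega) (by have := h.hk; omega))
  · have := h.hmax C' hC' hM' hk
    omega

/-- No outside vertex is adjacent to two ports. -/
theorem MaxCyc.not_adj_two_ports (h : MaxCyc k G M C) {x u w : V} (hx : x ∉ C)
    (hu : IsPort M C u) (hw : IsPort M C w) (huw : u ≠ w) (h1 : G.Adj u x) (h2 : G.Adj w x) :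
    False := by
  obtain ⟨C', hC', hl, hmem⟩ := hu.link h.hC h.hM hw huw (Q := [x]) (isPth_singleton x) (by simp)
    (by simpa using hx) (by simpa using h1) (by simpa using h2.symm)
  exact h.no_succ_length hC' (fun a ha => (hmem a).2 (Or.inl (h.hMC a ha))) (by simpa using hl)

/-- No outside vertex is adjacent to two consecutive vertices of `C`. -/
theorem MaxCyc.not_adj_consecutive (h : MaxCyc k G M C) {x a b : V} (hx : x ∉ C)
    (hab : Sc C a b) (h1 : G.Adj a x) (h2 : G.Adj x b) : False := by
  obtain ⟨C', hC', hl, hmem⟩ := h.hC.insert_path hab (Q := [x]) (isPth_singleton x) (by simp)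
    (by simpa using hx) (by simpa using h1) (by simpa using h2)
  exact h.no_succ_length hC' (fun a ha => (hmem a).2 (Or.inl (h.hMC a ha))) (by simpa using hl)

/-- the oball around an outside vertex -/
noncomputable def oball (G : SimpleGraph V) (C : List V) (x : V) : Finset V :=
  nbC G {x} \ C.toFinset

theorem mem_oball {x y : V} : y ∈ oball G C x ↔ (y = x ∨ G.Adj x y) ∧ y ∉ C := by
  simp [oball, mem_nbC_singleton]

theorem MaxCyc.card_oball_ge (h : MaxCyc k G M C) {x : V} (hx : x ∉ C) :
    k + M.card ≤ (oball G C x).card + C.length := by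
  have h1 := card_nbC_singleton_ge h.hprop h.hcard x
  have h2 : (nbC G {x}).card = (oball G C x).card + (nbC G {x} ∩ C.toFinset).card := by
    unfold oball; rw [card_sdiff_add_card_inter]
  have h3 : (nbC G {x} ∩ C.toFinset) ⊆ (C.toFinset \ ports M C) ∪
      ((nbC G {x} ∩ ports M C)) := by
    intro y hy
    rw [mem_inter] at hy
    by_cases hyp : y ∈ ports M C
    · exact mem_union_right _ (mem_inter.2 ⟨hy.1, hyp⟩)
    · exact mem_union_left _ (mem_sdiff.2 ⟨hy.2, hyp⟩)
  have h4 : (nbC G {x} ∩ ports M C).card ≤ 1 := by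
    rw [card_le_one]
    intro a ha b hb
    by_contra hab
    rw [mem_inter, mem_nbC_singleton, mem_ports] at ha hb
    have hax : a ≠ x := fun e => hx (e ▸ ha.2.mem)
    have hbx : b ≠ x := fun e => hx (e ▸ hb.2.mem)
    exact h.not_adj_two_ports hx ha.2 hb.2 hab ((ha.1.resolve_left hax).symm)
      ((hb.1.resolve_left hbx).symm)
  have h5 : (C.toFinset \ ports M C).card = C.length - (ports M C).card := by
    rw [card_sdiff_of_subset ports_subset, List.toFinset_card_of_nodup h.hC.nodup]
  have h6 := card_le_ports h.hC.nodup h.hMC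
  have h7 : (ports M C).card ≤ C.length := by
    have := card_le_card (ports_subset (M := M) (C := C))
    rwa [List.toFinset_card_of_nodup h.hC.nodup] at this
  have h8 := card_le_card h3
  have h9 := card_union_le (C.toFinset \ ports M C) (nbC G {x} ∩ ports M C)
  omega

/-- Touching balls give a short outside connection. -/
theorem touch_path {I : Finset V} (hI : Indep G I) {x x' : V} (hx : x ∈ I) (hx' : x' ∈ I)
    (hxx : x ≠ x') (hxC : x ∉ C) (hxC' : x' ∉ C) {a b : V} (ha : a ∈ oball G C x)
    (hb : b ∈ oball G C x') (hab : a = b ∨ G.Adj a b) :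
    ∃ Q : List V, ∃ (hQ : Q ≠ []), IsPth G Q ∧ (∀ y ∈ Q, y ∉ C) ∧ Q.head hQ = x ∧
      Q.getLast hQ = x' ∧ (Q.length = 3 ∨ Q.length = 4) := by
  rw [mem_oball] at ha hb
  have hnadj : ¬ G.Adj x x' := hI x hx x' hx'
  -- common neighbour case
  have key : ∀ y, G.Adj x y → G.Adj x' y → y ∉ C → ∃ Q : List V, ∃ (hQ : Q ≠ []), IsPth G Q ∧
      (∀ y ∈ Q, y ∉ C) ∧ Q.head hQ = x ∧ Q.getLast hQ = x' ∧ (Q.length = 3 ∨ Q.length = 4) := by
    intro y h1 h2 hy
    refine ⟨[x, y, x'], by simp, ⟨?_, ?_⟩, ?_, by simp, by simp, Or.inl (by simp)⟩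
    · simp only [List.nodup_cons, List.mem_cons, List.not_mem_nil, or_false, not_or,
        not_false_eq_true, List.nodup_nil, and_true]
      exact ⟨⟨h1.ne, hxx⟩, h2.ne'⟩
    · simp only [List.isChain_cons_cons, List.isChain_singleton, and_true]
      exact ⟨h1, h2.symm⟩
    · intro z hz
      simp only [List.mem_cons, List.not_mem_nil, or_false] at hz
      rcases hz with rfl | rfl | rfl <;> assumption
  rcases ha.1 with rfl | hxa
  · rcases hb.1 with rfl | hxb
    · rcases hab with rfl | hab
      · exact absurd rfl hxx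
      · exact absurd hab hnadj
    · rcases hab with rfl | hab
      · exact absurd hxb.symm hnadj
      · exact key b hab hxb hb.2
  · rcases hb.1 with rfl | hxb
    · rcases hab with rfl | hab
      · exact absurd hxa hnadj
      · exact key a hxa hab.symm ha.2
    · rcases hab with rfl | hab
      · exact key a hxa hxb ha.2
      · have hax' : a ≠ x' := by rintro rfl; exact hnadj hxa
        have hbx : b ≠ x := by rintro rfl; exact hnadj hxb.symm
        refine ⟨[x, a, b, x'], by simp, ⟨?_, ?_⟩, ?_, by simp, by simp, Or.inr (by simp)⟩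
        · simp only [List.nodup_cons, List.mem_cons, List.not_mem_nil, or_false, not_or,
            not_false_eq_true, List.nodup_nil, and_true]
          exact ⟨⟨hxa.ne, hbx.symm, hxx⟩, ⟨hab.ne, hax'⟩, hxb.ne'⟩
        · simp only [List.isChain_cons_cons, List.isChain_singleton, and_true]
          exact ⟨hxa, hab, hxb.symm⟩
        · intro z hz
          simp only [List.mem_cons, List.not_mem_nil, or_false] at hz
          rcases hz with rfl | rfl | rfl | rfl
          · exact hxC
          · exact ha.2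
          · exact hb.2
          · exact hxC'

/-- Structure around a clique oball. -/
theorem MaxCyc.clique_oball (h : MaxCyc k G M C) {x : V} (hx : x ∉ C)
    (hb : alp G (oball G C x) ≤ 1) :
    C.length = k ∧ (C.toFinset \ ports M C).card + M.card = k ∧ (ports M C).card = M.card ∧
      ∀ c ∈ C, ¬ IsPort M C c → G.Adj x c := by
  have h0 := h.card_oball_ge hx
  have hcl : (oball G C x).card ≤ M.card :=
    h.hmaxM _ fun a ha b hb' hab => adj_of_alp_le_one hb ha hb' hab
  have hlen := h.hlen
  have hlk : C.length = k := by omega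
  have h1 := card_nbC_singleton_ge h.hprop h.hcard x
  have h2 : (nbC G {x}).card = (oball G C x).card + (nbC G {x} ∩ C.toFinset).card := by
    unfold oball; rw [card_sdiff_add_card_inter]
  have h3 : (nbC G {x} ∩ C.toFinset) ⊆ (C.toFinset \ ports M C) ∪
      ((nbC G {x} ∩ ports M C)) := by
    intro y hy
    rw [mem_inter] at hy
    by_cases hyp : y ∈ ports M C
    · exact mem_union_right _ (mem_inter.2 ⟨hy.1, hyp⟩)
    · exact mem_union_left _ (mem_sdiff.2 ⟨hy.2, hyp⟩)
  have h4 : (nbC G {x} ∩ ports M C).card ≤ 1 := by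
    rw [card_le_one]
    intro a ha b hb
    by_contra hab
    rw [mem_inter, mem_nbC_singleton, mem_ports] at ha hb
    have hax : a ≠ x := fun e => hx (e ▸ ha.2.mem)
    have hbx : b ≠ x := fun e => hx (e ▸ hb.2.mem)
    exact h.not_adj_two_ports hx ha.2 hb.2 hab ((ha.1.resolve_left hax).symm)
      ((hb.1.resolve_left hbx).symm)
  have h5 : (C.toFinset \ ports M C).card = C.length - (ports M C).card := by
    rw [card_sdiff_of_subset ports_subset, List.toFinset_card_of_nodup h.hC.nodup]
  have h6 := card_le_ports h.hC.nodup h.hMC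
  have h7 : (ports M C).card ≤ C.length := by
    have := card_le_card (ports_subset (M := M) (C := C))
    rwa [List.toFinset_card_of_nodup h.hC.nodup] at this
  have h8 := card_le_card h3
  have h9 := card_union_le (C.toFinset \ ports M C) (nbC G {x} ∩ ports M C)
  have heq : nbC G {x} ∩ C.toFinset = (C.toFinset \ ports M C) ∪ (nbC G {x} ∩ ports M C) :=
    eq_of_subset_of_card_le h3 (by omega)
  refine ⟨hlk, by omega, by omega, ?_⟩
  intro c hc hcp
  have : c ∈ nbC G {x} ∩ C.toFinset := by
    rw [heq]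
    exact mem_union_left _ (mem_sdiff.2 ⟨List.mem_toFinset.2 hc, fun hh => hcp (mem_ports.1 hh)⟩)
  rw [mem_inter, mem_nbC_singleton] at this
  exact this.1.resolve_left (fun e => hx (e ▸ hc))

theorem MaxCyc.nonport_mem (h : MaxCyc k G M C) {x : V} (hx : x ∉ C)
    (hb : alp G (oball G C x) ≤ 1) {c : V} (hc : c ∈ C) (hxc : G.Adj x c) : c ∈ M := by
  obtain ⟨-, -, -, hn⟩ := h.clique_oball hx hb
  obtain ⟨d, hd⟩ := exists_Sc_of_left hc
  have hdp : IsPort M C d := by
    by_contra hdp
    exact h.not_adj_consecutive hx hd hxc.symm (hn d hd.right_mem hdp)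
  obtain ⟨m, hm, hmd⟩ := hdp
  rw [hd.left_unique h.hC.nodup hmd]
  exact hm

/-- A clique oball forces `2ω ≥ k + 2`. -/
theorem MaxCyc.two_mul_of_clique_oball (h : MaxCyc k G M C) {x u : V} (hx : x ∉ C)
    (hb : alp G (oball G C x) ≤ 1) (hu : IsPort M C u) (hux : G.Adj u x)
    (h2 : k + 1 ≤ 2 * M.card) : k + 2 ≤ 2 * M.card := by
  by_contra hcon
  obtain ⟨hk, hc1, hc2, hn⟩ := h.clique_oball hx hb
  have hsub : insert u (C.toFinset \ ports M C) ⊆ M := by
    intro c hc
    rw [mem_insert, mem_sdiff, List.mem_toFinset, mem_ports] at hc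
    rcases hc with rfl | hc
    · exact h.nonport_mem hx hb hu.mem hux.symm
    · exact h.nonport_mem hx hb hc.1 (hn c hc.1 hc.2)
  have hcard : (insert u (C.toFinset \ ports M C)).card = (C.toFinset \ ports M C).card + 1 := by
    apply card_insert_of_notMem
    rw [mem_sdiff, mem_ports]
    exact fun hh => hh.2 hu
  have heq : insert u (C.toFinset \ ports M C) = M :=
    eq_of_subset_of_card_le hsub (by omega)
  have hxM : ∀ a ∈ M, G.Adj x a := by
    intro a ha
    rw [← heq, mem_insert, mem_sdiff, List.mem_toFinset, mem_ports] at ha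
    rcases ha with rfl | ha
    · exact hux.symm
    · exact hn a ha.1 ha.2
  have hxM' : x ∉ M := fun hh => hx (h.hMC x hh)
  have := h.hmaxM (insert x M) (by
    intro a ha b hb' hab
    rw [mem_insert] at ha hb'
    rcases ha with rfl | ha <;> rcases hb' with rfl | hb'
    · exact absurd rfl hab
    · exact hxM b hb'
    · exact (hxM a ha).symm
    · exact h.hM a ha b hb' hab)
  rw [card_insert_of_notMem hxM'] at this
  omega

/-- At most one port has a clique oball. -/
theorem MaxCyc.clique_oball_unique (h : MaxCyc k G M C) {x u x' u' : V} (hx : x ∉ C) (hx' : x' ∉ C)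
    (hxx : x ≠ x') (hnadj : ¬ G.Adj x x')
    (hb : alp G (oball G C x) ≤ 1) (hu : IsPort M C u) (hux : G.Adj u x)
    (hb' : alp G (oball G C x') ≤ 1) (hu' : IsPort M C u') (hux' : G.Adj u' x')
    (huu : u ≠ u') (hlt : M.card < k) : False := by
  have hnd := h.hC.nodup
  obtain ⟨hk, hc1, hc2, hn⟩ := h.clique_oball hx hb
  obtain ⟨-, -, -, hn'⟩ := h.clique_oball hx' hb'
  have huM := h.nonport_mem hx hb hu.mem hux.symm
  have huM' := h.nonport_mem hx' hb' hu'.mem hux'.symm
  -- a non-port with successor in M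
  have hex : ∃ y w, Sc C y w ∧ ¬ IsPort M C y ∧ w ∈ M := by
    by_contra hcon
    push Not at hcon
    -- the successor map is a bijection from nonports to `C \ M`
    have hcl : ∀ c ∈ C, c ∈ M ∧ IsPort M C c := by
      refine forall_of_Sc_closed (fun c => c ∈ M ∧ IsPort M C c) hu.mem ⟨huM, hu⟩ ?_
      rintro c d hcd ⟨hcM, hcp⟩
      refine ⟨?_, c, hcM, hcd⟩
      by_contra hdM
      have hsucc : ∀ y ∈ C.toFinset \ ports M C, ∃ w, Sc C y w := fun y hy =>
        exists_Sc_of_left (List.mem_toFinset.1 (mem_sdiff.1 hy).1)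
      choose! f hf using hsucc
      have hmaps : ∀ y ∈ C.toFinset \ ports M C, f y ∈ (C.toFinset \ M) := by
        intro y hy
        have hyC := (mem_sdiff.1 hy)
        rw [mem_sdiff, List.mem_toFinset]
        exact ⟨(hf y hy).right_mem, hcon y (f y) (hf y hy) (fun hh => hyC.2 (mem_ports.2 hh))⟩
      have hinj : Set.InjOn f (C.toFinset \ ports M C : Finset V) := by
        intro y hy y' hy' he
        have h1 := hf y (mem_coe.1 hy)
        have h2 := hf y' (mem_coe.1 hy')
        rw [he] at h1
        exact h1.left_unique hnd h2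
      have hMs : M ⊆ C.toFinset := fun a ha => List.mem_toFinset.2 (h.hMC a ha)
      have hcardM : (C.toFinset \ M).card = C.length - M.card := by
        rw [card_sdiff_of_subset hMs, List.toFinset_card_of_nodup hnd]
      have hsurj := Finset.surj_on_of_inj_on_of_card_le (s := C.toFinset \ ports M C)
        (t := C.toFinset \ M) (fun y _ => f y) hmaps
        (fun y y' hy hy' he => hinj (mem_coe.2 hy) (mem_coe.2 hy') he) (by omega)
      obtain ⟨y, hy, hye⟩ := hsurj d (mem_sdiff.2 ⟨List.mem_toFinset.2 hcd.right_mem, hdM⟩)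
      have hy2 := hf y hy
      rw [← hye] at hy2
      have : y = c := hy2.left_unique hnd hcd
      subst this
      exact (mem_sdiff.1 hy).2 (mem_ports.2 hcp)
    have hsub : C.toFinset ⊆ M := fun c hc => (hcl c (List.mem_toFinset.1 hc)).1
    have := card_le_card hsub
    rw [List.toFinset_card_of_nodup hnd] at this
    omega
  obtain ⟨y, w, hyw, hyp, hwM⟩ := hex
  have hyC := hyw.left_mem
  have hyM : y ∈ M := h.nonport_mem hx hb hyC (hn y hyC hyp)
  obtain ⟨P, hP, hPl, hPh⟩ := hyw
  have hPnd : P.Nodup := hP.nodup_iff.2 hnd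
  have hPn : P ≠ [] := by rintro rfl; simp at hPl
  rcases P.eq_nil_or_concat' with hP0 | ⟨P', y1, rfl⟩
  · exact hPn hP0
  have hy1 : y1 = y := by simpa using hPl
  subst hy1
  have huy : ∀ v, IsPort M C v → v ≠ y1 := fun v hv e => hyp (e ▸ hv)
  have huP : u ∈ P' := by
    have : u ∈ P' ++ [y1] := hP.mem_iff.2 hu.mem
    rcases List.mem_append.1 this with h1 | h1
    · exact h1
    · exact absurd (List.mem_singleton.1 h1) (huy u hu)
  rcases P'.eq_nil_or_concat' with hP0 | ⟨A, z, rfl⟩
  · rw [hP0] at huP; simp at huP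
  have hzy : Sc C z y1 := (Sc.of_append (A := A ++ [z]) (B := [y1]) (by simp) (by simp)).of_isRotated hP
  have hzM : z ∉ M := fun hz => hyp ⟨z, hz, hzy⟩
  have hzp : IsPort M C z := by
    by_contra hzp
    exact hzM (h.nonport_mem hx hb hzy.left_mem (hn z hzy.left_mem hzp))
  have hmemA : ∀ v, IsPort M C v → v ∈ M → v ∈ A := by
    intro v hv hvM
    have h1 : v ∈ (A ++ [z]) ++ [y1] := hP.mem_iff.2 hv.mem
    rcases List.mem_append.1 h1 with h1 | h1
    · rcases List.mem_append.1 h1 with h1 | h1
      · exact h1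
      · rw [List.mem_singleton] at h1; subst h1; exact absurd hvM hzM
    · exact absurd (List.mem_singleton.1 h1) (huy v hv)
  have huA := hmemA u hu huM
  have huA' := hmemA u' hu' huM'
  have hAn : A ≠ [] := List.ne_nil_of_mem huA
  have hP2 : A ++ ([z] ++ [y1]) ~r C := by rw [← List.append_assoc]; exact hP
  have hlz : Sc C (A.getLast hAn) z :=
    (Sc.of_append (A := A) (B := [z] ++ [y1]) (List.getLast?_eq_getLast_of_ne_nil hAn)
      (by simp)).of_isRotated hP2
  have hlM : A.getLast hAn ∈ M := by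
    obtain ⟨m, hm, hmz⟩ := hzp
    rw [hlz.left_unique hnd hmz]; exact hm
  have hhM : A.head hAn ∈ M := by
    rw [List.append_assoc, List.head?_append_of_ne_nil _ hAn, List.head?_eq_some_head hAn] at hPh
    rw [Option.some.inj hPh]; exact hwM
  have hAnd : A.Nodup := by
    have := hPnd
    rw [List.append_assoc, List.nodup_append'] at this
    exact this.1
  have hhl : A.getLast hAn ≠ A.head hAn := by
    intro e
    match A, hAn, hAnd, e, huA, huA' with
    | [a], _, _, _, huA, huA' =>
      rw [List.mem_singleton] at huA huA'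
      exact huu (huA.trans huA'.symm)
    | a :: b :: l, _, hAnd, e, _, _ =>
      rw [List.head_cons, List.getLast_cons (by simp)] at e
      exact (List.nodup_cons.1 hAnd).1 (e ▸ List.getLast_mem _)
  have hPc : IsCyc G (A ++ ([z] ++ [y1])) := h.hC.isRotated hP2.symm
  have hAp : IsPth G A := (isPth_append.1 hPc.isPth).1
  have hAc : IsCyc G A := by
    refine ⟨hAp.1, hAp.2, ?_⟩
    intro a ha b hb
    rw [List.getLast?_eq_getLast_of_ne_nil hAn] at ha
    rw [List.head?_eq_some_head hAn] at hb
    simp only [Option.mem_def, Option.some.injEq] at ha hb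
    subst ha; subst hb
    exact h.hM _ hlM _ hhM hhl
  have hport : ∀ v, IsPort M C v → v ∈ A → IsPort M A v := by
    intro v hv hvA
    obtain ⟨A1, A2, hA12⟩ := List.append_of_mem hvA
    rcases eq_or_ne A1 [] with rfl | hA1
    · refine ⟨A.getLast hAn, hlM, A, List.IsRotated.refl _, List.getLast?_eq_getLast_of_ne_nil hAn, ?_⟩
      rw [hA12]; simp
    · have h1 : Sc A (A1.getLast hA1) v := by
        rw [hA12]
        exact Sc.of_append (List.getLast?_eq_getLast_of_ne_nil hA1) (by simp)
      have h2 : Sc C (A1.getLast hA1) v := by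
        refine (Sc.of_append (A := A1) (B := (v :: A2) ++ ([z] ++ [y1]))
          (List.getLast?_eq_getLast_of_ne_nil hA1) (by simp)).of_isRotated ?_
        rw [← List.append_assoc, ← hA12]; exact hP2
      obtain ⟨m, hm, hmv⟩ := hv
      exact ⟨m, hm, by rw [hmv.left_unique hnd h2]; exact h1⟩
  have hyA : y1 ∉ A := by
    intro hyA
    have := hPnd
    rw [List.append_assoc, List.nodup_append'] at this
    exact this.2.2 hyA (by simp)
  have hxA : x ∉ A := fun hh => hx (hP2.mem_iff.1 (List.mem_append_left _ hh))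
  have hxA' : x' ∉ A := fun hh => hx' (hP2.mem_iff.1 (List.mem_append_left _ hh))
  have hxy : x ≠ y1 := fun e => hx (e ▸ hyC)
  have hxy' : y1 ≠ x' := fun e => hx' (e ▸ hyC)
  have hQp : IsPth G [x, y1, x'] := by
    refine ⟨?_, ?_⟩
    · simp only [List.nodup_cons, List.mem_cons, List.not_mem_nil, or_false, not_or,
        not_false_eq_true, List.nodup_nil, and_true]
      exact ⟨⟨hxy, hxx⟩, hxy'⟩
    · simp only [List.isChain_cons_cons, List.isChain_singleton, and_true]
      exact ⟨hn y1 hyC hyp, (hn' y1 hyC hyp).symm⟩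
  have hQd : ∀ v ∈ [x, y1, x'], v ∉ A := by
    intro v hv
    simp only [List.mem_cons, List.not_mem_nil, or_false] at hv
    rcases hv with rfl | rfl | rfl <;> assumption
  obtain ⟨C'', hC'', hl'', -⟩ := (hport u hu huA).link (Q := [x, y1, x']) hAc h.hM
    (hport u' hu' huA') huu hQp (by simp) hQd (by simpa using hux) (by simpa using hux'.symm)
  refine h.hcyc (hC''.hasCyc' ?_ (by have := h.hk; omega))
  have := hP2.perm.length_eq
  simp only [List.length_append, List.length_cons, List.length_nil] at this hl''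
  omega

/-- Main result of the oball layer (port level): there are two different ports joined by an outside
path with three or four vertices. -/
theorem MaxCyc.exists_touch (h : MaxCyc k G M C) (h2 : k + 1 ≤ 2 * M.card) (hlt : M.card < k) :
    ∃ u w, IsPort M C u ∧ IsPort M C w ∧ u ≠ w ∧ ∃ Q : List V, ∃ (hQ : Q ≠ []), IsPth G Q ∧
      (∀ y ∈ Q, y ∉ C) ∧ G.Adj u (Q.head hQ) ∧ G.Adj (Q.getLast hQ) w ∧
      (Q.length = 3 ∨ Q.length = 4) := by
  have hnd := h.hC.nodup
  obtain ⟨I, hI, hIc, hIav⟩ := exists_max_indep_avoid h.hprop h.hcard C.toFinset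
    (by rw [List.toFinset_card_of_nodup hnd]; exact h.hlen)
  have hIav' : ∀ x ∈ I, x ∉ C := fun x hx hc => hIav x hx (List.mem_toFinset.2 hc)
  have hex : ∀ u ∈ ports M C, ∃ x ∈ I, G.Adj u x := fun u hu =>
    exists_adj_of_max hI hIc (fun hh => hIav' u hh (mem_ports.1 hu).mem)
  choose! f hf using hex
  have hinj : ∀ u ∈ ports M C, ∀ w ∈ ports M C, u ≠ w → f u ≠ f w := by
    intro u hu w hw huw he
    exact h.not_adj_two_ports (hIav' _ (hf u hu).1) (mem_ports.1 hu) (mem_ports.1 hw) huw
      (hf u hu).2 (he ▸ (hf w hw).2)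
  by_contra hcon
  have hfar : ∀ u ∈ ports M C, ∀ w ∈ ports M C, u ≠ w → ∀ a ∈ oball G C (f u),
      ∀ b ∈ oball G C (f w), a ≠ b ∧ ¬ G.Adj a b := by
    intro u hu w hw huw a ha b hb
    by_contra hab
    have hab' : a = b ∨ G.Adj a b := by tauto
    obtain ⟨Q, hQ, hQp, hQd, hQh, hQl, hQlen⟩ := touch_path hI (hf u hu).1 (hf w hw).1
      (hinj u hu w hw huw) (hIav' _ (hf u hu).1) (hIav' _ (hf w hw).1) ha hb hab'
    exact hcon ⟨u, w, mem_ports.1 hu, mem_ports.1 hw, huw, Q, hQ, hQp, hQd,
      by rw [hQh]; exact (hf u hu).2, by rw [hQl]; exact (hf w hw).2.symm, hQlen⟩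
  have hS : ∀ u, ∃ T ⊆ oball G C (f u), Indep G T ∧ T.card = alp G (oball G C (f u)) :=
    fun u => exists_indep G _
  choose S hS1 hS2 hS3 using hS
  have hsum := sum_card_le_alp (G := G) (ports M C) S univ (fun u _ => subset_univ _)
    (fun u _ => hS2 u) (fun u hu w hw huw a ha b hb =>
      hfar u hu w hw huw a (hS1 u ha) b (hS1 w hb))
  have hball1 : ∀ u ∈ ports M C, 1 ≤ (S u).card := by
    intro u hu
    rw [hS3 u]
    apply alp_pos
    exact ⟨f u, mem_oball.2 ⟨Or.inl rfl, hIav' _ (hf u hu).1⟩⟩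
  have hω := card_le_ports hnd h.hMC
  have hal := h.hal
  by_cases hcl : ∃ u ∈ ports M C, (S u).card ≤ 1
  · obtain ⟨u, hu, hu1⟩ := hcl
    have h3 : k + 2 ≤ 2 * M.card := h.two_mul_of_clique_oball (hIav' _ (hf u hu).1)
      (by rw [← hS3 u]; exact hu1) (mem_ports.1 hu) (hf u hu).2 h2
    have hother : ∀ w ∈ (ports M C).erase u, 2 ≤ (S w).card := by
      intro w hw
      rw [mem_erase] at hw
      by_contra hlt2
      exact h.clique_oball_unique (hIav' _ (hf u hu).1) (hIav' _ (hf w hw.2).1)
        (hinj u hu w hw.2 hw.1.symm) (hI _ (hf u hu).1 _ (hf w hw.2).1)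
        (by rw [← hS3 u]; exact hu1) (mem_ports.1 hu) (hf u hu).2
        (by rw [← hS3 w]; omega) (mem_ports.1 hw.2) (hf w hw.2).2 hw.1.symm hlt
    have h4 := sum_le_sum hother
    rw [sum_const, smul_eq_mul, card_erase_of_mem hu] at h4
    have h5 := add_sum_erase (ports M C) (fun w => (S w).card) hu
    have h6 := hball1 u hu
    omega
  · push Not at hcl
    have h4 : ∑ w ∈ ports M C, 2 ≤ ∑ w ∈ ports M C, (S w).card := sum_le_sum fun w hw => hcl w hw
    rw [sum_const, smul_eq_mul] at h4
    omega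

/-- Main result of the oball layer (cycle level). -/
theorem MaxCyc.exists_longer (h : MaxCyc k G M C) (h2 : k + 1 ≤ 2 * M.card) (hlt : M.card < k) :
    ∃ C', IsCyc G C' ∧ (∀ a ∈ C, a ∈ C') ∧
      (C'.length = C.length + 3 ∨ C'.length = C.length + 4) := by
  obtain ⟨u, w, hu, hw, huw, Q, hQ, hQp, hQd, h1, h2', hl⟩ := h.exists_touch h2 hlt
  obtain ⟨C', hC', hl', hmem⟩ := hu.link h.hC h.hM hw huw hQp hQ hQd h1 h2'
  exact ⟨C', hC', fun a ha => (hmem a).2 (Or.inl ha), by omega⟩

end Ball

end Crest.Agent.R054
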