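import Crest.Agent.R054.PatFar

/-!
# R054 / PatData : certificates for the small patterns with at least two long ears
(generated by a program, checked by the kernel)
-/

set_option autoImplicit false
set_option maxRecDepth 100000

namespace Crest.Agent.R054.Pat

/-- pattern TTTFFFTFFF, k = 7, w = 4, gaps (0, 0, 3, 3) -/
def X1 : List Bool :=
  [true, true, true, false, false, false, true, false, false, false]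

def certs1 : List Cert := [
  (0, 1, 1, [0, 2, 3, 4, 5, 6, 1, 10]),
  (0, 3, 0, [0, 3, 2, 1, 6, 7, 8, 9]),
  (0, 3, 1, [0, 1, 2, 6, 5, 4, 3, 10]),
  (0, 5, 1, [0, 1, 6, 2, 3, 4, 5, 10]),
  (0, 9, 1, [0, 1, 2, 6, 7, 8, 9, 10]),
  (1, 2, 1, [0, 1, 10, 2, 3, 4, 5, 6]),
  (1, 3, 0, [0, 1, 3, 2, 6, 7, 8, 9]),
  (1, 3, 1, [0, 1, 10, 3, 4, 5, 6, 2]),
  (1, 3, 2, [0, 1, 10, 11, 3, 4, 5, 6]),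
  (1, 3, 3, [0, 1, 10, 11, 12, 3, 2, 6]),
  (1, 3, 4, [0, 1, 10, 11, 12, 13, 3, 2]),
  (1, 4, 0, [0, 1, 4, 5, 6, 7, 8, 9]),
  (1, 5, 0, [0, 2, 1, 5, 6, 7, 8, 9]),
  (1, 5, 1, [0, 1, 10, 5, 4, 3, 2, 6]),
  (1, 5, 2, [0, 1, 10, 11, 5, 4, 3, 2]),
  (1, 5, 3, [0, 1, 10, 11, 12, 5, 6, 2]),
  (1, 5, 4, [0, 1, 10, 11, 12, 13, 5, 6]),
  (1, 6, 1, [0, 1, 10, 6, 5, 4, 3, 2]),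
  (1, 7, 0, [0, 1, 7, 6, 5, 4, 3, 2]),
  (1, 7, 1, [0, 2, 6, 1, 10, 7, 8, 9]),
  (1, 8, 0, [1, 2, 3, 4, 5, 6, 7, 8]),
  (1, 9, 0, [0, 2, 3, 4, 5, 6, 1, 9]),
  (1, 9, 1, [0, 1, 10, 9, 8, 7, 6, 2]),
  (1, 9, 2, [0, 1, 10, 11, 9, 8, 7, 6]),
  (1, 9, 3, [0, 2, 6, 1, 10, 11, 12, 9]),
  (1, 9, 4, [0, 2, 1, 10, 11, 12, 13, 9]),
  (2, 3, 1, [0, 1, 2, 10, 3, 4, 5, 6]),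
  (2, 5, 0, [0, 1, 2, 5, 6, 7, 8, 9]),
  (2, 5, 1, [0, 2, 10, 5, 6, 7, 8, 9]),
  (2, 9, 0, [0, 1, 6, 5, 4, 3, 2, 9]),
  (2, 9, 1, [0, 1, 2, 10, 9, 8, 7, 6]),
  (3, 4, 1, [0, 1, 2, 3, 10, 4, 5, 6]),
  (3, 5, 0, [0, 2, 3, 5, 6, 7, 8, 9]),
  (3, 5, 2, [0, 1, 2, 3, 10, 11, 5, 6]),
  (3, 5, 3, [0, 2, 3, 10, 11, 12, 5, 6]),
  (3, 5, 4, [2, 3, 10, 11, 12, 13, 5, 6]),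
  (3, 6, 0, [0, 1, 2, 3, 6, 7, 8, 9]),
  (3, 6, 1, [0, 2, 3, 10, 6, 7, 8, 9]),
  (3, 7, 0, [0, 1, 6, 2, 3, 7, 8, 9]),
  (3, 7, 1, [0, 1, 2, 3, 10, 7, 8, 9]),
  (3, 8, 0, [0, 1, 6, 5, 4, 3, 8, 9]),
  (3, 8, 1, [0, 1, 2, 3, 10, 8, 7, 6]),
  (3, 9, 0, [0, 1, 2, 3, 9, 8, 7, 6]),
  (3, 9, 1, [0, 1, 6, 5, 4, 3, 10, 9]),
  (3, 9, 2, [0, 1, 6, 2, 3, 10, 11, 9]),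
  (3, 9, 3, [0, 1, 2, 3, 10, 11, 12, 9]),
  (3, 9, 4, [0, 2, 3, 10, 11, 12, 13, 9]),
  (4, 5, 1, [0, 1, 2, 3, 4, 10, 5, 6]),
  (4, 8, 1, [0, 1, 2, 3, 4, 10, 8, 9]),
  (4, 9, 0, [0, 2, 3, 4, 9, 8, 7, 6]),
  (4, 9, 1, [0, 1, 2, 6, 5, 4, 10, 9]),
  (5, 6, 1, [0, 1, 2, 3, 4, 5, 10, 6]),
  (5, 7, 0, [0, 1, 2, 3, 4, 5, 7, 6]),
  (5, 7, 1, [0, 1, 6, 5, 10, 7, 8, 9]),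
  (5, 8, 0, [0, 1, 2, 3, 4, 5, 8, 9]),
  (5, 8, 1, [0, 1, 2, 6, 5, 10, 8, 9]),
  (5, 9, 0, [0, 1, 6, 2, 3, 4, 5, 9]),
  (5, 9, 1, [0, 1, 2, 3, 4, 5, 10, 9]),
  (5, 9, 2, [0, 1, 2, 6, 5, 10, 11, 9]),
  (5, 9, 3, [0, 1, 6, 5, 10, 11, 12, 9]),
  (5, 9, 4, [0, 6, 5, 10, 11, 12, 13, 9]),
  (6, 9, 0, [0, 1, 2, 3, 4, 5, 6, 9]),
  (6, 9, 1, [0, 2, 3, 4, 5, 6, 10, 9]),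
  (7, 9, 0, [0, 2, 3, 4, 5, 6, 7, 9]),
  (8, 9, 1, [0, 1, 2, 6, 7, 8, 10, 9])]

def ports1 : List Port := [(3, [[5]]), (9, [[7]]), (1, [[4, 8]]), (5, [[3]])]

theorem ok1 : farOK 7 4 X1 certs1 ports1 = true := by decide +kernel

/-- pattern TTFFFTTFFF, k = 7, w = 4, gaps (0, 3, 0, 3) -/
def X2 : List Bool :=
  [true, true, false, false, false, true, true, false, false, false]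

def certs2 : List Cert := [
  (0, 2, 0, [0, 2, 1, 5, 6, 7, 8, 9]),
  (0, 2, 1, [0, 1, 6, 5, 4, 3, 2, 10]),
  (0, 4, 0, [0, 4, 5, 1, 6, 7, 8, 9]),
  (0, 4, 1, [0, 5, 6, 1, 2, 3, 4, 10]),
  (0, 7, 0, [0, 1, 2, 3, 4, 5, 6, 7]),
  (0, 9, 1, [0, 1, 5, 6, 7, 8, 9, 10]),
  (1, 2, 1, [0, 1, 10, 2, 3, 4, 5, 6]),
  (1, 4, 0, [0, 1, 4, 5, 6, 7, 8, 9]),
  (1, 7, 0, [0, 5, 4, 3, 2, 1, 7, 6]),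
  (1, 7, 1, [0, 5, 6, 1, 10, 7, 8, 9]),
  (1, 9, 0, [0, 6, 5, 4, 3, 2, 1, 9]),
  (1, 9, 1, [0, 1, 10, 9, 8, 7, 6, 5]),
  (2, 3, 1, [0, 1, 2, 10, 3, 4, 5, 6]),
  (2, 4, 2, [0, 1, 2, 10, 11, 4, 5, 6]),
  (2, 4, 3, [0, 1, 2, 10, 11, 12, 4, 5]),
  (2, 4, 4, [1, 2, 10, 11, 12, 13, 4, 5]),
  (2, 5, 0, [0, 1, 2, 5, 6, 7, 8, 9]),
  (2, 6, 0, [0, 5, 1, 2, 6, 7, 8, 9]),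
  (2, 6, 1, [0, 1, 2, 10, 6, 7, 8, 9]),
  (2, 7, 0, [0, 1, 5, 4, 3, 2, 7, 6]),
  (2, 7, 1, [0, 5, 1, 2, 10, 7, 8, 9]),
  (2, 7, 2, [0, 1, 2, 10, 11, 7, 6, 5]),
  (2, 7, 3, [0, 1, 2, 10, 11, 12, 7, 6]),
  (2, 7, 4, [1, 2, 10, 11, 12, 13, 7, 6]),
  (2, 8, 0, [0, 1, 5, 4, 3, 2, 8, 9]),
  (2, 8, 1, [0, 1, 2, 10, 8, 7, 6, 5]),
  (2, 9, 0, [0, 1, 2, 9, 8, 7, 6, 5]),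
  (2, 9, 1, [0, 1, 2, 10, 9, 8, 7, 6]),
  (2, 9, 2, [0, 5, 4, 3, 2, 10, 11, 9]),
  (2, 9, 3, [0, 5, 1, 2, 10, 11, 12, 9]),
  (2, 9, 4, [0, 1, 2, 10, 11, 12, 13, 9]),
  (3, 4, 1, [0, 1, 2, 3, 10, 4, 5, 6]),
  (3, 7, 0, [0, 1, 5, 4, 3, 7, 8, 9]),
  (3, 7, 1, [0, 1, 2, 3, 10, 7, 6, 5]),
  (3, 9, 0, [0, 1, 2, 3, 9, 8, 7, 6]),
  (3, 9, 1, [0, 1, 6, 5, 4, 3, 10, 9]),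
  (4, 5, 1, [0, 1, 2, 3, 4, 10, 5, 6]),
  (4, 6, 0, [0, 1, 5, 4, 6, 7, 8, 9]),
  (4, 6, 1, [0, 1, 2, 3, 4, 10, 6, 5]),
  (4, 7, 0, [0, 1, 2, 3, 4, 7, 6, 5]),
  (4, 7, 1, [0, 1, 2, 3, 4, 10, 7, 6]),
  (4, 7, 2, [0, 1, 5, 4, 10, 11, 7, 6]),
  (4, 7, 3, [0, 5, 4, 10, 11, 12, 7, 6]),
  (4, 7, 4, [4, 5, 6, 7, 13, 12, 11, 10]),
  (4, 8, 0, [0, 1, 2, 3, 4, 8, 7, 6]),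
  (4, 8, 1, [0, 1, 2, 3, 4, 10, 8, 9]),
  (4, 9, 0, [0, 1, 5, 4, 9, 8, 7, 6]),
  (4, 9, 1, [0, 5, 1, 2, 3, 4, 10, 9]),
  (4, 9, 2, [0, 1, 2, 3, 4, 10, 11, 9]),
  (4, 9, 3, [0, 1, 5, 4, 10, 11, 12, 9]),
  (4, 9, 4, [0, 5, 4, 10, 11, 12, 13, 9]),
  (5, 7, 0, [0, 1, 2, 3, 4, 5, 7, 6]),
  (5, 7, 1, [0, 1, 6, 5, 10, 7, 8, 9]),
  (5, 9, 0, [0, 6, 1, 2, 3, 4, 5, 9]),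
  (5, 9, 1, [0, 1, 2, 3, 4, 5, 10, 9]),
  (6, 7, 1, [0, 1, 5, 6, 10, 7, 8, 9]),
  (6, 9, 0, [0, 1, 2, 3, 4, 5, 6, 9]),
  (7, 8, 1, [0, 1, 5, 6, 7, 10, 8, 9]),
  (7, 9, 2, [0, 1, 5, 6, 7, 10, 11, 9]),
  (7, 9, 3, [0, 1, 6, 7, 10, 11, 12, 9]),
  (7, 9, 4, [0, 6, 7, 10, 11, 12, 13, 9]),
  (8, 9, 1, [0, 1, 5, 6, 7, 8, 10, 9])]

def ports2 : List Port := [(2, [[4, 5]]), (4, [[1, 2]]), (7, [[0, 9]]), (9, [[6, 7]])]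

theorem ok2 : farOK 7 4 X2 certs2 ports2 = true := by decide +kernel

/-- pattern TTTFFFTTFFF, k = 8, w = 5, gaps (0, 0, 3, 0, 3) -/
def X3 : List Bool :=
  [true, true, true, false, false, false, true, true, false, false, false]

def certs3 : List Cert := [
  (0, 1, 1, [0, 2, 3, 4, 5, 6, 7, 1, 11]),
  (0, 1, 2, [0, 2, 3, 4, 5, 6, 1, 12, 11]),
  (0, 1, 3, [0, 10, 9, 8, 7, 1, 13, 12, 11]),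
  (0, 1, 4, [0, 2, 6, 7, 1, 14, 13, 12, 11]),
  (0, 2, 1, [0, 1, 7, 6, 5, 4, 3, 2, 11]),
  (0, 2, 2, [0, 1, 6, 5, 4, 3, 2, 12, 11]),
  (0, 2, 3, [0, 6, 5, 4, 3, 2, 13, 12, 11]),
  (0, 2, 4, [0, 1, 6, 7, 2, 14, 13, 12, 11]),
  (0, 3, 0, [0, 3, 2, 1, 6, 7, 8, 9, 10]),
  (0, 3, 1, [0, 1, 2, 7, 6, 5, 4, 3, 11]),
  (0, 3, 2, [0, 1, 2, 6, 5, 4, 3, 12, 11]),
  (0, 3, 3, [0, 1, 6, 5, 4, 3, 13, 12, 11]),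
  (0, 3, 4, [0, 1, 6, 2, 3, 14, 13, 12, 11]),
  (0, 4, 0, [0, 4, 3, 2, 1, 7, 8, 9, 10]),
  (0, 4, 1, [0, 10, 9, 8, 7, 2, 3, 4, 11]),
  (0, 4, 2, [0, 1, 2, 7, 6, 5, 4, 12, 11]),
  (0, 4, 3, [0, 1, 2, 6, 5, 4, 13, 12, 11]),
  (0, 4, 4, [0, 1, 2, 3, 4, 14, 13, 12, 11]),
  (0, 5, 0, [0, 5, 4, 3, 2, 7, 8, 9, 10]),
  (0, 5, 1, [0, 1, 6, 7, 2, 3, 4, 5, 11]),
  (0, 6, 1, [0, 1, 7, 2, 3, 4, 5, 6, 11]),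
  (0, 7, 1, [0, 1, 2, 3, 4, 5, 6, 7, 11]),
  (0, 8, 0, [0, 1, 2, 3, 4, 5, 6, 7, 8]),
  (0, 8, 1, [0, 2, 3, 4, 5, 6, 7, 8, 11]),
  (0, 9, 0, [0, 2, 3, 4, 5, 6, 7, 8, 9]),
  (0, 10, 1, [0, 1, 2, 6, 7, 8, 9, 10, 11]),
  (1, 2, 1, [0, 1, 11, 2, 3, 4, 5, 6, 7]),
  (1, 2, 2, [0, 1, 11, 12, 2, 3, 4, 5, 6]),
  (1, 2, 3, [1, 6, 5, 4, 3, 2, 13, 12, 11]),
  (1, 2, 4, [0, 1, 11, 12, 13, 14, 2, 6, 7]),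
  (1, 3, 0, [0, 1, 3, 2, 6, 7, 8, 9, 10]),
  (1, 3, 1, [0, 1, 11, 3, 2, 7, 8, 9, 10]),
  (1, 3, 2, [0, 1, 11, 12, 3, 4, 5, 6, 2]),
  (1, 3, 3, [0, 1, 11, 12, 13, 3, 2, 6, 7]),
  (1, 3, 4, [0, 1, 11, 12, 13, 14, 3, 2, 6]),
  (1, 4, 0, [0, 1, 4, 3, 2, 7, 8, 9, 10]),
  (1, 4, 2, [0, 1, 11, 12, 4, 3, 2, 6, 7]),
  (1, 4, 3, [0, 1, 11, 12, 13, 4, 3, 2, 6]),
  (1, 4, 4, [0, 1, 11, 12, 13, 14, 4, 3, 2]),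
  (1, 5, 0, [0, 1, 5, 6, 2, 7, 8, 9, 10]),
  (1, 5, 1, [0, 1, 11, 5, 4, 3, 2, 6, 7]),
  (1, 6, 1, [0, 1, 11, 6, 2, 7, 8, 9, 10]),
  (1, 7, 1, [0, 1, 11, 7, 2, 3, 4, 5, 6]),
  (1, 8, 0, [0, 1, 8, 7, 2, 3, 4, 5, 6]),
  (1, 8, 1, [0, 2, 6, 7, 1, 11, 8, 9, 10]),
  (1, 9, 0, [0, 2, 3, 4, 5, 6, 1, 9, 10]),
  (1, 10, 0, [0, 2, 3, 4, 5, 6, 7, 1, 10]),
  (1, 10, 1, [0, 1, 11, 10, 9, 8, 7, 2, 6]),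
  (2, 3, 1, [0, 1, 2, 11, 3, 4, 5, 6, 7]),
  (2, 3, 2, [0, 1, 2, 11, 12, 3, 4, 5, 6]),
  (2, 3, 3, [0, 2, 11, 12, 13, 3, 4, 5, 6]),
  (2, 3, 4, [2, 6, 5, 4, 3, 14, 13, 12, 11]),
  (2, 4, 0, [0, 2, 4, 5, 6, 7, 8, 9, 10]),
  (2, 4, 2, [0, 1, 2, 11, 12, 4, 5, 6, 7]),
  (2, 4, 3, [0, 1, 2, 11, 12, 13, 4, 5, 6]),
  (2, 4, 4, [0, 2, 11, 12, 13, 14, 4, 5, 6]),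
  (2, 5, 0, [0, 1, 2, 5, 6, 7, 8, 9, 10]),
  (2, 5, 1, [0, 2, 11, 5, 6, 7, 8, 9, 10]),
  (2, 6, 1, [0, 1, 2, 11, 6, 7, 8, 9, 10]),
  (2, 7, 1, [0, 1, 6, 2, 11, 7, 8, 9, 10]),
  (2, 8, 0, [0, 1, 6, 5, 4, 3, 2, 8, 7]),
  (2, 8, 1, [0, 1, 6, 7, 2, 11, 8, 9, 10]),
  (2, 9, 0, [0, 1, 6, 5, 4, 3, 2, 9, 10]),
  (2, 9, 1, [0, 6, 5, 4, 3, 2, 11, 9, 10]),
  (2, 10, 0, [0, 1, 7, 6, 5, 4, 3, 2, 10]),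
  (2, 10, 1, [0, 1, 2, 11, 10, 9, 8, 7, 6]),
  (3, 4, 1, [0, 1, 2, 3, 11, 4, 5, 6, 7]),
  (3, 4, 2, [0, 1, 2, 3, 11, 12, 4, 5, 6]),
  (3, 4, 3, [0, 2, 3, 11, 12, 13, 4, 5, 6]),
  (3, 4, 4, [2, 3, 11, 12, 13, 14, 4, 5, 6]),
  (3, 5, 0, [0, 2, 3, 5, 6, 7, 8, 9, 10]),
  (3, 6, 0, [0, 1, 2, 3, 6, 7, 8, 9, 10]),
  (3, 6, 1, [0, 2, 3, 11, 6, 7, 8, 9, 10]),
  (3, 7, 0, [0, 1, 6, 2, 3, 7, 8, 9, 10]),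
  (3, 7, 1, [0, 1, 2, 3, 11, 7, 8, 9, 10]),
  (3, 8, 0, [0, 1, 2, 6, 5, 4, 3, 8, 7]),
  (3, 8, 1, [0, 1, 6, 2, 3, 11, 8, 9, 10]),
  (3, 9, 0, [0, 1, 2, 6, 5, 4, 3, 9, 10]),
  (3, 9, 1, [0, 1, 2, 3, 11, 9, 8, 7, 6]),
  (3, 10, 0, [0, 1, 2, 3, 10, 9, 8, 7, 6]),
  (3, 10, 1, [0, 1, 2, 3, 11, 10, 9, 8, 7]),
  (4, 5, 1, [0, 1, 2, 3, 4, 11, 5, 6, 7]),
  (4, 6, 0, [0, 2, 3, 4, 6, 7, 8, 9, 10]),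
  (4, 7, 0, [0, 1, 2, 3, 4, 7, 8, 9, 10]),
  (4, 7, 1, [0, 2, 3, 4, 11, 7, 8, 9, 10]),
  (4, 8, 0, [0, 1, 2, 6, 5, 4, 8, 9, 10]),
  (4, 8, 1, [0, 1, 2, 3, 4, 11, 8, 7, 6]),
  (4, 9, 0, [0, 1, 2, 3, 4, 9, 8, 7, 6]),
  (4, 9, 1, [0, 1, 2, 3, 4, 11, 9, 8, 7]),
  (4, 10, 0, [0, 1, 2, 3, 4, 10, 9, 8, 7]),
  (4, 10, 1, [0, 1, 2, 7, 6, 5, 4, 11, 10])]

def ports3 : List Port := [(3, [[5]]), (4, [[1, 2, 6]]), (1, [[4, 9]]), (0, [[9]]), (2, [[4]])]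

theorem ok3 : farOK 8 5 X3 certs3 ports3 = true := by decide +kernel

/-- pattern TTTFFFTTFFFF, k = 9, w = 5, gaps (0, 0, 3, 0, 4) -/
def X4 : List Bool :=
  [true, true, true, false, false, false, true, true, false, false, false, false]

def certs4 : List Cert := [
  (0, 1, 1, [0, 11, 10, 9, 8, 7, 2, 6, 1, 12]),
  (0, 2, 1, [0, 11, 10, 9, 8, 7, 1, 6, 2, 12]),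
  (0, 8, 1, [0, 1, 2, 3, 4, 5, 6, 7, 8, 12]),
  (0, 9, 0, [0, 1, 2, 3, 4, 5, 6, 7, 8, 9]),
  (0, 9, 1, [0, 2, 3, 4, 5, 6, 7, 8, 9, 12]),
  (0, 10, 0, [0, 2, 3, 4, 5, 6, 7, 8, 9, 10]),
  (1, 2, 1, [0, 1, 12, 2, 6, 7, 8, 9, 10, 11]),
  (1, 2, 2, [0, 1, 12, 13, 2, 3, 4, 5, 6, 7]),
  (1, 2, 3, [0, 1, 12, 13, 14, 2, 3, 4, 5, 6]),
  (1, 2, 4, [1, 6, 5, 4, 3, 2, 15, 14, 13, 12]),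
  (1, 3, 0, [0, 1, 3, 2, 6, 7, 8, 9, 10, 11]),
  (1, 3, 1, [0, 1, 12, 3, 2, 7, 8, 9, 10, 11]),
  (1, 4, 0, [0, 1, 4, 3, 2, 7, 8, 9, 10, 11]),
  (1, 5, 0, [0, 1, 5, 6, 2, 7, 8, 9, 10, 11]),
  (1, 5, 1, [0, 1, 12, 5, 6, 7, 8, 9, 10, 11]),
  (1, 6, 1, [0, 1, 12, 6, 2, 7, 8, 9, 10, 11]),
  (1, 7, 1, [0, 2, 6, 1, 12, 7, 8, 9, 10, 11]),
  (1, 8, 1, [0, 1, 12, 8, 7, 2, 3, 4, 5, 6]),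
  (1, 8, 2, [0, 2, 6, 1, 12, 13, 8, 9, 10, 11]),
  (1, 8, 3, [0, 2, 1, 12, 13, 14, 8, 9, 10, 11]),
  (1, 8, 4, [0, 1, 12, 13, 14, 15, 8, 7, 2, 6]),
  (1, 9, 0, [0, 1, 9, 8, 7, 2, 3, 4, 5, 6]),
  (1, 9, 1, [1, 2, 3, 4, 5, 6, 7, 8, 9, 12]),
  (1, 9, 2, [0, 2, 6, 7, 1, 12, 13, 9, 10, 11]),
  (1, 9, 3, [0, 1, 12, 13, 14, 9, 8, 7, 2, 6]),
  (1, 9, 4, [0, 1, 12, 13, 14, 15, 9, 8, 7, 2]),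
  (1, 10, 0, [0, 2, 3, 4, 5, 6, 7, 1, 10, 11]),
  (1, 10, 1, [0, 2, 3, 4, 5, 6, 1, 12, 10, 11]),
  (1, 10, 2, [0, 1, 12, 13, 10, 9, 8, 7, 2, 6]),
  (1, 10, 3, [0, 1, 12, 13, 14, 10, 9, 8, 7, 2]),
  (1, 10, 4, [0, 1, 12, 13, 14, 15, 10, 9, 8, 7]),
  (1, 11, 1, [0, 1, 12, 11, 10, 9, 8, 7, 2, 6]),
  (2, 4, 0, [0, 2, 4, 5, 6, 7, 8, 9, 10, 11]),
  (2, 5, 0, [0, 1, 2, 5, 6, 7, 8, 9, 10, 11]),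
  (2, 5, 1, [0, 2, 12, 5, 6, 7, 8, 9, 10, 11]),
  (2, 6, 1, [0, 1, 2, 12, 6, 7, 8, 9, 10, 11]),
  (2, 7, 1, [0, 1, 6, 2, 12, 7, 8, 9, 10, 11]),
  (2, 8, 0, [0, 6, 5, 4, 3, 2, 8, 9, 10, 11]),
  (2, 8, 1, [0, 1, 6, 5, 4, 3, 2, 12, 8, 7]),
  (2, 8, 2, [0, 1, 6, 2, 12, 13, 8, 9, 10, 11]),
  (2, 8, 3, [0, 1, 2, 12, 13, 14, 8, 9, 10, 11]),
  (2, 8, 4, [0, 1, 2, 12, 13, 14, 15, 8, 7, 6]),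
  (2, 9, 0, [0, 1, 6, 5, 4, 3, 2, 9, 8, 7]),
  (2, 9, 1, [0, 6, 5, 4, 3, 2, 12, 9, 8, 7]),
  (2, 9, 2, [0, 1, 6, 7, 2, 12, 13, 9, 10, 11]),
  (2, 9, 3, [0, 1, 2, 12, 13, 14, 9, 8, 7, 6]),
  (2, 9, 4, [0, 1, 2, 12, 13, 14, 15, 9, 8, 7]),
  (2, 10, 0, [0, 1, 7, 6, 5, 4, 3, 2, 10, 11]),
  (2, 10, 1, [0, 1, 6, 5, 4, 3, 2, 12, 10, 11]),
  (2, 10, 2, [0, 1, 2, 12, 13, 10, 9, 8, 7, 6]),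
  (2, 10, 3, [0, 1, 2, 12, 13, 14, 10, 9, 8, 7]),
  (2, 10, 4, [0, 1, 6, 2, 12, 13, 14, 15, 10, 11]),
  (2, 11, 0, [2, 3, 4, 5, 6, 7, 8, 9, 10, 11]),
  (2, 11, 1, [0, 1, 2, 12, 11, 10, 9, 8, 7, 6]),
  (3, 8, 0, [0, 1, 6, 5, 4, 3, 8, 9, 10, 11]),
  (3, 8, 1, [0, 1, 2, 6, 5, 4, 3, 12, 8, 7]),
  (3, 9, 0, [0, 1, 2, 6, 5, 4, 3, 9, 8, 7]),
  (3, 9, 1, [0, 1, 6, 5, 4, 3, 12, 9, 8, 7]),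
  (3, 10, 0, [0, 1, 2, 7, 6, 5, 4, 3, 10, 11]),
  (3, 10, 1, [0, 1, 2, 3, 12, 10, 9, 8, 7, 6]),
  (4, 8, 0, [0, 1, 2, 6, 5, 4, 8, 9, 10, 11]),
  (4, 8, 1, [0, 1, 2, 3, 4, 12, 8, 9, 10, 11]),
  (4, 9, 0, [0, 1, 2, 7, 6, 5, 4, 9, 10, 11]),
  (4, 9, 1, [0, 1, 2, 3, 4, 12, 9, 8, 7, 6]),
  (4, 10, 0, [0, 1, 2, 3, 4, 10, 9, 8, 7, 6]),
  (4, 10, 1, [0, 1, 2, 3, 4, 12, 10, 9, 8, 7]),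
  (5, 8, 0, [0, 1, 2, 3, 4, 5, 8, 9, 10, 11]),
  (5, 8, 1, [0, 1, 2, 3, 4, 5, 12, 8, 7, 6]),
  (5, 9, 0, [0, 1, 2, 3, 4, 5, 9, 8, 7, 6]),
  (5, 9, 1, [0, 1, 2, 3, 4, 5, 12, 9, 8, 7]),
  (5, 10, 0, [0, 1, 2, 3, 4, 5, 10, 9, 8, 7]),
  (5, 10, 1, [0, 1, 2, 6, 5, 12, 10, 9, 8, 7]),
  (6, 8, 0, [0, 2, 3, 4, 5, 6, 8, 9, 10, 11]),
  (6, 8, 1, [0, 1, 2, 3, 4, 5, 6, 12, 8, 7]),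
  (6, 9, 0, [0, 1, 2, 3, 4, 5, 6, 9, 8, 7]),
  (6, 9, 1, [0, 2, 3, 4, 5, 6, 12, 9, 8, 7]),
  (6, 10, 0, [0, 1, 7, 2, 3, 4, 5, 6, 10, 11]),
  (6, 10, 1, [0, 1, 2, 3, 4, 5, 6, 12, 10, 11]),
  (7, 8, 1, [0, 1, 2, 6, 7, 12, 8, 9, 10, 11]),
  (7, 9, 0, [0, 2, 3, 4, 5, 6, 7, 9, 10, 11]),
  (7, 10, 0, [0, 1, 2, 3, 4, 5, 6, 7, 10, 11]),
  (7, 10, 1, [0, 2, 3, 4, 5, 6, 7, 12, 10, 11]),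
  (7, 11, 1, [0, 1, 2, 3, 4, 5, 6, 7, 12, 11]),
  (8, 9, 1, [0, 1, 2, 6, 7, 8, 12, 9, 10, 11]),
  (8, 9, 2, [0, 1, 2, 7, 8, 12, 13, 9, 10, 11]),
  (8, 9, 3, [0, 1, 7, 8, 12, 13, 14, 9, 10, 11]),
  (8, 9, 4, [0, 7, 8, 12, 13, 14, 15, 9, 10, 11]),
  (8, 10, 0, [0, 2, 3, 4, 5, 6, 7, 8, 10, 11]),
  (8, 10, 2, [0, 1, 2, 6, 7, 8, 12, 13, 10, 11]),
  (8, 10, 3, [0, 1, 2, 7, 8, 12, 13, 14, 10, 11]),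
  (8, 10, 4, [0, 1, 7, 8, 12, 13, 14, 15, 10, 11]),
  (8, 11, 0, [0, 1, 2, 3, 4, 5, 6, 7, 8, 11]),
  (8, 11, 1, [0, 2, 3, 4, 5, 6, 7, 8, 12, 11]),
  (9, 10, 1, [0, 1, 2, 6, 7, 8, 9, 12, 10, 11]),
  (9, 10, 2, [0, 1, 2, 7, 8, 9, 12, 13, 10, 11]),
  (9, 10, 3, [0, 1, 7, 8, 9, 12, 13, 14, 10, 11]),
  (9, 10, 4, [0, 7, 8, 9, 12, 13, 14, 15, 10, 11]),
  (9, 11, 0, [0, 2, 3, 4, 5, 6, 7, 8, 9, 11]),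
  (10, 11, 1, [0, 1, 2, 6, 7, 8, 9, 10, 12, 11])]

def ports4 : List Port := [(9, [[7, 11]]), (10, [[0, 8]]), (8, [[10]]), (2, [[3], [4]]), (1, [[4]])]

theorem ok4 : farOK 9 5 X4 certs4 ports4 = true := by decide +kernel

/-- pattern TTTTFFFFTFFFF, k = 9, w = 5, gaps (0, 0, 0, 4, 4) -/
def X5 : List Bool :=
  [true, true, true, true, false, false, false, false, true, false, false, false, false]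

def certs5 : List Cert := [
  (0, 1, 1, [0, 2, 3, 4, 5, 6, 7, 8, 1, 13]),
  (0, 2, 1, [0, 1, 3, 4, 5, 6, 7, 8, 2, 13]),
  (0, 3, 1, [0, 1, 2, 8, 7, 6, 5, 4, 3, 13]),
  (0, 4, 0, [0, 4, 3, 1, 2, 8, 9, 10, 11, 12]),
  (0, 4, 1, [0, 1, 2, 3, 8, 7, 6, 5, 4, 13]),
  (0, 4, 2, [0, 1, 2, 8, 7, 6, 5, 4, 14, 13]),
  (0, 4, 3, [0, 1, 8, 7, 6, 5, 4, 15, 14, 13]),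
  (0, 4, 4, [0, 1, 2, 8, 3, 4, 16, 15, 14, 13]),
  (0, 5, 0, [0, 5, 4, 3, 1, 8, 9, 10, 11, 12]),
  (0, 5, 1, [0, 12, 11, 10, 9, 8, 3, 4, 5, 13]),
  (0, 5, 2, [0, 1, 2, 3, 8, 7, 6, 5, 14, 13]),
  (0, 5, 3, [0, 1, 2, 8, 3, 4, 5, 15, 14, 13]),
  (0, 5, 4, [0, 1, 2, 3, 4, 5, 16, 15, 14, 13]),
  (0, 6, 0, [0, 6, 5, 4, 3, 8, 9, 10, 11, 12]),
  (0, 6, 2, [0, 1, 2, 8, 3, 4, 5, 6, 14, 13]),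
  (0, 6, 3, [0, 1, 2, 3, 4, 5, 6, 15, 14, 13]),
  (0, 6, 4, [0, 1, 2, 8, 7, 6, 16, 15, 14, 13]),
  (0, 7, 1, [0, 1, 2, 8, 3, 4, 5, 6, 7, 13]),
  (0, 8, 1, [0, 1, 2, 3, 4, 5, 6, 7, 8, 13]),
  (0, 9, 0, [0, 1, 2, 3, 4, 5, 6, 7, 8, 9]),
  (0, 9, 1, [0, 1, 3, 4, 5, 6, 7, 8, 9, 13]),
  (0, 10, 0, [0, 1, 3, 4, 5, 6, 7, 8, 9, 10]),
  (0, 10, 1, [0, 3, 4, 5, 6, 7, 8, 9, 10, 13]),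
  (0, 11, 0, [0, 3, 4, 5, 6, 7, 8, 9, 10, 11]),
  (0, 11, 2, [0, 1, 2, 3, 8, 9, 10, 11, 14, 13]),
  (0, 11, 3, [0, 1, 2, 8, 9, 10, 11, 15, 14, 13]),
  (0, 11, 4, [0, 1, 8, 9, 10, 11, 16, 15, 14, 13]),
  (0, 12, 1, [0, 1, 2, 3, 8, 9, 10, 11, 12, 13]),
  (1, 2, 1, [0, 1, 13, 2, 3, 4, 5, 6, 7, 8]),
  (1, 3, 1, [0, 1, 13, 3, 2, 8, 9, 10, 11, 12]),
  (1, 4, 0, [0, 1, 4, 3, 2, 8, 9, 10, 11, 12]),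
  (1, 4, 1, [0, 1, 13, 4, 3, 8, 9, 10, 11, 12]),
  (1, 5, 0, [0, 1, 5, 4, 3, 8, 9, 10, 11, 12]),
  (1, 6, 0, [0, 2, 1, 6, 7, 8, 9, 10, 11, 12]),
  (1, 6, 1, [0, 1, 13, 6, 7, 8, 9, 10, 11, 12]),
  (1, 7, 1, [0, 1, 13, 7, 6, 5, 4, 3, 2, 8]),
  (1, 9, 1, [0, 1, 13, 9, 8, 7, 6, 5, 4, 3]),
  (1, 11, 0, [0, 3, 4, 5, 6, 7, 8, 1, 11, 12]),
  (2, 3, 1, [0, 1, 2, 13, 3, 4, 5, 6, 7, 8]),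
  (2, 4, 0, [0, 1, 2, 4, 3, 8, 9, 10, 11, 12]),
  (2, 4, 1, [0, 1, 2, 13, 4, 5, 6, 7, 8, 3]),
  (2, 5, 0, [0, 2, 5, 4, 3, 8, 9, 10, 11, 12]),
  (2, 6, 0, [0, 1, 2, 6, 7, 8, 9, 10, 11, 12]),
  (2, 6, 1, [0, 2, 13, 6, 7, 8, 9, 10, 11, 12]),
  (2, 7, 1, [0, 1, 2, 13, 7, 6, 5, 4, 3, 8]),
  (2, 9, 1, [0, 1, 3, 8, 2, 13, 9, 10, 11, 12]),
  (2, 11, 0, [0, 3, 4, 5, 6, 7, 8, 2, 11, 12]),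
  (3, 4, 1, [0, 1, 2, 3, 13, 4, 5, 6, 7, 8]),
  (3, 5, 0, [0, 3, 5, 6, 7, 8, 9, 10, 11, 12]),
  (3, 6, 0, [0, 1, 3, 6, 7, 8, 9, 10, 11, 12]),
  (3, 6, 1, [0, 3, 13, 6, 7, 8, 9, 10, 11, 12]),
  (3, 7, 1, [0, 1, 3, 13, 7, 8, 9, 10, 11, 12]),
  (3, 11, 0, [0, 1, 8, 7, 6, 5, 4, 3, 11, 12]),
  (3, 11, 1, [0, 8, 7, 6, 5, 4, 3, 13, 11, 12]),
  (4, 5, 1, [0, 1, 2, 3, 4, 13, 5, 6, 7, 8]),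
  (4, 5, 2, [0, 1, 3, 4, 13, 14, 5, 6, 7, 8]),
  (4, 5, 3, [0, 3, 4, 13, 14, 15, 5, 6, 7, 8]),
  (4, 5, 4, [3, 4, 13, 14, 15, 16, 5, 6, 7, 8]),
  (4, 6, 0, [0, 3, 4, 6, 7, 8, 9, 10, 11, 12]),
  (4, 6, 2, [0, 1, 2, 3, 4, 13, 14, 6, 7, 8]),
  (4, 6, 3, [0, 1, 3, 4, 13, 14, 15, 6, 7, 8]),
  (4, 6, 4, [0, 3, 4, 13, 14, 15, 16, 6, 7, 8]),
  (4, 7, 0, [0, 1, 3, 4, 7, 8, 9, 10, 11, 12]),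
  (4, 7, 1, [0, 3, 4, 13, 7, 8, 9, 10, 11, 12]),
  (4, 8, 0, [0, 1, 2, 3, 4, 8, 9, 10, 11, 12]),
  (4, 8, 1, [0, 1, 3, 4, 13, 8, 9, 10, 11, 12]),
  (4, 9, 0, [0, 1, 2, 8, 3, 4, 9, 10, 11, 12]),
  (4, 9, 1, [0, 1, 2, 3, 4, 13, 9, 10, 11, 12]),
  (4, 10, 0, [0, 1, 8, 7, 6, 5, 4, 10, 11, 12]),
  (4, 10, 1, [0, 1, 2, 8, 3, 4, 13, 10, 11, 12]),
  (4, 11, 0, [0, 1, 2, 8, 7, 6, 5, 4, 11, 12]),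
  (4, 11, 1, [0, 1, 2, 3, 4, 13, 11, 10, 9, 8]),
  (4, 11, 2, [0, 1, 2, 8, 3, 4, 13, 14, 11, 12]),
  (4, 11, 3, [0, 1, 2, 3, 4, 13, 14, 15, 11, 12]),
  (4, 11, 4, [0, 1, 3, 4, 13, 14, 15, 16, 11, 12]),
  (4, 12, 0, [0, 1, 2, 3, 4, 12, 11, 10, 9, 8]),
  (4, 12, 1, [0, 1, 2, 8, 7, 6, 5, 4, 13, 12]),
  (5, 6, 1, [0, 1, 2, 3, 4, 5, 13, 6, 7, 8]),
  (5, 6, 2, [0, 1, 3, 4, 5, 13, 14, 6, 7, 8]),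
  (5, 6, 3, [0, 3, 4, 5, 13, 14, 15, 6, 7, 8]),
  (5, 6, 4, [3, 4, 5, 13, 14, 15, 16, 6, 7, 8]),
  (5, 7, 0, [0, 3, 4, 5, 7, 8, 9, 10, 11, 12]),
  (5, 8, 0, [0, 1, 3, 4, 5, 8, 9, 10, 11, 12]),
  (5, 8, 1, [0, 3, 4, 5, 13, 8, 9, 10, 11, 12]),
  (5, 9, 0, [0, 1, 2, 3, 4, 5, 9, 10, 11, 12]),
  (5, 9, 1, [0, 1, 3, 4, 5, 13, 9, 10, 11, 12]),
  (5, 10, 0, [0, 1, 2, 8, 3, 4, 5, 10, 11, 12]),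
  (5, 10, 1, [0, 1, 2, 3, 4, 5, 13, 10, 9, 8]),
  (5, 11, 0, [0, 1, 2, 3, 4, 5, 11, 10, 9, 8]),
  (5, 11, 1, [0, 1, 2, 8, 3, 4, 5, 13, 11, 12]),
  (5, 11, 2, [0, 1, 2, 3, 4, 5, 13, 14, 11, 12]),
  (5, 11, 3, [0, 1, 3, 4, 5, 13, 14, 15, 11, 12]),
  (5, 11, 4, [0, 3, 4, 5, 13, 14, 15, 16, 11, 12]),
  (5, 12, 0, [0, 1, 3, 4, 5, 12, 11, 10, 9, 8]),
  (5, 12, 1, [0, 1, 2, 3, 8, 7, 6, 5, 13, 12]),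
  (6, 7, 1, [0, 1, 2, 3, 4, 5, 6, 13, 7, 8]),
  (6, 8, 0, [0, 3, 4, 5, 6, 8, 9, 10, 11, 12]),
  (6, 9, 0, [0, 1, 2, 8, 7, 6, 9, 10, 11, 12]),
  (6, 9, 1, [0, 1, 2, 3, 4, 5, 6, 13, 9, 8]),
  (6, 10, 0, [0, 1, 2, 3, 4, 5, 6, 10, 9, 8]),
  (6, 10, 1, [0, 1, 2, 8, 7, 6, 13, 10, 11, 12]),
  (6, 11, 0, [0, 1, 2, 8, 3, 4, 5, 6, 11, 12]),
  (6, 11, 1, [0, 1, 2, 3, 4, 5, 6, 13, 11, 12]),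
  (6, 11, 2, [0, 1, 2, 8, 7, 6, 13, 14, 11, 12]),
  (6, 11, 3, [0, 1, 8, 7, 6, 13, 14, 15, 11, 12]),
  (6, 11, 4, [0, 8, 7, 6, 13, 14, 15, 16, 11, 12]),
  (6, 12, 0, [0, 3, 4, 5, 6, 12, 11, 10, 9, 8]),
  (6, 12, 1, [0, 1, 2, 8, 3, 4, 5, 6, 13, 12]),
  (7, 11, 0, [0, 1, 2, 3, 4, 5, 6, 7, 11, 12]),
  (7, 11, 1, [0, 1, 3, 4, 5, 6, 7, 13, 11, 12]),
  (8, 11, 0, [0, 1, 3, 4, 5, 6, 7, 8, 11, 12]),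
  (8, 11, 1, [0, 3, 4, 5, 6, 7, 8, 13, 11, 12]),
  (9, 11, 0, [0, 3, 4, 5, 6, 7, 8, 9, 11, 12]),
  (10, 11, 1, [0, 1, 2, 3, 8, 9, 10, 13, 11, 12]),
  (11, 12, 1, [0, 1, 2, 3, 8, 9, 10, 11, 13, 12])]

def ports5 : List Port := [(4, [[6]]), (5, [[1, 2, 3, 7]]), (6, [[0, 4, 8]]), (11, [[0, 1, 2, 9]]), (0, [[6, 11]])]

theorem ok5 : farOK 9 5 X5 certs5 ports5 = true := by decide +kernel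

/-- pattern TTTFFFFTTFFFF, k = 9, w = 5, gaps (0, 0, 4, 0, 4) -/
def X6 : List Bool :=
  [true, true, true, false, false, false, false, true, true, false, false, false, false]

def certs6 : List Cert := [
  (0, 1, 1, [0, 2, 3, 4, 5, 6, 7, 8, 1, 13]),
  (0, 2, 1, [0, 1, 8, 7, 6, 5, 4, 3, 2, 13]),
  (0, 3, 0, [0, 3, 2, 1, 7, 8, 9, 10, 11, 12]),
  (0, 3, 1, [0, 1, 2, 8, 7, 6, 5, 4, 3, 13]),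
  (0, 3, 2, [0, 1, 2, 7, 6, 5, 4, 3, 14, 13]),
  (0, 3, 3, [0, 1, 7, 6, 5, 4, 3, 15, 14, 13]),
  (0, 3, 4, [0, 1, 7, 8, 2, 3, 16, 15, 14, 13]),
  (0, 4, 0, [0, 4, 3, 2, 1, 8, 9, 10, 11, 12]),
  (0, 4, 1, [0, 12, 11, 10, 9, 8, 2, 3, 4, 13]),
  (0, 4, 2, [0, 1, 2, 8, 7, 6, 5, 4, 14, 13]),
  (0, 4, 3, [0, 1, 2, 7, 6, 5, 4, 15, 14, 13]),
  (0, 4, 4, [0, 1, 7, 2, 3, 4, 16, 15, 14, 13]),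
  (0, 5, 0, [0, 5, 4, 3, 2, 8, 9, 10, 11, 12]),
  (0, 5, 1, [0, 12, 11, 10, 9, 8, 7, 6, 5, 13]),
  (0, 5, 2, [0, 1, 7, 8, 2, 3, 4, 5, 14, 13]),
  (0, 5, 3, [0, 1, 2, 8, 7, 6, 5, 15, 14, 13]),
  (0, 5, 4, [0, 1, 2, 3, 4, 5, 16, 15, 14, 13]),
  (0, 6, 0, [0, 6, 7, 1, 2, 8, 9, 10, 11, 12]),
  (0, 6, 1, [0, 1, 7, 8, 2, 3, 4, 5, 6, 13]),
  (0, 7, 1, [0, 1, 8, 2, 3, 4, 5, 6, 7, 13]),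
  (0, 8, 1, [0, 1, 2, 3, 4, 5, 6, 7, 8, 13]),
  (0, 9, 0, [0, 1, 2, 3, 4, 5, 6, 7, 8, 9]),
  (0, 9, 1, [0, 2, 3, 4, 5, 6, 7, 8, 9, 13]),
  (0, 10, 0, [0, 2, 3, 4, 5, 6, 7, 8, 9, 10]),
  (0, 11, 2, [0, 1, 2, 7, 8, 9, 10, 11, 14, 13]),
  (0, 11, 3, [0, 1, 2, 8, 9, 10, 11, 15, 14, 13]),
  (0, 11, 4, [0, 1, 8, 9, 10, 11, 16, 15, 14, 13]),
  (0, 12, 1, [0, 1, 2, 7, 8, 9, 10, 11, 12, 13]),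
  (1, 2, 1, [0, 1, 13, 2, 3, 4, 5, 6, 7, 8]),
  (1, 3, 0, [0, 1, 3, 2, 7, 8, 9, 10, 11, 12]),
  (1, 3, 1, [0, 1, 13, 3, 2, 8, 9, 10, 11, 12]),
  (1, 4, 0, [0, 1, 4, 3, 2, 8, 9, 10, 11, 12]),
  (1, 5, 0, [0, 1, 5, 6, 7, 8, 9, 10, 11, 12]),
  (1, 6, 1, [0, 1, 13, 6, 5, 4, 3, 2, 7, 8]),
  (1, 7, 1, [0, 1, 13, 7, 2, 8, 9, 10, 11, 12]),
  (1, 8, 1, [0, 1, 13, 8, 2, 3, 4, 5, 6, 7]),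
  (1, 9, 1, [0, 2, 7, 8, 1, 13, 9, 10, 11, 12]),
  (1, 11, 0, [0, 2, 3, 4, 5, 6, 7, 1, 11, 12]),
  (2, 3, 1, [0, 1, 2, 13, 3, 4, 5, 6, 7, 8]),
  (2, 5, 0, [0, 2, 5, 6, 7, 8, 9, 10, 11, 12]),
  (2, 6, 1, [0, 2, 13, 6, 7, 8, 9, 10, 11, 12]),
  (2, 7, 1, [0, 1, 2, 13, 7, 8, 9, 10, 11, 12]),
  (2, 11, 0, [0, 1, 7, 6, 5, 4, 3, 2, 11, 12]),
  (2, 11, 1, [0, 7, 6, 5, 4, 3, 2, 13, 11, 12]),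
  (3, 4, 1, [0, 1, 2, 3, 13, 4, 5, 6, 7, 8]),
  (3, 4, 2, [0, 1, 2, 3, 13, 14, 4, 5, 6, 7]),
  (3, 4, 3, [0, 2, 3, 13, 14, 15, 4, 5, 6, 7]),
  (3, 4, 4, [2, 3, 13, 14, 15, 16, 4, 5, 6, 7]),
  (3, 5, 2, [0, 1, 2, 3, 13, 14, 5, 6, 7, 8]),
  (3, 5, 3, [0, 1, 2, 3, 13, 14, 15, 5, 6, 7]),
  (3, 5, 4, [0, 2, 3, 13, 14, 15, 16, 5, 6, 7]),
  (3, 6, 0, [0, 2, 3, 6, 7, 8, 9, 10, 11, 12]),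
  (3, 7, 0, [0, 1, 2, 3, 7, 8, 9, 10, 11, 12]),
  (3, 7, 1, [0, 2, 3, 13, 7, 8, 9, 10, 11, 12]),
  (3, 8, 0, [0, 1, 7, 2, 3, 8, 9, 10, 11, 12]),
  (3, 8, 1, [0, 1, 2, 3, 13, 8, 9, 10, 11, 12]),
  (3, 9, 0, [0, 1, 2, 7, 6, 5, 4, 3, 9, 8]),
  (3, 9, 1, [0, 1, 7, 2, 3, 13, 9, 10, 11, 12]),
  (3, 10, 0, [0, 1, 7, 6, 5, 4, 3, 10, 9, 8]),
  (3, 10, 1, [0, 1, 7, 8, 2, 3, 13, 10, 11, 12]),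
  (3, 11, 0, [0, 1, 2, 7, 6, 5, 4, 3, 11, 12]),
  (3, 11, 1, [0, 1, 2, 3, 13, 11, 10, 9, 8, 7]),
  (3, 11, 2, [0, 1, 2, 3, 13, 14, 11, 10, 9, 8]),
  (3, 11, 3, [0, 1, 7, 2, 3, 13, 14, 15, 11, 12]),
  (3, 11, 4, [0, 1, 2, 3, 13, 14, 15, 16, 11, 12]),
  (3, 12, 0, [0, 1, 2, 3, 12, 11, 10, 9, 8, 7]),
  (3, 12, 1, [0, 1, 2, 3, 13, 12, 11, 10, 9, 8]),
  (4, 5, 1, [0, 1, 2, 3, 4, 13, 5, 6, 7, 8]),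
  (4, 5, 2, [0, 1, 2, 3, 4, 13, 14, 5, 6, 7]),
  (4, 5, 3, [0, 2, 3, 4, 13, 14, 15, 5, 6, 7]),
  (4, 5, 4, [2, 3, 4, 13, 14, 15, 16, 5, 6, 7]),
  (4, 7, 0, [0, 2, 3, 4, 7, 8, 9, 10, 11, 12]),
  (4, 8, 0, [0, 1, 2, 3, 4, 8, 9, 10, 11, 12]),
  (4, 8, 1, [0, 2, 3, 4, 13, 8, 9, 10, 11, 12]),
  (4, 9, 0, [0, 1, 7, 2, 3, 4, 9, 10, 11, 12]),
  (4, 9, 1, [0, 1, 2, 3, 4, 13, 9, 10, 11, 12]),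
  (4, 10, 0, [0, 1, 2, 7, 6, 5, 4, 10, 9, 8]),
  (4, 10, 1, [0, 1, 2, 3, 4, 13, 10, 9, 8, 7]),
  (4, 11, 0, [0, 1, 2, 3, 4, 11, 10, 9, 8, 7]),
  (4, 11, 1, [0, 1, 2, 3, 4, 13, 11, 10, 9, 8]),
  (4, 11, 2, [0, 1, 7, 2, 3, 4, 13, 14, 11, 12]),
  (4, 11, 3, [0, 1, 2, 3, 4, 13, 14, 15, 11, 12]),
  (4, 11, 4, [0, 2, 3, 4, 13, 14, 15, 16, 11, 12]),
  (4, 12, 0, [0, 1, 2, 3, 4, 12, 11, 10, 9, 8]),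
  (4, 12, 1, [0, 1, 2, 8, 7, 6, 5, 4, 13, 12]),
  (5, 6, 1, [0, 1, 2, 3, 4, 5, 13, 6, 7, 8]),
  (5, 8, 0, [0, 1, 7, 6, 5, 8, 9, 10, 11, 12]),
  (5, 8, 1, [0, 7, 6, 5, 13, 8, 9, 10, 11, 12]),
  (5, 9, 0, [0, 1, 2, 3, 4, 5, 9, 10, 11, 12]),
  (5, 9, 1, [0, 1, 2, 3, 4, 5, 13, 9, 8, 7]),
  (5, 10, 0, [0, 1, 2, 3, 4, 5, 10, 9, 8, 7]),
  (5, 10, 1, [0, 1, 2, 3, 4, 5, 13, 10, 9, 8]),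
  (5, 11, 0, [0, 1, 2, 3, 4, 5, 11, 10, 9, 8]),
  (5, 11, 1, [0, 1, 2, 8, 7, 6, 5, 13, 11, 12]),
  (5, 11, 2, [0, 1, 2, 3, 4, 5, 13, 14, 11, 12]),
  (5, 11, 3, [0, 1, 7, 6, 5, 13, 14, 15, 11, 12]),
  (5, 11, 4, [0, 7, 6, 5, 13, 14, 15, 16, 11, 12]),
  (5, 12, 0, [0, 1, 7, 6, 5, 12, 11, 10, 9, 8]),
  (5, 12, 1, [0, 1, 7, 8, 2, 3, 4, 5, 13, 12]),
  (6, 7, 1, [0, 1, 2, 3, 4, 5, 6, 13, 7, 8]),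
  (6, 11, 0, [0, 1, 7, 2, 3, 4, 5, 6, 11, 12]),
  (6, 11, 1, [0, 1, 2, 3, 4, 5, 6, 13, 11, 12]),
  (7, 11, 0, [0, 1, 2, 3, 4, 5, 6, 7, 11, 12]),
  (7, 11, 1, [0, 2, 3, 4, 5, 6, 7, 13, 11, 12]),
  (8, 9, 1, [0, 1, 2, 7, 8, 13, 9, 10, 11, 12]),
  (8, 11, 0, [0, 2, 3, 4, 5, 6, 7, 8, 11, 12]),
  (10, 11, 1, [0, 1, 2, 7, 8, 9, 10, 13, 11, 12]),
  (11, 12, 1, [0, 1, 2, 7, 8, 9, 10, 11, 13, 12])]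

def ports6 : List Port := [(3, [[5, 6]]), (4, [[1, 2, 6, 7]]), (5, [[1, 2, 3, 7]]), (11, [[0, 1, 8, 9]]), (0, [[10, 11]])]

theorem ok6 : farOK 9 5 X6 certs6 ports6 = true := by decide +kernel

/-- pattern TTTTFFFFTTFFFF, k = 10, w = 6, gaps (0, 0, 0, 4, 0, 4) -/
def X7 : List Bool :=
  [true, true, true, true, false, false, false, false, true, true, false, false, false, false]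

def certs7 : List Cert := [
  (0, 1, 1, [0, 2, 3, 4, 5, 6, 7, 8, 9, 1, 14]),
  (0, 1, 2, [0, 2, 3, 4, 5, 6, 7, 8, 1, 15, 14]),
  (0, 1, 3, [0, 3, 4, 5, 6, 7, 8, 1, 16, 15, 14]),
  (0, 1, 4, [0, 13, 12, 11, 10, 9, 1, 17, 16, 15, 14]),
  (0, 2, 1, [0, 1, 3, 4, 5, 6, 7, 8, 9, 2, 14]),
  (0, 3, 1, [0, 1, 2, 9, 8, 7, 6, 5, 4, 3, 14]),
  (0, 3, 2, [0, 1, 2, 8, 7, 6, 5, 4, 3, 15, 14]),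
  (0, 3, 3, [0, 1, 8, 7, 6, 5, 4, 3, 16, 15, 14]),
  (0, 3, 4, [0, 8, 7, 6, 5, 4, 3, 17, 16, 15, 14]),
  (0, 4, 0, [0, 4, 3, 1, 2, 8, 9, 10, 11, 12, 13]),
  (0, 4, 1, [0, 1, 2, 3, 9, 8, 7, 6, 5, 4, 14]),
  (0, 4, 2, [0, 1, 2, 3, 8, 7, 6, 5, 4, 15, 14]),
  (0, 4, 3, [0, 1, 2, 8, 7, 6, 5, 4, 16, 15, 14]),
  (0, 4, 4, [0, 1, 2, 8, 9, 3, 4, 17, 16, 15, 14]),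
  (0, 5, 0, [0, 5, 4, 3, 1, 2, 9, 10, 11, 12, 13]),
  (0, 5, 1, [0, 13, 12, 11, 10, 9, 1, 3, 4, 5, 14]),
  (0, 5, 2, [0, 1, 2, 3, 9, 8, 7, 6, 5, 15, 14]),
  (0, 5, 3, [0, 1, 2, 3, 8, 7, 6, 5, 16, 15, 14]),
  (0, 5, 4, [0, 1, 2, 8, 3, 4, 5, 17, 16, 15, 14]),
  (0, 6, 0, [0, 6, 5, 4, 3, 1, 9, 10, 11, 12, 13]),
  (0, 6, 1, [0, 13, 12, 11, 10, 9, 1, 8, 7, 6, 14]),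
  (0, 7, 0, [0, 7, 6, 5, 4, 3, 9, 10, 11, 12, 13]),
  (0, 7, 1, [0, 1, 2, 8, 9, 3, 4, 5, 6, 7, 14]),
  (0, 8, 1, [0, 1, 2, 9, 3, 4, 5, 6, 7, 8, 14]),
  (0, 9, 1, [0, 1, 2, 3, 4, 5, 6, 7, 8, 9, 14]),
  (0, 10, 0, [0, 1, 2, 3, 4, 5, 6, 7, 8, 9, 10]),
  (0, 10, 1, [0, 1, 3, 4, 5, 6, 7, 8, 9, 10, 14]),
  (0, 11, 0, [0, 1, 3, 4, 5, 6, 7, 8, 9, 10, 11]),
  (0, 11, 1, [0, 3, 4, 5, 6, 7, 8, 9, 10, 11, 14]),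
  (0, 12, 0, [0, 3, 4, 5, 6, 7, 8, 9, 10, 11, 12]),
  (0, 12, 2, [0, 1, 2, 3, 8, 9, 10, 11, 12, 15, 14]),
  (0, 12, 3, [0, 1, 2, 3, 9, 10, 11, 12, 16, 15, 14]),
  (0, 12, 4, [0, 1, 2, 9, 10, 11, 12, 17, 16, 15, 14]),
  (0, 13, 1, [0, 1, 2, 3, 8, 9, 10, 11, 12, 13, 14]),
  (1, 2, 1, [0, 1, 14, 2, 3, 4, 5, 6, 7, 8, 9]),
  (1, 3, 1, [0, 1, 14, 3, 2, 8, 9, 10, 11, 12, 13]),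
  (1, 3, 2, [0, 1, 14, 15, 3, 2, 9, 10, 11, 12, 13]),
  (1, 3, 3, [0, 1, 14, 15, 16, 3, 4, 5, 6, 7, 8]),
  (1, 3, 4, [1, 8, 7, 6, 5, 4, 3, 17, 16, 15, 14]),
  (1, 4, 0, [0, 1, 4, 3, 2, 8, 9, 10, 11, 12, 13]),
  (1, 4, 1, [0, 1, 14, 4, 3, 2, 9, 10, 11, 12, 13]),
  (1, 4, 2, [0, 1, 14, 15, 4, 3, 9, 10, 11, 12, 13]),
  (1, 4, 3, [0, 1, 14, 15, 16, 4, 5, 6, 7, 8, 2]),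
  (1, 4, 4, [0, 1, 14, 15, 16, 17, 4, 3, 2, 8, 9]),
  (1, 5, 0, [0, 1, 5, 4, 3, 2, 9, 10, 11, 12, 13]),
  (1, 5, 1, [0, 1, 14, 5, 4, 3, 9, 10, 11, 12, 13]),
  (1, 5, 2, [0, 1, 14, 15, 5, 6, 7, 8, 2, 3, 9]),
  (1, 5, 3, [0, 1, 14, 15, 16, 5, 4, 3, 2, 8, 9]),
  (1, 5, 4, [0, 1, 14, 15, 16, 17, 5, 4, 3, 2, 8]),
  (1, 6, 0, [0, 1, 6, 5, 4, 3, 9, 10, 11, 12, 13]),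
  (1, 6, 1, [0, 1, 14, 6, 7, 8, 9, 10, 11, 12, 13]),
  (1, 7, 0, [0, 1, 7, 8, 2, 3, 9, 10, 11, 12, 13]),
  (1, 7, 1, [0, 1, 14, 7, 6, 5, 4, 3, 2, 8, 9]),
  (1, 8, 1, [0, 1, 14, 8, 2, 3, 9, 10, 11, 12, 13]),
  (1, 9, 1, [0, 1, 14, 9, 2, 3, 4, 5, 6, 7, 8]),
  (1, 10, 0, [0, 1, 10, 9, 2, 3, 4, 5, 6, 7, 8]),
  (1, 10, 1, [0, 1, 14, 10, 9, 3, 4, 5, 6, 7, 8]),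
  (1, 11, 0, [0, 1, 11, 10, 9, 3, 4, 5, 6, 7, 8]),
  (1, 11, 1, [1, 3, 4, 5, 6, 7, 8, 9, 10, 11, 14]),
  (1, 12, 0, [0, 2, 3, 4, 5, 6, 7, 8, 1, 12, 13]),
  (1, 12, 1, [0, 3, 4, 5, 6, 7, 8, 1, 14, 12, 13]),
  (1, 12, 2, [0, 1, 14, 15, 12, 11, 10, 9, 2, 3, 8]),
  (1, 12, 3, [0, 1, 14, 15, 16, 12, 11, 10, 9, 2, 3]),
  (1, 12, 4, [0, 1, 14, 15, 16, 17, 12, 11, 10, 9, 2]),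
  (1, 13, 0, [0, 2, 3, 4, 5, 6, 7, 8, 9, 1, 13]),
  (1, 13, 1, [0, 1, 14, 13, 12, 11, 10, 9, 2, 3, 8]),
  (2, 3, 1, [0, 1, 2, 14, 3, 4, 5, 6, 7, 8, 9]),
  (2, 4, 0, [0, 1, 2, 4, 3, 8, 9, 10, 11, 12, 13]),
  (2, 4, 1, [0, 1, 2, 14, 4, 3, 9, 10, 11, 12, 13]),
  (2, 5, 0, [0, 1, 2, 5, 4, 3, 9, 10, 11, 12, 13]),
  (2, 5, 1, [0, 2, 14, 5, 4, 3, 9, 10, 11, 12, 13]),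
  (2, 12, 0, [0, 1, 3, 4, 5, 6, 7, 8, 2, 12, 13]),
  (2, 12, 1, [0, 3, 4, 5, 6, 7, 8, 2, 14, 12, 13]),
  (3, 4, 1, [0, 1, 2, 3, 14, 4, 5, 6, 7, 8, 9]),
  (3, 4, 2, [0, 1, 2, 3, 14, 15, 4, 5, 6, 7, 8]),
  (3, 4, 3, [0, 1, 3, 14, 15, 16, 4, 5, 6, 7, 8]),
  (3, 4, 4, [0, 3, 14, 15, 16, 17, 4, 5, 6, 7, 8]),
  (3, 5, 0, [0, 3, 5, 6, 7, 8, 9, 10, 11, 12, 13]),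
  (3, 5, 2, [0, 1, 2, 3, 14, 15, 5, 6, 7, 8, 9]),
  (3, 5, 3, [0, 1, 2, 3, 14, 15, 16, 5, 6, 7, 8]),
  (3, 5, 4, [0, 1, 3, 14, 15, 16, 17, 5, 6, 7, 8]),
  (3, 6, 0, [0, 1, 3, 6, 7, 8, 9, 10, 11, 12, 13]),
  (3, 6, 1, [0, 3, 14, 6, 7, 8, 9, 10, 11, 12, 13]),
  (3, 7, 0, [0, 1, 2, 3, 7, 8, 9, 10, 11, 12, 13]),
  (3, 7, 1, [0, 1, 3, 14, 7, 8, 9, 10, 11, 12, 13]),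
  (3, 8, 1, [0, 1, 2, 3, 14, 8, 9, 10, 11, 12, 13]),
  (3, 9, 1, [0, 1, 2, 8, 3, 14, 9, 10, 11, 12, 13]),
  (3, 10, 0, [0, 1, 2, 8, 7, 6, 5, 4, 3, 10, 9]),
  (3, 10, 1, [0, 1, 2, 8, 9, 3, 14, 10, 11, 12, 13]),
  (3, 11, 0, [0, 1, 8, 7, 6, 5, 4, 3, 11, 10, 9]),
  (3, 11, 1, [0, 8, 7, 6, 5, 4, 3, 14, 11, 10, 9]),
  (3, 12, 0, [0, 1, 2, 8, 7, 6, 5, 4, 3, 12, 13]),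
  (3, 12, 1, [0, 1, 8, 7, 6, 5, 4, 3, 14, 12, 13]),
  (3, 12, 2, [0, 1, 2, 3, 14, 15, 12, 11, 10, 9, 8]),
  (3, 12, 3, [0, 1, 2, 3, 14, 15, 16, 12, 11, 10, 9]),
  (3, 12, 4, [0, 1, 2, 8, 3, 14, 15, 16, 17, 12, 13]),
  (3, 13, 0, [0, 1, 2, 9, 8, 7, 6, 5, 4, 3, 13]),
  (3, 13, 1, [0, 1, 2, 3, 14, 13, 12, 11, 10, 9, 8]),
  (4, 5, 1, [0, 1, 2, 3, 4, 14, 5, 6, 7, 8, 9]),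
  (4, 5, 2, [0, 1, 2, 3, 4, 14, 15, 5, 6, 7, 8]),
  (4, 5, 3, [0, 1, 3, 4, 14, 15, 16, 5, 6, 7, 8]),
  (4, 5, 4, [0, 3, 4, 14, 15, 16, 17, 5, 6, 7, 8]),
  (4, 6, 0, [0, 3, 4, 6, 7, 8, 9, 10, 11, 12, 13]),
  (4, 7, 0, [0, 1, 3, 4, 7, 8, 9, 10, 11, 12, 13]),
  (4, 7, 1, [0, 3, 4, 14, 7, 8, 9, 10, 11, 12, 13]),
  (4, 8, 0, [0, 1, 2, 3, 4, 8, 9, 10, 11, 12, 13]),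
  (4, 8, 1, [0, 1, 3, 4, 14, 8, 9, 10, 11, 12, 13]),
  (4, 9, 0, [0, 1, 2, 8, 3, 4, 9, 10, 11, 12, 13]),
  (4, 9, 1, [0, 1, 2, 3, 4, 14, 9, 10, 11, 12, 13]),
  (4, 10, 0, [0, 1, 2, 3, 8, 7, 6, 5, 4, 10, 9]),
  (4, 10, 1, [0, 1, 2, 8, 3, 4, 14, 10, 11, 12, 13]),
  (4, 11, 0, [0, 1, 2, 8, 7, 6, 5, 4, 11, 10, 9]),
  (4, 11, 1, [0, 1, 2, 8, 9, 3, 4, 14, 11, 12, 13]),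
  (4, 12, 0, [0, 1, 2, 3, 8, 7, 6, 5, 4, 12, 13]),
  (4, 12, 1, [0, 1, 2, 3, 4, 14, 12, 11, 10, 9, 8]),
  (4, 12, 2, [0, 1, 2, 3, 4, 14, 15, 12, 11, 10, 9]),
  (4, 12, 3, [0, 1, 2, 8, 3, 4, 14, 15, 16, 12, 13]),
  (4, 12, 4, [0, 1, 2, 3, 4, 14, 15, 16, 17, 12, 13]),
  (4, 13, 0, [0, 1, 2, 3, 4, 13, 12, 11, 10, 9, 8]),
  (4, 13, 1, [0, 1, 2, 3, 4, 14, 13, 12, 11, 10, 9]),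
  (5, 6, 1, [0, 1, 2, 3, 4, 5, 14, 6, 7, 8, 9]),
  (5, 7, 0, [0, 3, 4, 5, 7, 8, 9, 10, 11, 12, 13]),
  (5, 8, 0, [0, 1, 3, 4, 5, 8, 9, 10, 11, 12, 13]),
  (5, 8, 1, [0, 3, 4, 5, 14, 8, 9, 10, 11, 12, 13]),
  (5, 9, 0, [0, 1, 2, 3, 4, 5, 9, 10, 11, 12, 13]),
  (5, 9, 1, [0, 1, 3, 4, 5, 14, 9, 10, 11, 12, 13]),
  (5, 10, 0, [0, 1, 2, 8, 3, 4, 5, 10, 11, 12, 13]),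
  (5, 10, 1, [0, 1, 2, 3, 4, 5, 14, 10, 11, 12, 13]),
  (5, 11, 0, [0, 1, 2, 3, 8, 7, 6, 5, 11, 10, 9]),
  (5, 11, 1, [0, 1, 2, 3, 4, 5, 14, 11, 10, 9, 8]),
  (5, 12, 0, [0, 1, 2, 3, 4, 5, 12, 11, 10, 9, 8]),
  (5, 12, 1, [0, 1, 2, 3, 4, 5, 14, 12, 11, 10, 9]),
  (5, 12, 2, [0, 1, 2, 8, 3, 4, 5, 14, 15, 12, 13]),
  (5, 12, 3, [0, 1, 2, 3, 4, 5, 14, 15, 16, 12, 13]),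
  (5, 12, 4, [0, 1, 3, 4, 5, 14, 15, 16, 17, 12, 13]),
  (5, 13, 0, [0, 1, 2, 3, 4, 5, 13, 12, 11, 10, 9]),
  (5, 13, 1, [0, 1, 2, 3, 9, 8, 7, 6, 5, 14, 13]),
  (6, 12, 0, [0, 1, 2, 3, 4, 5, 6, 12, 11, 10, 9]),
  (6, 12, 1, [0, 1, 2, 3, 9, 8, 7, 6, 14, 12, 13]),
  (7, 12, 0, [0, 1, 2, 8, 3, 4, 5, 6, 7, 12, 13]),
  (7, 12, 1, [0, 1, 2, 3, 4, 5, 6, 7, 14, 12, 13]),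
  (8, 12, 0, [0, 1, 2, 3, 4, 5, 6, 7, 8, 12, 13]),
  (8, 12, 1, [0, 1, 3, 4, 5, 6, 7, 8, 14, 12, 13]),
  (9, 12, 0, [0, 1, 3, 4, 5, 6, 7, 8, 9, 12, 13]),
  (9, 12, 1, [0, 3, 4, 5, 6, 7, 8, 9, 14, 12, 13]),
  (10, 12, 0, [0, 3, 4, 5, 6, 7, 8, 9, 10, 12, 13]),
  (11, 12, 1, [0, 1, 2, 3, 8, 9, 10, 11, 14, 12, 13]),
  (12, 13, 1, [0, 1, 2, 3, 8, 9, 10, 11, 12, 14, 13])]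

def ports7 : List Port := [(4, [[6]]), (5, [[3, 7]]), (12, [[0, 10]]), (1, []), (0, [[12]]), (3, [[5]])]

theorem ok7 : farOK 10 6 X7 certs7 ports7 = true := by decide +kernel

/-- pattern TTTFFFFTTTFFFF, k = 10, w = 6, gaps (0, 0, 4, 0, 0, 4) -/
def X8 : List Bool :=
  [true, true, true, false, false, false, false, true, true, true, false, false, false, false]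

def certs8 : List Cert := [
  (0, 1, 1, [0, 2, 3, 4, 5, 6, 7, 8, 9, 1, 14]),
  (0, 1, 2, [0, 2, 3, 4, 5, 6, 7, 8, 1, 15, 14]),
  (0, 1, 3, [0, 2, 3, 4, 5, 6, 7, 1, 16, 15, 14]),
  (0, 1, 4, [0, 13, 12, 11, 10, 9, 1, 17, 16, 15, 14]),
  (0, 2, 1, [0, 1, 8, 9, 7, 6, 5, 4, 3, 2, 14]),
  (0, 2, 2, [0, 1, 8, 7, 6, 5, 4, 3, 2, 15, 14]),
  (0, 2, 3, [0, 1, 7, 6, 5, 4, 3, 2, 16, 15, 14]),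
  (0, 2, 4, [0, 7, 6, 5, 4, 3, 2, 17, 16, 15, 14]),
  (0, 3, 0, [0, 3, 2, 1, 7, 8, 9, 10, 11, 12, 13]),
  (0, 3, 1, [0, 1, 2, 8, 9, 7, 6, 5, 4, 3, 14]),
  (0, 3, 2, [0, 1, 2, 8, 7, 6, 5, 4, 3, 15, 14]),
  (0, 3, 3, [0, 1, 2, 7, 6, 5, 4, 3, 16, 15, 14]),
  (0, 3, 4, [0, 1, 7, 6, 5, 4, 3, 17, 16, 15, 14]),
  (0, 4, 0, [0, 4, 3, 2, 1, 7, 9, 10, 11, 12, 13]),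
  (0, 4, 1, [0, 13, 12, 11, 10, 9, 1, 2, 3, 4, 14]),
  (0, 4, 2, [0, 1, 2, 8, 9, 7, 6, 5, 4, 15, 14]),
  (0, 4, 3, [0, 1, 2, 8, 7, 6, 5, 4, 16, 15, 14]),
  (0, 4, 4, [0, 1, 2, 7, 6, 5, 4, 17, 16, 15, 14]),
  (0, 5, 0, [0, 5, 4, 3, 2, 1, 9, 10, 11, 12, 13]),
  (0, 5, 1, [0, 13, 12, 11, 10, 9, 1, 7, 6, 5, 14]),
  (0, 6, 0, [0, 6, 5, 4, 3, 2, 9, 10, 11, 12, 13]),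
  (0, 6, 1, [0, 1, 7, 8, 9, 2, 3, 4, 5, 6, 14]),
  (0, 7, 1, [0, 1, 8, 9, 2, 3, 4, 5, 6, 7, 14]),
  (0, 8, 1, [0, 1, 2, 3, 4, 5, 6, 7, 9, 8, 14]),
  (0, 9, 1, [0, 1, 2, 3, 4, 5, 6, 7, 8, 9, 14]),
  (0, 10, 0, [0, 1, 2, 3, 4, 5, 6, 7, 8, 9, 10]),
  (0, 10, 1, [0, 1, 2, 3, 4, 5, 6, 7, 9, 10, 14]),
  (0, 11, 0, [0, 1, 2, 3, 4, 5, 6, 7, 9, 10, 11]),
  (0, 11, 1, [0, 2, 3, 4, 5, 6, 7, 9, 10, 11, 14]),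
  (0, 12, 0, [0, 2, 3, 4, 5, 6, 7, 9, 10, 11, 12]),
  (0, 12, 2, [0, 1, 2, 7, 8, 9, 10, 11, 12, 15, 14]),
  (0, 12, 3, [0, 1, 2, 7, 9, 10, 11, 12, 16, 15, 14]),
  (0, 12, 4, [0, 1, 2, 9, 10, 11, 12, 17, 16, 15, 14]),
  (0, 13, 1, [0, 1, 2, 7, 8, 9, 10, 11, 12, 13, 14]),
  (1, 2, 1, [0, 1, 14, 2, 3, 4, 5, 6, 7, 8, 9]),
  (1, 2, 2, [0, 1, 14, 15, 2, 3, 4, 5, 6, 7, 8]),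
  (1, 2, 3, [0, 1, 14, 15, 16, 2, 3, 4, 5, 6, 7]),
  (1, 2, 4, [1, 7, 6, 5, 4, 3, 2, 17, 16, 15, 14]),
  (1, 3, 0, [0, 1, 3, 2, 7, 8, 9, 10, 11, 12, 13]),
  (1, 3, 1, [0, 1, 14, 3, 2, 7, 9, 10, 11, 12, 13]),
  (1, 3, 2, [0, 1, 14, 15, 3, 2, 9, 10, 11, 12, 13]),
  (1, 3, 3, [0, 1, 14, 15, 16, 3, 4, 5, 6, 7, 2]),
  (1, 3, 4, [0, 1, 14, 15, 16, 17, 3, 2, 7, 8, 9]),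
  (1, 4, 0, [0, 1, 4, 3, 2, 7, 9, 10, 11, 12, 13]),
  (1, 4, 1, [0, 1, 14, 4, 3, 2, 9, 10, 11, 12, 13]),
  (1, 4, 2, [0, 1, 14, 15, 4, 5, 6, 7, 2, 8, 9]),
  (1, 4, 3, [0, 1, 14, 15, 16, 4, 3, 2, 7, 8, 9]),
  (1, 4, 4, [0, 1, 14, 15, 16, 17, 4, 3, 2, 7, 8]),
  (1, 5, 0, [0, 1, 5, 4, 3, 2, 9, 10, 11, 12, 13]),
  (1, 5, 1, [0, 1, 14, 5, 6, 7, 9, 10, 11, 12, 13]),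
  (1, 6, 0, [0, 1, 6, 7, 2, 8, 9, 10, 11, 12, 13]),
  (1, 6, 1, [0, 1, 14, 6, 5, 4, 3, 2, 7, 8, 9]),
  (1, 7, 1, [0, 1, 14, 7, 2, 8, 9, 10, 11, 12, 13]),
  (1, 8, 1, [0, 1, 14, 8, 2, 3, 4, 5, 6, 7, 9]),
  (1, 9, 1, [0, 1, 14, 9, 2, 3, 4, 5, 6, 7, 8]),
  (1, 10, 0, [0, 1, 10, 9, 2, 3, 4, 5, 6, 7, 8]),
  (1, 10, 1, [0, 1, 14, 10, 9, 2, 3, 4, 5, 6, 7]),
  (1, 11, 0, [0, 1, 11, 10, 9, 2, 3, 4, 5, 6, 7]),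
  (1, 11, 1, [1, 2, 3, 4, 5, 6, 7, 9, 10, 11, 14]),
  (1, 12, 0, [0, 2, 3, 4, 5, 6, 7, 8, 1, 12, 13]),
  (1, 12, 1, [0, 2, 3, 4, 5, 6, 7, 1, 14, 12, 13]),
  (1, 12, 2, [0, 1, 14, 15, 12, 11, 10, 9, 2, 7, 8]),
  (1, 12, 3, [0, 1, 14, 15, 16, 12, 11, 10, 9, 2, 7]),
  (1, 12, 4, [0, 1, 14, 15, 16, 17, 12, 11, 10, 9, 2]),
  (1, 13, 0, [0, 2, 3, 4, 5, 6, 7, 8, 9, 1, 13]),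
  (1, 13, 1, [0, 1, 14, 13, 12, 11, 10, 9, 2, 7, 8]),
  (2, 3, 1, [0, 1, 2, 14, 3, 4, 5, 6, 7, 8, 9]),
  (2, 3, 2, [0, 1, 2, 14, 15, 3, 4, 5, 6, 7, 8]),
  (2, 3, 3, [0, 1, 2, 14, 15, 16, 3, 4, 5, 6, 7]),
  (2, 3, 4, [0, 2, 14, 15, 16, 17, 3, 4, 5, 6, 7]),
  (2, 4, 0, [0, 2, 4, 5, 6, 7, 9, 10, 11, 12, 13]),
  (2, 4, 2, [0, 1, 2, 14, 15, 4, 5, 6, 7, 8, 9]),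
  (2, 4, 3, [0, 1, 2, 14, 15, 16, 4, 5, 6, 7, 8]),
  (2, 4, 4, [0, 1, 2, 14, 15, 16, 17, 4, 5, 6, 7]),
  (2, 5, 0, [0, 1, 2, 5, 6, 7, 9, 10, 11, 12, 13]),
  (2, 5, 1, [0, 2, 14, 5, 6, 7, 9, 10, 11, 12, 13]),
  (2, 6, 0, [0, 1, 2, 6, 7, 8, 9, 10, 11, 12, 13]),
  (2, 6, 1, [0, 1, 2, 14, 6, 7, 9, 10, 11, 12, 13]),
  (2, 7, 1, [0, 1, 2, 14, 7, 8, 9, 10, 11, 12, 13]),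
  (2, 8, 1, [0, 1, 2, 14, 8, 7, 9, 10, 11, 12, 13]),
  (2, 9, 1, [0, 1, 7, 6, 5, 4, 3, 2, 14, 9, 8]),
  (2, 10, 0, [0, 1, 7, 6, 5, 4, 3, 2, 10, 9, 8]),
  (2, 10, 1, [0, 1, 7, 6, 5, 4, 3, 2, 14, 10, 9]),
  (2, 11, 0, [0, 1, 7, 6, 5, 4, 3, 2, 11, 10, 9]),
  (2, 11, 1, [0, 7, 6, 5, 4, 3, 2, 14, 11, 10, 9]),
  (2, 12, 0, [0, 1, 8, 7, 6, 5, 4, 3, 2, 12, 13]),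
  (2, 12, 1, [0, 1, 7, 6, 5, 4, 3, 2, 14, 12, 13]),
  (2, 12, 2, [0, 1, 2, 14, 15, 12, 11, 10, 9, 7, 8]),
  (2, 12, 3, [0, 1, 2, 14, 15, 16, 12, 11, 10, 9, 7]),
  (2, 12, 4, [0, 1, 2, 14, 15, 16, 17, 12, 11, 10, 9]),
  (2, 13, 0, [0, 1, 8, 9, 7, 6, 5, 4, 3, 2, 13]),
  (2, 13, 1, [0, 1, 2, 14, 13, 12, 11, 10, 9, 7, 8]),
  (3, 4, 1, [0, 1, 2, 3, 14, 4, 5, 6, 7, 8, 9]),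
  (3, 4, 2, [0, 1, 2, 3, 14, 15, 4, 5, 6, 7, 8]),
  (3, 4, 3, [0, 1, 2, 3, 14, 15, 16, 4, 5, 6, 7]),
  (3, 4, 4, [0, 2, 3, 14, 15, 16, 17, 4, 5, 6, 7]),
  (3, 5, 0, [0, 2, 3, 5, 6, 7, 9, 10, 11, 12, 13]),
  (3, 6, 0, [0, 1, 2, 3, 6, 7, 9, 10, 11, 12, 13]),
  (3, 6, 1, [0, 2, 3, 14, 6, 7, 9, 10, 11, 12, 13]),
  (3, 7, 0, [0, 1, 2, 3, 7, 8, 9, 10, 11, 12, 13]),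
  (3, 7, 1, [0, 1, 2, 3, 14, 7, 9, 10, 11, 12, 13]),
  (3, 8, 0, [0, 1, 2, 3, 8, 7, 9, 10, 11, 12, 13]),
  (3, 8, 1, [0, 1, 2, 3, 14, 8, 9, 10, 11, 12, 13]),
  (3, 9, 0, [0, 1, 7, 8, 2, 3, 9, 10, 11, 12, 13]),
  (3, 9, 1, [0, 1, 2, 7, 6, 5, 4, 3, 14, 9, 8]),
  (3, 10, 0, [0, 1, 2, 7, 6, 5, 4, 3, 10, 9, 8]),
  (3, 10, 1, [0, 1, 2, 7, 6, 5, 4, 3, 14, 10, 9]),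
  (3, 11, 0, [0, 1, 2, 7, 6, 5, 4, 3, 11, 10, 9]),
  (3, 11, 1, [0, 1, 7, 6, 5, 4, 3, 14, 11, 10, 9]),
  (3, 12, 0, [0, 1, 2, 8, 7, 6, 5, 4, 3, 12, 13]),
  (3, 12, 1, [0, 1, 2, 3, 14, 12, 11, 10, 9, 7, 8]),
  (3, 12, 2, [0, 1, 2, 3, 14, 15, 12, 11, 10, 9, 7]),
  (3, 12, 3, [0, 1, 2, 3, 14, 15, 16, 12, 11, 10, 9]),
  (3, 12, 4, [0, 1, 7, 2, 3, 14, 15, 16, 17, 12, 13]),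
  (3, 13, 0, [0, 1, 2, 3, 13, 12, 11, 10, 9, 7, 8]),
  (3, 13, 1, [0, 1, 2, 3, 14, 13, 12, 11, 10, 9, 7]),
  (4, 5, 1, [0, 1, 2, 3, 4, 14, 5, 6, 7, 8, 9]),
  (4, 6, 0, [0, 2, 3, 4, 6, 7, 9, 10, 11, 12, 13]),
  (4, 7, 0, [0, 1, 2, 3, 4, 7, 9, 10, 11, 12, 13]),
  (4, 7, 1, [0, 2, 3, 4, 14, 7, 9, 10, 11, 12, 13]),
  (4, 8, 0, [0, 1, 2, 3, 4, 8, 9, 10, 11, 12, 13]),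
  (4, 8, 1, [0, 2, 3, 4, 14, 8, 9, 10, 11, 12, 13]),
  (4, 9, 0, [0, 1, 7, 2, 3, 4, 9, 10, 11, 12, 13]),
  (4, 9, 1, [0, 1, 2, 3, 4, 14, 9, 10, 11, 12, 13]),
  (4, 10, 0, [0, 1, 2, 7, 6, 5, 4, 10, 11, 12, 13]),
  (4, 10, 1, [0, 1, 2, 7, 6, 5, 4, 14, 10, 9, 8]),
  (4, 11, 0, [0, 1, 2, 7, 6, 5, 4, 11, 10, 9, 8]),
  (4, 11, 1, [0, 1, 2, 3, 4, 14, 11, 10, 9, 7, 8]),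
  (4, 12, 0, [0, 1, 2, 3, 4, 12, 11, 10, 9, 7, 8]),
  (4, 12, 1, [0, 1, 2, 3, 4, 14, 12, 11, 10, 9, 7]),
  (4, 12, 2, [0, 1, 2, 3, 4, 14, 15, 12, 11, 10, 9]),
  (4, 12, 3, [0, 1, 7, 2, 3, 4, 14, 15, 16, 12, 13]),
  (4, 12, 4, [0, 1, 2, 3, 4, 14, 15, 16, 17, 12, 13]),
  (4, 13, 0, [0, 1, 2, 3, 4, 13, 12, 11, 10, 9, 7]),
  (4, 13, 1, [0, 1, 2, 3, 4, 14, 13, 12, 11, 10, 9]),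
  (5, 12, 0, [0, 1, 2, 3, 4, 5, 12, 11, 10, 9, 7]),
  (5, 12, 1, [0, 1, 2, 3, 4, 5, 14, 12, 11, 10, 9]),
  (6, 12, 0, [0, 1, 2, 3, 4, 5, 6, 12, 11, 10, 9]),
  (6, 12, 1, [0, 1, 2, 7, 6, 14, 12, 11, 10, 9, 8]),
  (7, 12, 0, [0, 1, 8, 2, 3, 4, 5, 6, 7, 12, 13]),
  (7, 12, 1, [0, 1, 2, 3, 4, 5, 6, 7, 14, 12, 13]),
  (8, 12, 0, [0, 1, 2, 3, 4, 5, 6, 7, 8, 12, 13]),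
  (8, 12, 1, [0, 2, 3, 4, 5, 6, 7, 8, 14, 12, 13]),
  (9, 12, 0, [0, 1, 2, 3, 4, 5, 6, 7, 9, 12, 13]),
  (9, 12, 1, [0, 2, 3, 4, 5, 6, 7, 9, 14, 12, 13]),
  (10, 12, 0, [0, 2, 3, 4, 5, 6, 7, 9, 10, 12, 13]),
  (11, 12, 1, [0, 1, 2, 7, 8, 9, 10, 11, 14, 12, 13]),
  (12, 13, 1, [0, 1, 2, 7, 8, 9, 10, 11, 12, 14, 13])]

def ports8 : List Port := [(3, [[5]]), (4, [[2, 6]]), (12, [[0, 10]]), (1, []), (0, [[12]]), (2, [[4]])]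

theorem ok8 : farOK 10 6 X8 certs8 ports8 = true := by decide +kernel

/-- pattern TTTTFFFFTTFFFFF, k = 11, w = 6, gaps (0, 0, 0, 4, 0, 5) -/
def X9 : List Bool :=
  [true, true, true, true, false, false, false, false, true, true, false, false, false, false, false]

def certs9 : List Cert := [
  (0, 1, 1, [0, 14, 13, 12, 11, 10, 9, 2, 3, 8, 1, 15]),
  (0, 1, 2, [0, 2, 3, 4, 5, 6, 7, 8, 9, 1, 16, 15]),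
  (0, 1, 3, [0, 2, 3, 4, 5, 6, 7, 8, 1, 17, 16, 15]),
  (0, 1, 4, [0, 3, 4, 5, 6, 7, 8, 1, 18, 17, 16, 15]),
  (0, 2, 1, [0, 14, 13, 12, 11, 10, 9, 1, 3, 8, 2, 15]),
  (0, 2, 2, [0, 1, 3, 4, 5, 6, 7, 8, 9, 2, 16, 15]),
  (0, 2, 3, [0, 1, 3, 4, 5, 6, 7, 8, 2, 17, 16, 15]),
  (0, 2, 4, [0, 3, 4, 5, 6, 7, 8, 2, 18, 17, 16, 15]),
  (0, 3, 1, [0, 14, 13, 12, 11, 10, 9, 1, 2, 8, 3, 15]),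
  (0, 3, 2, [0, 1, 2, 9, 8, 7, 6, 5, 4, 3, 16, 15]),
  (0, 3, 3, [0, 1, 2, 8, 7, 6, 5, 4, 3, 17, 16, 15]),
  (0, 3, 4, [0, 1, 8, 7, 6, 5, 4, 3, 18, 17, 16, 15]),
  (0, 4, 0, [0, 4, 3, 1, 2, 8, 9, 10, 11, 12, 13, 14]),
  (0, 4, 1, [0, 14, 13, 12, 11, 10, 9, 1, 2, 3, 4, 15]),
  (0, 5, 0, [0, 5, 4, 3, 1, 2, 9, 10, 11, 12, 13, 14]),
  (0, 5, 1, [0, 14, 13, 12, 11, 10, 9, 1, 3, 4, 5, 15]),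
  (0, 6, 0, [0, 6, 5, 4, 3, 1, 9, 10, 11, 12, 13, 14]),
  (0, 6, 1, [0, 14, 13, 12, 11, 10, 9, 1, 8, 7, 6, 15]),
  (0, 7, 0, [0, 7, 6, 5, 4, 3, 9, 10, 11, 12, 13, 14]),
  (0, 7, 1, [0, 14, 13, 12, 11, 10, 9, 1, 2, 8, 7, 15]),
  (0, 8, 1, [0, 14, 13, 12, 11, 10, 9, 1, 2, 3, 8, 15]),
  (0, 10, 1, [0, 1, 2, 3, 4, 5, 6, 7, 8, 9, 10, 15]),
  (0, 11, 0, [0, 1, 2, 3, 4, 5, 6, 7, 8, 9, 10, 11]),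
  (0, 11, 1, [0, 1, 3, 4, 5, 6, 7, 8, 9, 10, 11, 15]),
  (0, 12, 0, [0, 1, 3, 4, 5, 6, 7, 8, 9, 10, 11, 12]),
  (0, 12, 1, [0, 3, 4, 5, 6, 7, 8, 9, 10, 11, 12, 15]),
  (0, 13, 0, [0, 3, 4, 5, 6, 7, 8, 9, 10, 11, 12, 13]),
  (0, 13, 2, [0, 1, 2, 3, 8, 9, 10, 11, 12, 13, 16, 15]),
  (0, 13, 3, [0, 1, 2, 3, 9, 10, 11, 12, 13, 17, 16, 15]),
  (0, 13, 4, [0, 1, 2, 9, 10, 11, 12, 13, 18, 17, 16, 15]),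
  (0, 14, 1, [0, 1, 2, 3, 8, 9, 10, 11, 12, 13, 14, 15]),
  (0, 14, 2, [0, 1, 2, 3, 9, 10, 11, 12, 13, 14, 16, 15]),
  (0, 14, 3, [0, 1, 2, 9, 10, 11, 12, 13, 14, 17, 16, 15]),
  (0, 14, 4, [0, 1, 9, 10, 11, 12, 13, 14, 18, 17, 16, 15]),
  (1, 2, 1, [0, 1, 15, 2, 3, 8, 9, 10, 11, 12, 13, 14]),
  (1, 2, 2, [0, 1, 15, 16, 2, 3, 4, 5, 6, 7, 8, 9]),
  (1, 2, 3, [0, 1, 15, 16, 17, 2, 3, 4, 5, 6, 7, 8]),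
  (1, 2, 4, [1, 3, 4, 5, 6, 7, 8, 2, 18, 17, 16, 15]),
  (1, 3, 1, [0, 1, 15, 3, 2, 8, 9, 10, 11, 12, 13, 14]),
  (1, 3, 2, [0, 1, 15, 16, 3, 2, 9, 10, 11, 12, 13, 14]),
  (1, 3, 3, [0, 1, 15, 16, 17, 3, 4, 5, 6, 7, 8, 2]),
  (1, 3, 4, [0, 1, 15, 16, 17, 18, 3, 4, 5, 6, 7, 8]),
  (1, 4, 0, [0, 1, 4, 3, 2, 8, 9, 10, 11, 12, 13, 14]),
  (1, 4, 1, [0, 1, 15, 4, 3, 2, 9, 10, 11, 12, 13, 14]),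
  (1, 5, 0, [0, 1, 5, 4, 3, 2, 9, 10, 11, 12, 13, 14]),
  (1, 5, 1, [0, 1, 15, 5, 4, 3, 9, 10, 11, 12, 13, 14]),
  (1, 6, 0, [0, 1, 6, 5, 4, 3, 9, 10, 11, 12, 13, 14]),
  (1, 6, 1, [0, 1, 15, 6, 7, 8, 9, 10, 11, 12, 13, 14]),
  (1, 7, 0, [0, 1, 7, 8, 2, 3, 9, 10, 11, 12, 13, 14]),
  (1, 7, 1, [0, 1, 15, 7, 8, 2, 9, 10, 11, 12, 13, 14]),
  (1, 8, 1, [0, 1, 15, 8, 2, 3, 9, 10, 11, 12, 13, 14]),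
  (1, 9, 1, [0, 2, 3, 8, 1, 15, 9, 10, 11, 12, 13, 14]),
  (1, 10, 1, [0, 1, 15, 10, 9, 2, 3, 4, 5, 6, 7, 8]),
  (1, 11, 0, [0, 1, 11, 10, 9, 2, 3, 4, 5, 6, 7, 8]),
  (1, 11, 1, [0, 1, 15, 11, 10, 9, 3, 4, 5, 6, 7, 8]),
  (1, 12, 0, [0, 1, 12, 11, 10, 9, 3, 4, 5, 6, 7, 8]),
  (1, 12, 1, [0, 3, 4, 5, 6, 7, 8, 1, 15, 12, 13, 14]),
  (1, 13, 0, [0, 2, 3, 4, 5, 6, 7, 8, 9, 1, 13, 14]),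
  (1, 13, 1, [0, 2, 3, 4, 5, 6, 7, 8, 1, 15, 13, 14]),
  (1, 13, 2, [0, 1, 15, 16, 13, 12, 11, 10, 9, 2, 3, 8]),
  (1, 13, 3, [0, 1, 15, 16, 17, 13, 12, 11, 10, 9, 2, 3]),
  (1, 13, 4, [0, 1, 15, 16, 17, 18, 13, 12, 11, 10, 9, 2]),
  (1, 14, 1, [0, 1, 15, 14, 13, 12, 11, 10, 9, 2, 3, 8]),
  (1, 14, 2, [0, 1, 15, 16, 14, 13, 12, 11, 10, 9, 2, 3]),
  (1, 14, 3, [0, 1, 15, 16, 17, 14, 13, 12, 11, 10, 9, 2]),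
  (1, 14, 4, [0, 1, 15, 16, 17, 18, 14, 13, 12, 11, 10, 9]),
  (2, 3, 1, [0, 1, 2, 15, 3, 8, 9, 10, 11, 12, 13, 14]),
  (2, 3, 2, [0, 1, 2, 15, 16, 3, 4, 5, 6, 7, 8, 9]),
  (2, 3, 3, [0, 1, 2, 15, 16, 17, 3, 4, 5, 6, 7, 8]),
  (2, 3, 4, [0, 2, 15, 16, 17, 18, 3, 4, 5, 6, 7, 8]),
  (2, 4, 0, [0, 1, 2, 4, 3, 8, 9, 10, 11, 12, 13, 14]),
  (2, 4, 1, [0, 1, 2, 15, 4, 3, 9, 10, 11, 12, 13, 14]),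
  (2, 5, 0, [0, 1, 2, 5, 4, 3, 9, 10, 11, 12, 13, 14]),
  (2, 5, 1, [0, 2, 15, 5, 4, 3, 9, 10, 11, 12, 13, 14]),
  (2, 6, 0, [0, 1, 2, 6, 7, 8, 9, 10, 11, 12, 13, 14]),
  (2, 6, 1, [0, 2, 15, 6, 7, 8, 9, 10, 11, 12, 13, 14]),
  (2, 7, 0, [0, 1, 2, 7, 8, 3, 9, 10, 11, 12, 13, 14]),
  (2, 7, 1, [0, 1, 2, 15, 7, 8, 9, 10, 11, 12, 13, 14]),
  (2, 8, 1, [0, 1, 2, 15, 8, 3, 9, 10, 11, 12, 13, 14]),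
  (2, 9, 1, [0, 1, 3, 8, 2, 15, 9, 10, 11, 12, 13, 14]),
  (2, 10, 1, [0, 1, 2, 15, 10, 9, 3, 4, 5, 6, 7, 8]),
  (2, 11, 0, [0, 1, 2, 11, 10, 9, 3, 4, 5, 6, 7, 8]),
  (2, 11, 1, [0, 2, 15, 11, 10, 9, 3, 4, 5, 6, 7, 8]),
  (2, 12, 0, [0, 1, 3, 4, 5, 6, 7, 8, 2, 12, 13, 14]),
  (2, 12, 1, [0, 3, 4, 5, 6, 7, 8, 2, 15, 12, 13, 14]),
  (2, 13, 0, [0, 1, 3, 4, 5, 6, 7, 8, 9, 2, 13, 14]),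
  (2, 13, 1, [0, 1, 3, 4, 5, 6, 7, 8, 2, 15, 13, 14]),
  (2, 13, 2, [0, 1, 2, 15, 16, 13, 12, 11, 10, 9, 3, 8]),
  (2, 13, 3, [0, 1, 2, 15, 16, 17, 13, 12, 11, 10, 9, 3]),
  (2, 13, 4, [0, 1, 2, 15, 16, 17, 18, 13, 12, 11, 10, 9]),
  (2, 14, 1, [0, 1, 2, 15, 14, 13, 12, 11, 10, 9, 3, 8]),
  (2, 14, 2, [0, 1, 2, 15, 16, 14, 13, 12, 11, 10, 9, 3]),
  (2, 14, 3, [0, 1, 2, 15, 16, 17, 14, 13, 12, 11, 10, 9]),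
  (2, 14, 4, [0, 2, 15, 16, 17, 18, 14, 13, 12, 11, 10, 9]),
  (3, 5, 0, [0, 3, 5, 6, 7, 8, 9, 10, 11, 12, 13, 14]),
  (3, 6, 0, [0, 1, 3, 6, 7, 8, 9, 10, 11, 12, 13, 14]),
  (3, 6, 1, [0, 3, 15, 6, 7, 8, 9, 10, 11, 12, 13, 14]),
  (3, 7, 0, [0, 1, 2, 3, 7, 8, 9, 10, 11, 12, 13, 14]),
  (3, 7, 1, [0, 1, 3, 15, 7, 8, 9, 10, 11, 12, 13, 14]),
  (3, 8, 1, [0, 1, 2, 3, 15, 8, 9, 10, 11, 12, 13, 14]),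
  (3, 9, 1, [0, 1, 2, 8, 3, 15, 9, 10, 11, 12, 13, 14]),
  (3, 10, 0, [0, 8, 7, 6, 5, 4, 3, 10, 11, 12, 13, 14]),
  (3, 10, 1, [0, 1, 2, 8, 7, 6, 5, 4, 3, 15, 10, 9]),
  (3, 11, 0, [0, 1, 2, 8, 7, 6, 5, 4, 3, 11, 10, 9]),
  (3, 11, 1, [0, 1, 8, 7, 6, 5, 4, 3, 15, 11, 10, 9]),
  (3, 12, 0, [0, 1, 2, 8, 7, 6, 5, 4, 3, 12, 13, 14]),
  (3, 12, 1, [0, 1, 8, 7, 6, 5, 4, 3, 15, 12, 13, 14]),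
  (3, 13, 0, [0, 1, 2, 9, 8, 7, 6, 5, 4, 3, 13, 14]),
  (3, 13, 1, [0, 1, 2, 8, 7, 6, 5, 4, 3, 15, 13, 14]),
  (3, 13, 2, [0, 1, 2, 3, 15, 16, 13, 12, 11, 10, 9, 8]),
  (3, 13, 3, [0, 1, 2, 3, 15, 16, 17, 13, 12, 11, 10, 9]),
  (3, 13, 4, [0, 1, 2, 8, 9, 3, 15, 16, 17, 18, 13, 14]),
  (3, 14, 0, [3, 4, 5, 6, 7, 8, 9, 10, 11, 12, 13, 14]),
  (3, 14, 1, [0, 1, 2, 3, 15, 14, 13, 12, 11, 10, 9, 8]),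
  (3, 14, 2, [0, 1, 2, 3, 15, 16, 14, 13, 12, 11, 10, 9]),
  (3, 14, 3, [0, 1, 3, 15, 16, 17, 14, 13, 12, 11, 10, 9]),
  (3, 14, 4, [0, 3, 15, 16, 17, 18, 14, 13, 12, 11, 10, 9]),
  (4, 13, 0, [0, 1, 2, 3, 9, 8, 7, 6, 5, 4, 13, 14]),
  (4, 13, 1, [0, 1, 2, 3, 4, 15, 13, 12, 11, 10, 9, 8]),
  (4, 14, 0, [0, 1, 2, 3, 4, 14, 13, 12, 11, 10, 9, 8]),
  (4, 14, 1, [0, 1, 2, 3, 4, 15, 14, 13, 12, 11, 10, 9]),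
  (5, 13, 0, [0, 1, 2, 3, 4, 5, 13, 12, 11, 10, 9, 8]),
  (5, 13, 1, [0, 1, 2, 3, 4, 5, 15, 13, 12, 11, 10, 9]),
  (5, 14, 0, [0, 1, 2, 3, 4, 5, 14, 13, 12, 11, 10, 9]),
  (5, 14, 1, [0, 1, 3, 4, 5, 15, 14, 13, 12, 11, 10, 9]),
  (6, 13, 0, [0, 1, 2, 3, 4, 5, 6, 13, 12, 11, 10, 9]),
  (6, 13, 1, [0, 1, 2, 8, 7, 6, 15, 13, 12, 11, 10, 9]),
  (6, 14, 0, [0, 1, 2, 8, 7, 6, 14, 13, 12, 11, 10, 9]),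
  (6, 14, 1, [0, 1, 8, 7, 6, 15, 14, 13, 12, 11, 10, 9]),
  (7, 13, 0, [0, 1, 2, 8, 9, 3, 4, 5, 6, 7, 13, 14]),
  (7, 13, 1, [0, 1, 2, 3, 8, 7, 15, 13, 12, 11, 10, 9]),
  (7, 14, 0, [0, 1, 2, 3, 8, 7, 14, 13, 12, 11, 10, 9]),
  (7, 14, 1, [0, 1, 2, 8, 7, 15, 14, 13, 12, 11, 10, 9]),
  (8, 13, 0, [0, 1, 2, 9, 3, 4, 5, 6, 7, 8, 13, 14]),
  (8, 13, 1, [0, 1, 2, 3, 4, 5, 6, 7, 8, 15, 13, 14]),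
  (8, 14, 0, [3, 4, 5, 6, 7, 8, 14, 13, 12, 11, 10, 9]),
  (8, 14, 1, [0, 1, 2, 3, 8, 15, 14, 13, 12, 11, 10, 9]),
  (9, 13, 0, [0, 1, 2, 3, 4, 5, 6, 7, 8, 9, 13, 14]),
  (9, 13, 1, [0, 1, 3, 4, 5, 6, 7, 8, 9, 15, 13, 14]),
  (9, 14, 1, [0, 1, 2, 3, 4, 5, 6, 7, 8, 9, 15, 14]),
  (10, 13, 0, [0, 1, 3, 4, 5, 6, 7, 8, 9, 10, 13, 14]),
  (10, 13, 1, [0, 3, 4, 5, 6, 7, 8, 9, 10, 15, 13, 14]),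
  (10, 14, 0, [0, 1, 2, 3, 4, 5, 6, 7, 8, 9, 10, 14]),
  (10, 14, 1, [0, 1, 3, 4, 5, 6, 7, 8, 9, 10, 15, 14]),
  (11, 13, 0, [0, 3, 4, 5, 6, 7, 8, 9, 10, 11, 13, 14]),
  (11, 14, 0, [0, 1, 3, 4, 5, 6, 7, 8, 9, 10, 11, 14]),
  (11, 14, 1, [0, 3, 4, 5, 6, 7, 8, 9, 10, 11, 15, 14]),
  (12, 13, 1, [0, 1, 2, 3, 8, 9, 10, 11, 12, 15, 13, 14]),
  (12, 14, 0, [0, 3, 4, 5, 6, 7, 8, 9, 10, 11, 12, 14]),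
  (13, 14, 1, [0, 1, 2, 3, 8, 9, 10, 11, 12, 13, 15, 14]),
  (13, 14, 2, [0, 1, 2, 3, 9, 10, 11, 12, 13, 15, 16, 14]),
  (13, 14, 3, [0, 1, 2, 9, 10, 11, 12, 13, 15, 16, 17, 14]),
  (13, 14, 4, [0, 1, 9, 10, 11, 12, 13, 15, 16, 17, 18, 14])]

def ports9 : List Port := [(13, [[0, 11]]), (14, [[12]]), (3, [[4], [5]]), (0, [[9, 13]]), (1, []), (2, [])]

theorem ok9 : farOK 11 6 X9 certs9 ports9 = true := by decide +kernel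

/-- pattern TTTFFFFTTTFFFFF, k = 11, w = 6, gaps (0, 0, 4, 0, 0, 5) -/
def X10 : List Bool :=
  [true, true, true, false, false, false, false, true, true, true, false, false, false, false, false]

def certs10 : List Cert := [
  (0, 1, 1, [0, 14, 13, 12, 11, 10, 9, 2, 7, 8, 1, 15]),
  (0, 1, 2, [0, 2, 3, 4, 5, 6, 7, 8, 9, 1, 16, 15]),
  (0, 1, 3, [0, 2, 3, 4, 5, 6, 7, 8, 1, 17, 16, 15]),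
  (0, 1, 4, [0, 2, 3, 4, 5, 6, 7, 1, 18, 17, 16, 15]),
  (0, 2, 1, [0, 14, 13, 12, 11, 10, 9, 1, 7, 8, 2, 15]),
  (0, 2, 2, [0, 1, 8, 9, 7, 6, 5, 4, 3, 2, 16, 15]),
  (0, 2, 3, [0, 1, 8, 7, 6, 5, 4, 3, 2, 17, 16, 15]),
  (0, 2, 4, [0, 1, 7, 6, 5, 4, 3, 2, 18, 17, 16, 15]),
  (0, 3, 0, [0, 3, 2, 1, 7, 8, 9, 10, 11, 12, 13, 14]),
  (0, 3, 1, [0, 14, 13, 12, 11, 10, 9, 1, 7, 2, 3, 15]),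
  (0, 4, 0, [0, 4, 3, 2, 1, 7, 9, 10, 11, 12, 13, 14]),
  (0, 4, 1, [0, 14, 13, 12, 11, 10, 9, 1, 2, 3, 4, 15]),
  (0, 5, 0, [0, 5, 4, 3, 2, 1, 9, 10, 11, 12, 13, 14]),
  (0, 5, 1, [0, 14, 13, 12, 11, 10, 9, 1, 7, 6, 5, 15]),
  (0, 6, 0, [0, 6, 5, 4, 3, 2, 9, 10, 11, 12, 13, 14]),
  (0, 6, 1, [0, 14, 13, 12, 11, 10, 9, 1, 2, 7, 6, 15]),
  (0, 7, 1, [0, 14, 13, 12, 11, 10, 9, 1, 2, 8, 7, 15]),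
  (0, 8, 1, [0, 14, 13, 12, 11, 10, 9, 1, 2, 7, 8, 15]),
  (0, 8, 2, [0, 1, 2, 3, 4, 5, 6, 7, 9, 8, 16, 15]),
  (0, 8, 3, [0, 1, 2, 3, 4, 5, 6, 7, 8, 17, 16, 15]),
  (0, 8, 4, [0, 2, 3, 4, 5, 6, 7, 8, 18, 17, 16, 15]),
  (0, 10, 1, [0, 1, 2, 3, 4, 5, 6, 7, 8, 9, 10, 15]),
  (0, 11, 0, [0, 1, 2, 3, 4, 5, 6, 7, 8, 9, 10, 11]),
  (0, 11, 1, [0, 1, 2, 3, 4, 5, 6, 7, 9, 10, 11, 15]),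
  (0, 12, 0, [0, 1, 2, 3, 4, 5, 6, 7, 9, 10, 11, 12]),
  (0, 12, 1, [0, 2, 3, 4, 5, 6, 7, 9, 10, 11, 12, 15]),
  (0, 13, 0, [0, 2, 3, 4, 5, 6, 7, 9, 10, 11, 12, 13]),
  (0, 13, 2, [0, 1, 2, 7, 8, 9, 10, 11, 12, 13, 16, 15]),
  (0, 13, 3, [0, 1, 2, 7, 9, 10, 11, 12, 13, 17, 16, 15]),
  (0, 13, 4, [0, 1, 2, 9, 10, 11, 12, 13, 18, 17, 16, 15]),
  (0, 14, 1, [0, 1, 2, 7, 8, 9, 10, 11, 12, 13, 14, 15]),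
  (0, 14, 2, [0, 1, 2, 7, 9, 10, 11, 12, 13, 14, 16, 15]),
  (0, 14, 3, [0, 1, 2, 9, 10, 11, 12, 13, 14, 17, 16, 15]),
  (0, 14, 4, [0, 1, 9, 10, 11, 12, 13, 14, 18, 17, 16, 15]),
  (1, 2, 1, [0, 1, 15, 2, 7, 8, 9, 10, 11, 12, 13, 14]),
  (1, 2, 2, [0, 1, 15, 16, 2, 3, 4, 5, 6, 7, 8, 9]),
  (1, 2, 3, [0, 1, 15, 16, 17, 2, 3, 4, 5, 6, 7, 8]),
  (1, 2, 4, [0, 1, 15, 16, 17, 18, 2, 3, 4, 5, 6, 7]),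
  (1, 3, 0, [0, 1, 3, 2, 7, 8, 9, 10, 11, 12, 13, 14]),
  (1, 3, 1, [0, 1, 15, 3, 2, 7, 9, 10, 11, 12, 13, 14]),
  (1, 4, 0, [0, 1, 4, 3, 2, 7, 9, 10, 11, 12, 13, 14]),
  (1, 4, 1, [0, 1, 15, 4, 3, 2, 9, 10, 11, 12, 13, 14]),
  (1, 5, 0, [0, 1, 5, 4, 3, 2, 9, 10, 11, 12, 13, 14]),
  (1, 5, 1, [0, 1, 15, 5, 6, 7, 9, 10, 11, 12, 13, 14]),
  (1, 6, 0, [0, 1, 6, 7, 2, 8, 9, 10, 11, 12, 13, 14]),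
  (1, 6, 1, [0, 1, 15, 6, 7, 2, 9, 10, 11, 12, 13, 14]),
  (1, 7, 1, [0, 1, 15, 7, 2, 8, 9, 10, 11, 12, 13, 14]),
  (1, 8, 1, [0, 1, 15, 8, 2, 7, 9, 10, 11, 12, 13, 14]),
  (1, 8, 2, [0, 1, 15, 16, 8, 2, 3, 4, 5, 6, 7, 9]),
  (1, 8, 3, [0, 1, 15, 16, 17, 8, 2, 3, 4, 5, 6, 7]),
  (1, 8, 4, [1, 2, 3, 4, 5, 6, 7, 8, 18, 17, 16, 15]),
  (1, 9, 1, [0, 2, 7, 8, 1, 15, 9, 10, 11, 12, 13, 14]),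
  (1, 10, 1, [0, 1, 15, 10, 9, 2, 3, 4, 5, 6, 7, 8]),
  (1, 11, 0, [0, 1, 11, 10, 9, 2, 3, 4, 5, 6, 7, 8]),
  (1, 11, 1, [0, 1, 15, 11, 10, 9, 2, 3, 4, 5, 6, 7]),
  (1, 12, 0, [0, 1, 12, 11, 10, 9, 2, 3, 4, 5, 6, 7]),
  (1, 12, 1, [0, 2, 3, 4, 5, 6, 7, 1, 15, 12, 13, 14]),
  (1, 13, 0, [0, 2, 3, 4, 5, 6, 7, 8, 9, 1, 13, 14]),
  (1, 13, 1, [0, 2, 3, 4, 5, 6, 7, 8, 1, 15, 13, 14]),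
  (1, 13, 2, [0, 1, 15, 16, 13, 12, 11, 10, 9, 2, 7, 8]),
  (1, 13, 3, [0, 1, 15, 16, 17, 13, 12, 11, 10, 9, 2, 7]),
  (1, 13, 4, [0, 1, 15, 16, 17, 18, 13, 12, 11, 10, 9, 2]),
  (1, 14, 1, [0, 1, 15, 14, 13, 12, 11, 10, 9, 2, 7, 8]),
  (1, 14, 2, [0, 1, 15, 16, 14, 13, 12, 11, 10, 9, 2, 7]),
  (1, 14, 3, [0, 1, 15, 16, 17, 14, 13, 12, 11, 10, 9, 2]),
  (1, 14, 4, [0, 1, 15, 16, 17, 18, 14, 13, 12, 11, 10, 9]),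
  (2, 4, 0, [0, 2, 4, 5, 6, 7, 9, 10, 11, 12, 13, 14]),
  (2, 5, 0, [0, 1, 2, 5, 6, 7, 9, 10, 11, 12, 13, 14]),
  (2, 5, 1, [0, 2, 15, 5, 6, 7, 9, 10, 11, 12, 13, 14]),
  (2, 6, 0, [0, 1, 2, 6, 7, 8, 9, 10, 11, 12, 13, 14]),
  (2, 6, 1, [0, 1, 2, 15, 6, 7, 9, 10, 11, 12, 13, 14]),
  (2, 7, 1, [0, 1, 2, 15, 7, 8, 9, 10, 11, 12, 13, 14]),
  (2, 8, 1, [0, 1, 2, 15, 8, 7, 9, 10, 11, 12, 13, 14]),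
  (2, 8, 2, [0, 1, 2, 15, 16, 8, 9, 10, 11, 12, 13, 14]),
  (2, 8, 3, [0, 1, 7, 6, 5, 4, 3, 2, 15, 16, 17, 8]),
  (2, 8, 4, [0, 7, 6, 5, 4, 3, 2, 15, 16, 17, 18, 8]),
  (2, 9, 1, [0, 1, 7, 8, 2, 15, 9, 10, 11, 12, 13, 14]),
  (2, 10, 0, [0, 7, 6, 5, 4, 3, 2, 10, 11, 12, 13, 14]),
  (2, 10, 1, [0, 1, 7, 6, 5, 4, 3, 2, 15, 10, 9, 8]),
  (2, 11, 0, [0, 1, 7, 6, 5, 4, 3, 2, 11, 10, 9, 8]),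
  (2, 11, 1, [0, 1, 7, 6, 5, 4, 3, 2, 15, 11, 10, 9]),
  (2, 12, 0, [0, 1, 7, 6, 5, 4, 3, 2, 12, 11, 10, 9]),
  (2, 12, 1, [0, 1, 7, 6, 5, 4, 3, 2, 15, 12, 13, 14]),
  (2, 13, 0, [0, 1, 8, 9, 7, 6, 5, 4, 3, 2, 13, 14]),
  (2, 13, 1, [0, 1, 8, 7, 6, 5, 4, 3, 2, 15, 13, 14]),
  (2, 13, 2, [0, 1, 2, 15, 16, 13, 12, 11, 10, 9, 7, 8]),
  (2, 13, 3, [0, 1, 2, 15, 16, 17, 13, 12, 11, 10, 9, 7]),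
  (2, 13, 4, [0, 1, 2, 15, 16, 17, 18, 13, 12, 11, 10, 9]),
  (2, 14, 0, [2, 3, 4, 5, 6, 7, 9, 10, 11, 12, 13, 14]),
  (2, 14, 1, [0, 1, 2, 15, 14, 13, 12, 11, 10, 9, 7, 8]),
  (2, 14, 2, [0, 1, 2, 15, 16, 14, 13, 12, 11, 10, 9, 7]),
  (2, 14, 3, [0, 1, 2, 15, 16, 17, 14, 13, 12, 11, 10, 9]),
  (2, 14, 4, [0, 2, 15, 16, 17, 18, 14, 13, 12, 11, 10, 9]),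
  (3, 8, 0, [0, 1, 2, 3, 8, 7, 9, 10, 11, 12, 13, 14]),
  (3, 8, 1, [0, 1, 2, 3, 15, 8, 9, 10, 11, 12, 13, 14]),
  (3, 13, 0, [0, 1, 2, 8, 9, 7, 6, 5, 4, 3, 13, 14]),
  (3, 13, 1, [0, 1, 2, 3, 15, 13, 12, 11, 10, 9, 7, 8]),
  (3, 14, 0, [0, 1, 2, 3, 14, 13, 12, 11, 10, 9, 7, 8]),
  (3, 14, 1, [0, 1, 2, 3, 15, 14, 13, 12, 11, 10, 9, 7]),
  (4, 8, 0, [0, 1, 2, 3, 4, 8, 9, 10, 11, 12, 13, 14]),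
  (4, 8, 1, [0, 2, 3, 4, 15, 8, 9, 10, 11, 12, 13, 14]),
  (4, 13, 0, [0, 1, 2, 3, 4, 13, 12, 11, 10, 9, 7, 8]),
  (4, 13, 1, [0, 1, 2, 3, 4, 15, 13, 12, 11, 10, 9, 7]),
  (4, 14, 0, [0, 1, 2, 3, 4, 14, 13, 12, 11, 10, 9, 7]),
  (4, 14, 1, [0, 1, 2, 3, 4, 15, 14, 13, 12, 11, 10, 9]),
  (5, 8, 0, [0, 1, 7, 6, 5, 8, 9, 10, 11, 12, 13, 14]),
  (5, 8, 1, [0, 7, 6, 5, 15, 8, 9, 10, 11, 12, 13, 14]),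
  (5, 13, 0, [0, 1, 2, 3, 4, 5, 13, 12, 11, 10, 9, 7]),
  (5, 13, 1, [0, 1, 2, 3, 4, 5, 15, 13, 12, 11, 10, 9]),
  (5, 14, 0, [0, 1, 2, 3, 4, 5, 14, 13, 12, 11, 10, 9]),
  (5, 14, 1, [0, 1, 7, 6, 5, 15, 14, 13, 12, 11, 10, 9]),
  (6, 8, 0, [0, 1, 2, 7, 6, 8, 9, 10, 11, 12, 13, 14]),
  (6, 8, 1, [0, 1, 7, 6, 15, 8, 9, 10, 11, 12, 13, 14]),
  (6, 13, 0, [0, 1, 2, 3, 4, 5, 6, 13, 12, 11, 10, 9]),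
  (6, 13, 1, [0, 1, 2, 7, 6, 15, 13, 12, 11, 10, 9, 8]),
  (6, 14, 0, [0, 1, 2, 7, 6, 14, 13, 12, 11, 10, 9, 8]),
  (6, 14, 1, [0, 1, 2, 7, 6, 15, 14, 13, 12, 11, 10, 9]),
  (7, 8, 1, [0, 1, 2, 7, 15, 8, 9, 10, 11, 12, 13, 14]),
  (7, 13, 0, [0, 1, 8, 9, 2, 3, 4, 5, 6, 7, 13, 14]),
  (7, 13, 1, [0, 1, 8, 2, 3, 4, 5, 6, 7, 15, 13, 14]),
  (7, 14, 0, [2, 3, 4, 5, 6, 7, 14, 13, 12, 11, 10, 9]),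
  (7, 14, 1, [0, 1, 2, 7, 15, 14, 13, 12, 11, 10, 9, 8]),
  (8, 9, 1, [0, 1, 2, 7, 8, 15, 9, 10, 11, 12, 13, 14]),
  (8, 10, 1, [0, 1, 2, 3, 4, 5, 6, 7, 8, 15, 10, 9]),
  (8, 11, 0, [0, 1, 2, 3, 4, 5, 6, 7, 8, 11, 10, 9]),
  (8, 11, 1, [0, 2, 3, 4, 5, 6, 7, 8, 15, 11, 10, 9]),
  (8, 12, 0, [0, 1, 2, 3, 4, 5, 6, 7, 8, 12, 13, 14]),
  (8, 12, 1, [0, 2, 3, 4, 5, 6, 7, 8, 15, 12, 13, 14]),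
  (8, 13, 0, [0, 1, 2, 3, 4, 5, 6, 7, 9, 8, 13, 14]),
  (8, 13, 1, [0, 1, 2, 3, 4, 5, 6, 7, 8, 15, 13, 14]),
  (8, 13, 2, [0, 1, 2, 7, 8, 15, 16, 13, 12, 11, 10, 9]),
  (8, 13, 3, [0, 1, 2, 8, 15, 16, 17, 13, 12, 11, 10, 9]),
  (8, 13, 4, [0, 1, 2, 7, 9, 8, 15, 16, 17, 18, 13, 14]),
  (8, 14, 1, [0, 1, 2, 3, 4, 5, 6, 7, 9, 8, 15, 14]),
  (8, 14, 2, [0, 1, 2, 3, 4, 5, 6, 7, 8, 15, 16, 14]),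
  (8, 14, 3, [0, 1, 8, 15, 16, 17, 14, 13, 12, 11, 10, 9]),
  (8, 14, 4, [0, 8, 15, 16, 17, 18, 14, 13, 12, 11, 10, 9]),
  (9, 13, 0, [0, 1, 2, 3, 4, 5, 6, 7, 8, 9, 13, 14]),
  (9, 13, 1, [0, 1, 2, 3, 4, 5, 6, 7, 9, 15, 13, 14]),
  (9, 14, 1, [0, 1, 2, 3, 4, 5, 6, 7, 8, 9, 15, 14]),
  (10, 13, 0, [0, 1, 2, 3, 4, 5, 6, 7, 9, 10, 13, 14]),
  (10, 13, 1, [0, 2, 3, 4, 5, 6, 7, 9, 10, 15, 13, 14]),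
  (10, 14, 0, [0, 1, 2, 3, 4, 5, 6, 7, 8, 9, 10, 14]),
  (10, 14, 1, [0, 1, 2, 3, 4, 5, 6, 7, 9, 10, 15, 14]),
  (11, 13, 0, [0, 2, 3, 4, 5, 6, 7, 9, 10, 11, 13, 14]),
  (11, 14, 0, [0, 1, 2, 3, 4, 5, 6, 7, 9, 10, 11, 14]),
  (11, 14, 1, [0, 2, 3, 4, 5, 6, 7, 9, 10, 11, 15, 14]),
  (12, 13, 1, [0, 1, 2, 7, 8, 9, 10, 11, 12, 15, 13, 14]),
  (12, 14, 0, [0, 2, 3, 4, 5, 6, 7, 9, 10, 11, 12, 14]),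
  (13, 14, 1, [0, 1, 2, 7, 8, 9, 10, 11, 12, 13, 15, 14]),
  (13, 14, 2, [0, 1, 2, 7, 9, 10, 11, 12, 13, 15, 16, 14]),
  (13, 14, 3, [0, 1, 2, 9, 10, 11, 12, 13, 15, 16, 17, 14]),
  (13, 14, 4, [0, 1, 9, 10, 11, 12, 13, 15, 16, 17, 18, 14])]

def ports10 : List Port := [(13, [[0, 11]]), (14, [[12]]), (2, [[3], [4]]), (0, [[9, 13]]), (1, []), (8, [])]

theorem ok10 : farOK 11 6 X10 certs10 ports10 = true := by decide +kernel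

/-- pattern TTTFFFTTFFFTTFFF, k = 13, w = 7, gaps (0, 0, 3, 0, 3, 0, 3) -/
def X11 : List Bool :=
  [true, true, true, false, false, false, true, true, false, false, false, true, true, false, false, false]

def certs11 : List Cert := [
  (0, 1, 1, [0, 2, 3, 4, 5, 6, 7, 8, 9, 10, 11, 12, 1, 16]),
  (0, 1, 2, [0, 2, 3, 4, 5, 6, 7, 8, 9, 10, 11, 1, 17, 16]),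
  (0, 1, 3, [0, 15, 14, 13, 12, 2, 3, 4, 5, 6, 1, 18, 17, 16]),
  (0, 1, 4, [0, 2, 3, 4, 5, 6, 7, 11, 12, 1, 19, 18, 17, 16]),
  (0, 2, 1, [0, 1, 7, 8, 9, 10, 11, 12, 6, 5, 4, 3, 2, 16]),
  (0, 2, 2, [0, 1, 7, 8, 9, 10, 11, 6, 5, 4, 3, 2, 17, 16]),
  (0, 2, 3, [0, 7, 8, 9, 10, 11, 6, 5, 4, 3, 2, 18, 17, 16]),
  (0, 2, 4, [0, 1, 6, 7, 8, 9, 10, 11, 12, 2, 19, 18, 17, 16]),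
  (0, 3, 0, [0, 3, 2, 1, 6, 7, 8, 9, 10, 11, 12, 13, 14, 15]),
  (0, 3, 1, [0, 1, 2, 7, 8, 9, 10, 11, 12, 6, 5, 4, 3, 16]),
  (0, 3, 2, [0, 1, 2, 7, 8, 9, 10, 11, 6, 5, 4, 3, 17, 16]),
  (0, 3, 3, [0, 1, 6, 7, 8, 9, 10, 11, 12, 2, 3, 18, 17, 16]),
  (0, 3, 4, [0, 1, 2, 7, 11, 12, 6, 5, 4, 3, 19, 18, 17, 16]),
  (0, 4, 0, [0, 4, 3, 2, 1, 7, 8, 9, 10, 11, 12, 13, 14, 15]),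
  (0, 4, 1, [0, 15, 14, 13, 12, 7, 8, 9, 10, 11, 2, 3, 4, 16]),
  (0, 4, 2, [0, 1, 2, 7, 8, 9, 10, 11, 12, 6, 5, 4, 17, 16]),
  (0, 4, 3, [0, 1, 2, 7, 8, 9, 10, 11, 6, 5, 4, 18, 17, 16]),
  (0, 4, 4, [0, 1, 7, 8, 9, 10, 11, 2, 3, 4, 19, 18, 17, 16]),
  (0, 5, 0, [0, 5, 4, 3, 2, 7, 8, 9, 10, 11, 12, 13, 14, 15]),
  (0, 5, 1, [0, 1, 6, 7, 8, 9, 10, 11, 12, 2, 3, 4, 5, 16]),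
  (0, 6, 1, [0, 1, 7, 8, 9, 10, 11, 12, 2, 3, 4, 5, 6, 16]),
  (0, 7, 1, [0, 1, 2, 3, 4, 5, 6, 12, 11, 10, 9, 8, 7, 16]),
  (0, 7, 2, [0, 1, 2, 3, 4, 5, 6, 11, 10, 9, 8, 7, 17, 16]),
  (0, 7, 3, [0, 2, 3, 4, 5, 6, 11, 10, 9, 8, 7, 18, 17, 16]),
  (0, 7, 4, [0, 1, 2, 3, 4, 5, 6, 11, 12, 7, 19, 18, 17, 16]),
  (0, 8, 0, [0, 8, 7, 1, 2, 3, 4, 5, 6, 11, 12, 13, 14, 15]),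
  (0, 8, 1, [0, 1, 2, 3, 4, 5, 6, 7, 12, 11, 10, 9, 8, 16]),
  (0, 8, 2, [0, 1, 2, 3, 4, 5, 6, 7, 11, 10, 9, 8, 17, 16]),
  (0, 8, 3, [0, 1, 2, 3, 4, 5, 6, 11, 10, 9, 8, 18, 17, 16]),
  (0, 8, 4, [0, 1, 2, 3, 4, 5, 6, 11, 7, 8, 19, 18, 17, 16]),
  (0, 9, 0, [0, 9, 8, 7, 1, 2, 3, 4, 5, 6, 12, 13, 14, 15]),
  (0, 9, 1, [0, 15, 14, 13, 12, 2, 3, 4, 5, 6, 7, 8, 9, 16]),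
  (0, 10, 0, [0, 10, 9, 8, 7, 2, 3, 4, 5, 6, 12, 13, 14, 15]),
  (0, 10, 1, [0, 1, 2, 3, 4, 5, 6, 11, 12, 7, 8, 9, 10, 16]),
  (0, 11, 1, [0, 1, 2, 3, 4, 5, 6, 12, 7, 8, 9, 10, 11, 16]),
  (0, 12, 1, [0, 1, 2, 3, 4, 5, 6, 7, 8, 9, 10, 11, 12, 16]),
  (0, 13, 0, [0, 1, 2, 3, 4, 5, 6, 7, 8, 9, 10, 11, 12, 13]),
  (0, 13, 1, [0, 2, 3, 4, 5, 6, 7, 8, 9, 10, 11, 12, 13, 16]),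
  (0, 14, 0, [0, 2, 3, 4, 5, 6, 7, 8, 9, 10, 11, 12, 13, 14]),
  (0, 15, 1, [0, 1, 2, 3, 4, 5, 6, 7, 11, 12, 13, 14, 15, 16]),
  (1, 2, 1, [0, 1, 16, 2, 3, 4, 5, 6, 7, 8, 9, 10, 11, 12]),
  (1, 2, 2, [0, 1, 16, 17, 2, 3, 4, 5, 6, 7, 8, 9, 10, 11]),
  (1, 2, 3, [0, 1, 16, 17, 18, 2, 3, 4, 5, 6, 12, 13, 14, 15]),
  (1, 2, 4, [0, 1, 16, 17, 18, 19, 2, 3, 4, 5, 6, 7, 11, 12]),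
  (1, 3, 0, [0, 1, 3, 2, 6, 7, 8, 9, 10, 11, 12, 13, 14, 15]),
  (1, 3, 1, [0, 1, 16, 3, 2, 7, 8, 9, 10, 11, 12, 13, 14, 15]),
  (1, 3, 2, [0, 1, 16, 17, 3, 4, 5, 6, 2, 7, 8, 9, 10, 11]),
  (1, 3, 3, [0, 1, 16, 17, 18, 3, 2, 6, 7, 8, 9, 10, 11, 12]),
  (1, 3, 4, [0, 1, 16, 17, 18, 19, 3, 2, 6, 7, 8, 9, 10, 11]),
  (1, 4, 0, [0, 1, 4, 3, 2, 7, 8, 9, 10, 11, 12, 13, 14, 15]),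
  (1, 4, 2, [0, 1, 16, 17, 4, 3, 2, 6, 7, 8, 9, 10, 11, 12]),
  (1, 4, 3, [0, 1, 16, 17, 18, 4, 3, 2, 6, 7, 8, 9, 10, 11]),
  (1, 4, 4, [0, 1, 16, 17, 18, 19, 4, 3, 2, 6, 12, 13, 14, 15]),
  (1, 5, 0, [0, 1, 5, 6, 2, 7, 8, 9, 10, 11, 12, 13, 14, 15]),
  (1, 5, 1, [0, 1, 16, 5, 4, 3, 2, 6, 7, 8, 9, 10, 11, 12]),
  (1, 6, 1, [0, 1, 16, 6, 2, 7, 8, 9, 10, 11, 12, 13, 14, 15]),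
  (1, 7, 1, [0, 1, 16, 7, 2, 3, 4, 5, 6, 11, 12, 13, 14, 15]),
  (1, 7, 2, [0, 1, 16, 17, 7, 2, 3, 4, 5, 6, 12, 13, 14, 15]),
  (1, 7, 3, [0, 1, 16, 17, 18, 7, 8, 9, 10, 11, 12, 13, 14, 15]),
  (1, 7, 4, [0, 1, 16, 17, 18, 19, 7, 2, 3, 4, 5, 6, 11, 12]),
  (1, 8, 0, [0, 1, 8, 7, 2, 3, 4, 5, 6, 11, 12, 13, 14, 15]),
  (1, 8, 1, [0, 1, 16, 8, 7, 2, 3, 4, 5, 6, 12, 13, 14, 15]),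
  (1, 8, 2, [0, 1, 16, 17, 8, 9, 10, 11, 2, 3, 4, 5, 6, 7]),
  (1, 8, 3, [0, 1, 16, 17, 18, 8, 7, 2, 3, 4, 5, 6, 11, 12]),
  (1, 8, 4, [0, 1, 16, 17, 18, 19, 8, 7, 2, 3, 4, 5, 6, 11]),
  (1, 9, 0, [0, 1, 9, 8, 7, 2, 3, 4, 5, 6, 12, 13, 14, 15]),
  (1, 10, 0, [0, 1, 10, 11, 2, 3, 4, 5, 6, 7, 12, 13, 14, 15]),
  (1, 10, 1, [0, 1, 16, 10, 9, 8, 7, 2, 3, 4, 5, 6, 11, 12]),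
  (1, 11, 1, [0, 1, 16, 11, 2, 3, 4, 5, 6, 7, 12, 13, 14, 15]),
  (1, 12, 1, [0, 1, 16, 12, 2, 3, 4, 5, 6, 7, 8, 9, 10, 11]),
  (1, 13, 0, [0, 1, 13, 12, 2, 3, 4, 5, 6, 7, 8, 9, 10, 11]),
  (1, 13, 1, [0, 2, 3, 4, 5, 6, 7, 11, 12, 1, 16, 13, 14, 15]),
  (1, 14, 0, [0, 2, 3, 4, 5, 6, 7, 8, 9, 10, 11, 1, 14, 15]),
  (1, 15, 0, [0, 2, 3, 4, 5, 6, 7, 8, 9, 10, 11, 12, 1, 15]),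
  (1, 15, 1, [0, 1, 16, 15, 14, 13, 12, 2, 3, 4, 5, 6, 7, 11]),
  (2, 3, 1, [0, 1, 2, 16, 3, 4, 5, 6, 7, 8, 9, 10, 11, 12]),
  (2, 3, 2, [0, 1, 2, 16, 17, 3, 4, 5, 6, 7, 8, 9, 10, 11]),
  (2, 3, 3, [0, 1, 2, 16, 17, 18, 3, 4, 5, 6, 12, 13, 14, 15]),
  (2, 3, 4, [0, 1, 2, 16, 17, 18, 19, 3, 4, 5, 6, 7, 11, 12]),
  (2, 4, 0, [0, 2, 4, 5, 6, 7, 8, 9, 10, 11, 12, 13, 14, 15]),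
  (2, 4, 2, [0, 1, 2, 16, 17, 4, 5, 6, 7, 8, 9, 10, 11, 12]),
  (2, 4, 3, [0, 1, 2, 16, 17, 18, 4, 5, 6, 7, 8, 9, 10, 11]),
  (2, 4, 4, [0, 1, 2, 16, 17, 18, 19, 4, 5, 6, 12, 13, 14, 15]),
  (2, 5, 0, [0, 1, 2, 5, 6, 7, 8, 9, 10, 11, 12, 13, 14, 15]),
  (2, 5, 1, [0, 2, 16, 5, 6, 7, 8, 9, 10, 11, 12, 13, 14, 15]),
  (2, 6, 1, [0, 1, 2, 16, 6, 7, 8, 9, 10, 11, 12, 13, 14, 15]),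
  (2, 7, 1, [0, 1, 2, 16, 7, 8, 9, 10, 11, 6, 12, 13, 14, 15]),
  (2, 7, 2, [0, 1, 2, 16, 17, 7, 8, 9, 10, 11, 12, 13, 14, 15]),
  (2, 7, 3, [0, 2, 16, 17, 18, 7, 8, 9, 10, 11, 12, 13, 14, 15]),
  (2, 7, 4, [0, 1, 2, 16, 17, 18, 19, 7, 6, 11, 12, 13, 14, 15]),
  (2, 8, 0, [0, 1, 6, 5, 4, 3, 2, 8, 7, 11, 12, 13, 14, 15]),
  (2, 8, 1, [0, 1, 2, 16, 8, 9, 10, 11, 6, 7, 12, 13, 14, 15]),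
  (2, 8, 2, [0, 1, 2, 16, 17, 8, 9, 10, 11, 6, 12, 13, 14, 15]),
  (2, 8, 3, [0, 1, 2, 16, 17, 18, 8, 7, 6, 11, 12, 13, 14, 15]),
  (2, 8, 4, [0, 1, 2, 16, 17, 18, 19, 8, 7, 6, 12, 13, 14, 15]),
  (2, 9, 0, [0, 1, 6, 5, 4, 3, 2, 9, 8, 7, 12, 13, 14, 15]),
  (2, 9, 1, [0, 6, 5, 4, 3, 2, 16, 9, 8, 7, 12, 13, 14, 15]),
  (2, 10, 0, [0, 1, 6, 5, 4, 3, 2, 10, 11, 7, 12, 13, 14, 15]),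
  (2, 10, 1, [0, 1, 2, 16, 10, 9, 8, 7, 6, 11, 12, 13, 14, 15]),
  (2, 11, 1, [0, 1, 2, 16, 11, 10, 9, 8, 7, 6, 12, 13, 14, 15]),
  (2, 12, 1, [0, 1, 6, 5, 4, 3, 2, 16, 12, 7, 8, 9, 10, 11]),
  (2, 13, 0, [0, 1, 6, 5, 4, 3, 2, 13, 12, 7, 8, 9, 10, 11]),
  (2, 13, 1, [0, 1, 6, 7, 8, 9, 10, 11, 12, 2, 16, 13, 14, 15]),
  (2, 14, 0, [0, 1, 7, 8, 9, 10, 11, 6, 5, 4, 3, 2, 14, 15]),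
  (2, 14, 1, [0, 7, 8, 9, 10, 11, 6, 5, 4, 3, 2, 16, 14, 15]),
  (2, 15, 0, [0, 1, 7, 8, 9, 10, 11, 12, 6, 5, 4, 3, 2, 15]),
  (2, 15, 1, [0, 1, 2, 16, 15, 14, 13, 12, 6, 7, 8, 9, 10, 11]),
  (3, 4, 1, [0, 1, 2, 3, 16, 4, 5, 6, 7, 8, 9, 10, 11, 12]),
  (3, 4, 2, [0, 1, 2, 3, 16, 17, 4, 5, 6, 7, 8, 9, 10, 11]),
  (3, 4, 3, [0, 1, 2, 3, 16, 17, 18, 4, 5, 6, 12, 13, 14, 15]),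
  (3, 4, 4, [0, 1, 2, 3, 16, 17, 18, 19, 4, 5, 6, 7, 11, 12]),
  (3, 5, 0, [0, 2, 3, 5, 6, 7, 8, 9, 10, 11, 12, 13, 14, 15]),
  (3, 6, 0, [0, 1, 2, 3, 6, 7, 8, 9, 10, 11, 12, 13, 14, 15]),
  (3, 6, 1, [0, 2, 3, 16, 6, 7, 8, 9, 10, 11, 12, 13, 14, 15]),
  (3, 7, 0, [0, 1, 2, 3, 7, 8, 9, 10, 11, 6, 12, 13, 14, 15]),
  (3, 7, 1, [0, 1, 2, 3, 16, 7, 8, 9, 10, 11, 12, 13, 14, 15]),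
  (3, 7, 2, [0, 1, 2, 6, 5, 4, 3, 16, 17, 7, 8, 9, 10, 11]),
  (3, 7, 3, [0, 1, 2, 3, 16, 17, 18, 7, 6, 11, 12, 13, 14, 15]),
  (3, 7, 4, [0, 1, 2, 3, 16, 17, 18, 19, 7, 6, 12, 13, 14, 15]),
  (3, 8, 0, [0, 1, 2, 3, 8, 9, 10, 11, 6, 7, 12, 13, 14, 15]),
  (3, 8, 1, [0, 1, 2, 3, 16, 8, 9, 10, 11, 6, 12, 13, 14, 15]),
  (3, 8, 2, [0, 1, 2, 3, 16, 17, 8, 7, 6, 11, 12, 13, 14, 15]),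
  (3, 8, 3, [0, 1, 2, 3, 16, 17, 18, 8, 7, 6, 12, 13, 14, 15]),
  (3, 8, 4, [0, 1, 2, 3, 16, 17, 18, 19, 8, 7, 12, 13, 14, 15]),
  (3, 9, 0, [0, 1, 2, 6, 5, 4, 3, 9, 8, 7, 12, 13, 14, 15]),
  (3, 9, 1, [0, 1, 2, 3, 16, 9, 8, 7, 6, 11, 12, 13, 14, 15]),
  (3, 10, 0, [0, 1, 2, 3, 10, 9, 8, 7, 6, 11, 12, 13, 14, 15]),
  (3, 10, 1, [0, 1, 2, 3, 16, 10, 9, 8, 7, 6, 12, 13, 14, 15]),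
  (3, 11, 0, [0, 1, 2, 3, 11, 10, 9, 8, 7, 6, 12, 13, 14, 15]),
  (3, 11, 1, [0, 1, 2, 3, 16, 11, 10, 9, 8, 7, 12, 13, 14, 15]),
  (3, 12, 0, [0, 1, 6, 7, 8, 9, 10, 11, 2, 3, 12, 13, 14, 15]),
  (3, 12, 1, [0, 1, 2, 6, 5, 4, 3, 16, 12, 7, 8, 9, 10, 11]),
  (3, 13, 0, [0, 1, 2, 6, 5, 4, 3, 13, 12, 7, 8, 9, 10, 11]),
  (3, 13, 1, [0, 1, 2, 7, 11, 12, 6, 5, 4, 3, 16, 13, 14, 15]),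
  (3, 14, 0, [0, 1, 2, 7, 8, 9, 10, 11, 6, 5, 4, 3, 14, 15]),
  (3, 14, 1, [0, 1, 2, 3, 16, 14, 13, 12, 6, 7, 8, 9, 10, 11]),
  (3, 15, 0, [0, 1, 2, 3, 15, 14, 13, 12, 6, 7, 8, 9, 10, 11]),
  (3, 15, 1, [0, 1, 2, 3, 16, 15, 14, 13, 12, 7, 8, 9, 10, 11]),
  (4, 5, 1, [0, 1, 2, 3, 4, 16, 5, 6, 7, 8, 9, 10, 11, 12]),
  (4, 6, 0, [0, 2, 3, 4, 6, 7, 8, 9, 10, 11, 12, 13, 14, 15]),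
  (4, 7, 0, [0, 1, 2, 3, 4, 7, 8, 9, 10, 11, 12, 13, 14, 15]),
  (4, 7, 1, [0, 2, 3, 4, 16, 7, 8, 9, 10, 11, 12, 13, 14, 15]),
  (4, 7, 2, [0, 1, 2, 3, 4, 16, 17, 7, 6, 11, 12, 13, 14, 15]),
  (4, 7, 3, [0, 1, 2, 3, 4, 16, 17, 18, 7, 6, 12, 13, 14, 15]),
  (4, 7, 4, [0, 1, 2, 3, 4, 16, 17, 18, 19, 7, 8, 9, 10, 11]),
  (4, 8, 0, [0, 1, 2, 3, 4, 8, 9, 10, 11, 6, 12, 13, 14, 15]),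
  (4, 8, 1, [0, 1, 2, 3, 4, 16, 8, 7, 6, 11, 12, 13, 14, 15]),
  (4, 8, 2, [0, 1, 2, 3, 4, 16, 17, 8, 7, 6, 12, 13, 14, 15]),
  (4, 8, 3, [0, 1, 2, 3, 4, 16, 17, 18, 8, 7, 12, 13, 14, 15]),
  (4, 8, 4, [0, 1, 2, 3, 4, 16, 17, 18, 19, 8, 7, 6, 11, 12]),
  (4, 9, 0, [0, 1, 2, 3, 4, 9, 8, 7, 6, 11, 12, 13, 14, 15]),
  (4, 9, 1, [0, 1, 2, 3, 4, 16, 9, 8, 7, 6, 12, 13, 14, 15]),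
  (4, 10, 0, [0, 1, 2, 3, 4, 10, 9, 8, 7, 6, 12, 13, 14, 15]),
  (4, 10, 1, [0, 1, 2, 3, 4, 16, 10, 9, 8, 7, 12, 13, 14, 15]),
  (4, 11, 0, [0, 1, 2, 3, 4, 11, 10, 9, 8, 7, 12, 13, 14, 15]),
  (4, 11, 1, [0, 2, 3, 4, 16, 11, 10, 9, 8, 7, 12, 13, 14, 15]),
  (4, 12, 0, [0, 1, 7, 8, 9, 10, 11, 2, 3, 4, 12, 13, 14, 15]),
  (4, 12, 1, [0, 7, 8, 9, 10, 11, 2, 3, 4, 16, 12, 13, 14, 15]),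
  (4, 13, 0, [0, 1, 2, 7, 8, 9, 10, 11, 6, 5, 4, 13, 14, 15]),
  (4, 13, 1, [0, 1, 2, 3, 4, 16, 13, 12, 6, 7, 8, 9, 10, 11]),
  (4, 14, 0, [0, 1, 2, 3, 4, 14, 13, 12, 6, 7, 8, 9, 10, 11]),
  (4, 14, 1, [0, 1, 2, 3, 4, 16, 14, 13, 12, 7, 8, 9, 10, 11]),
  (4, 15, 0, [0, 1, 2, 3, 4, 15, 14, 13, 12, 7, 8, 9, 10, 11]),
  (4, 15, 1, [0, 1, 2, 7, 8, 9, 10, 11, 12, 6, 5, 4, 16, 15]),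
  (5, 7, 0, [0, 1, 2, 6, 5, 7, 8, 9, 10, 11, 12, 13, 14, 15]),
  (5, 7, 1, [0, 1, 2, 3, 4, 5, 16, 7, 6, 11, 12, 13, 14, 15]),
  (5, 8, 0, [0, 1, 2, 3, 4, 5, 8, 7, 6, 11, 12, 13, 14, 15]),
  (5, 8, 1, [0, 1, 2, 3, 4, 5, 16, 8, 7, 6, 12, 13, 14, 15]),
  (6, 7, 1, [0, 1, 2, 3, 4, 5, 6, 16, 7, 8, 9, 10, 11, 12]),
  (6, 8, 0, [0, 1, 2, 3, 4, 5, 6, 8, 7, 11, 12, 13, 14, 15]),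
  (6, 8, 1, [0, 1, 2, 3, 4, 5, 6, 16, 8, 7, 12, 13, 14, 15]),
  (7, 8, 1, [0, 1, 2, 3, 4, 5, 6, 7, 16, 8, 9, 10, 11, 12]),
  (7, 8, 2, [0, 1, 2, 3, 4, 5, 6, 7, 16, 17, 8, 9, 10, 11]),
  (7, 8, 3, [0, 1, 7, 16, 17, 18, 8, 9, 10, 11, 12, 13, 14, 15]),
  (7, 8, 4, [0, 1, 2, 6, 7, 16, 17, 18, 19, 8, 9, 10, 11, 12]),
  (7, 9, 0, [0, 2, 3, 4, 5, 6, 7, 9, 10, 11, 12, 13, 14, 15]),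
  (7, 10, 0, [0, 1, 2, 3, 4, 5, 6, 7, 10, 11, 12, 13, 14, 15]),
  (7, 10, 1, [0, 2, 3, 4, 5, 6, 7, 16, 10, 11, 12, 13, 14, 15]),
  (7, 11, 1, [0, 1, 2, 3, 4, 5, 6, 7, 16, 11, 12, 13, 14, 15]),
  (7, 12, 1, [0, 1, 2, 3, 4, 5, 6, 11, 7, 16, 12, 13, 14, 15]),
  (7, 13, 0, [0, 1, 2, 3, 4, 5, 6, 11, 10, 9, 8, 7, 13, 12]),
  (7, 13, 1, [0, 1, 2, 3, 4, 5, 6, 11, 12, 7, 16, 13, 14, 15]),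
  (7, 14, 0, [0, 1, 2, 3, 4, 5, 6, 11, 10, 9, 8, 7, 14, 15]),
  (7, 14, 1, [0, 2, 3, 4, 5, 6, 11, 10, 9, 8, 7, 16, 14, 15]),
  (7, 15, 0, [0, 1, 2, 3, 4, 5, 6, 12, 11, 10, 9, 8, 7, 15]),
  (7, 15, 1, [0, 1, 2, 3, 4, 5, 6, 7, 16, 15, 14, 13, 12, 11]),
  (8, 9, 1, [0, 1, 2, 3, 4, 5, 6, 7, 8, 16, 9, 10, 11, 12]),
  (8, 10, 0, [0, 2, 3, 4, 5, 6, 7, 8, 10, 11, 12, 13, 14, 15]),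
  (8, 11, 0, [0, 1, 2, 3, 4, 5, 6, 7, 8, 11, 12, 13, 14, 15]),
  (8, 11, 1, [0, 2, 3, 4, 5, 6, 7, 8, 16, 11, 12, 13, 14, 15]),
  (8, 12, 0, [0, 1, 2, 3, 4, 5, 6, 11, 7, 8, 12, 13, 14, 15]),
  (8, 12, 1, [0, 1, 2, 3, 4, 5, 6, 7, 8, 16, 12, 13, 14, 15]),
  (8, 13, 0, [0, 1, 2, 3, 4, 5, 6, 7, 11, 10, 9, 8, 13, 12]),
  (8, 13, 1, [0, 1, 2, 3, 4, 5, 6, 11, 7, 8, 16, 13, 14, 15]),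
  (8, 14, 0, [0, 1, 2, 3, 4, 5, 6, 7, 11, 10, 9, 8, 14, 15]),
  (8, 14, 1, [0, 1, 2, 3, 4, 5, 6, 7, 8, 16, 14, 13, 12, 11]),
  (8, 15, 0, [0, 1, 2, 3, 4, 5, 6, 7, 8, 15, 14, 13, 12, 11]),
  (8, 15, 1, [0, 1, 2, 3, 4, 5, 6, 7, 8, 16, 15, 14, 13, 12]),
  (9, 14, 1, [0, 1, 2, 3, 4, 5, 6, 7, 8, 9, 16, 14, 13, 12])]

def ports11 : List Port := [(3, [[5]]), (4, [[1, 2, 6]]), (8, [[10]]), (1, [[4, 9, 14]]), (0, [[14]]), (2, [[4]]), (7, [[9]])]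

theorem ok11 : farOK 13 7 X11 certs11 ports11 = true := by decide +kernel

end Crest.Agent.R054.Pat
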