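import Crest.Agent.R054.ThmASetup
import Crest.Agent.R054.Drop
import Crest.Agent.R054.PatData

/-!
# R054 / ThmA : no minimal counterexample with a large clique (assembly)
-/

set_option autoImplicit false

open Finset

set_option linter.unusedSectionVars false

namespace Crest.Agent.R054

universe u

variable {V : Type u} [Fintype V] [DecidableEq V] {G : SimpleGraph V} {k : ℕ}

open Pat in
theorem patHyp_of_map {M : Finset V} (hM : ∀ a ∈ M, ∀ b ∈ M, a ≠ b → G.Adj a b) {cs : List V}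
    {X : List Bool} (hcs : IsCyc G cs) (h3 : 3 ≤ cs.length)
    (hX : cs.map (fun x => decide (x ∈ M)) = X) : PatHyp G cs X := by
  have hlen : cs.length = X.length := by rw [← hX, List.length_map]
  have hget : ∀ i (hi : i < cs.length), X.getD i false = true → cs[i] ∈ M := by
    intro i hi h
    rw [← hX, List.getD_eq_getElem _ _ (by rw [List.length_map]; exact hi), List.getElem_map] at h
    simpa using h
  refine ⟨hcs, hlen, h3, ?_⟩
  intro i hi j hj h1 h2 hij
  refine hM _ (hget i hi h1) _ (hget j hj h2) ?_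
  intro he
  exact hij ((List.Nodup.getElem_inj_iff hcs.nodup).1 he)

open Pat in
/-- The classification statement (clique numbers 5, 6, 7). -/
def ClassifyStmt : Prop := ∀ (V : Type u) [Fintype V] [DecidableEq V] (G : SimpleGraph V) (k w : ℕ)
  (M : Finset V) (C : List V), (∀ a ∈ M, ∀ b ∈ M, a ≠ b → G.Adj a b) → M.card = w → 5 ≤ w → w ≤ 7 →
  k + 1 ≤ 2 * w → w < k → IsCyc G C → (C.length = k + 3 ∨ C.length = k + 4) → (∀ a ∈ M, a ∈ C) →
  HasCyc G (k + 1) ∨ ∃ cs, IsCyc G cs ∧ cs.Perm C ∧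
    (k, w, cs.map (fun x => decide (x ∈ M))) ∈ [(8, 5, X3), (9, 5, X4), (9, 5, X5), (9, 5, X6),
      (10, 6, X7), (10, 6, X8), (11, 6, X9), (11, 6, X10), (13, 7, X11)]

open Pat in
theorem MinCE.no_pattern (h : MinCE k G) {M : Finset V} {w : ℕ}
    (hM : ∀ a ∈ M, ∀ b ∈ M, a ≠ b → G.Adj a b)
    (hmaxM : ∀ K : Finset V, (∀ a ∈ K, ∀ b ∈ K, a ≠ b → G.Adj a b) → K.card ≤ M.card)
    (hw : M.card = w) {cs : List V} (hcs : IsCyc G cs) (h3 : 3 ≤ cs.length)
    (hX : (k, w, cs.map (fun x => decide (x ∈ M))) ∈ [(8, 5, X3), (9, 5, X4), (9, 5, X5),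
      (9, 5, X6), (10, 6, X7), (10, 6, X8), (11, 6, X9), (11, 6, X10), (13, 7, X11)]) : False := by
  have hdeg : ∀ v : V, k + 1 ≤ (nbC G {v}).card := fun v =>
    card_nbC_singleton_ge h.proper h.card_eq v
  rw [hw] at hmaxM
  simp only [List.mem_cons, List.not_mem_nil, or_false, Prod.mk.injEq] at hX
  rcases hX with ⟨rfl, rfl, hX⟩ | ⟨rfl, rfl, hX⟩ | ⟨rfl, rfl, hX⟩ | ⟨rfl, rfl, hX⟩ |
    ⟨rfl, rfl, hX⟩ | ⟨rfl, rfl, hX⟩ | ⟨rfl, rfl, hX⟩ | ⟨rfl, rfl, hX⟩ | ⟨rfl, rfl, hX⟩
  · exact far ok3 (patHyp_of_map hM hcs h3 hX) h.free hdeg hmaxM h.alp_le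
  · exact far ok4 (patHyp_of_map hM hcs h3 hX) h.free hdeg hmaxM h.alp_le
  · exact far ok5 (patHyp_of_map hM hcs h3 hX) h.free hdeg hmaxM h.alp_le
  · exact far ok6 (patHyp_of_map hM hcs h3 hX) h.free hdeg hmaxM h.alp_le
  · exact far ok7 (patHyp_of_map hM hcs h3 hX) h.free hdeg hmaxM h.alp_le
  · exact far ok8 (patHyp_of_map hM hcs h3 hX) h.free hdeg hmaxM h.alp_le
  · exact far ok9 (patHyp_of_map hM hcs h3 hX) h.free hdeg hmaxM h.alp_le
  · exact far ok10 (patHyp_of_map hM hcs h3 hX) h.free hdeg hmaxM h.alp_le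
  · exact far ok11 (patHyp_of_map hM hcs h3 hX) h.free hdeg hmaxM h.alp_le

/-- Theorem A: no minimal counterexample with maximum clique of size `w ≥ 5`, `2w ≥ k + 1`. -/
theorem MinCE.thmA (hcls : ClassifyStmt.{u}) (h : MinCE k G) {M : Finset V}
    (hM : ∀ a ∈ M, ∀ b ∈ M, a ≠ b → G.Adj a b)
    (hmaxM : ∀ K : Finset V, (∀ a ∈ K, ∀ b ∈ K, a ≠ b → G.Adj a b) → K.card ≤ M.card)
    (h5 : 5 ≤ M.card) (h2 : k + 1 ≤ 2 * M.card) : False := by
  have hk3 := h.hk
  have hMk : M.card ≤ k := h.card_clique_le hM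
  have hk4 : 4 ≤ k := by omega
  rcases Nat.lt_or_ge M.card k with hlt | hge
  · obtain ⟨C, hC⟩ := h.exists_maxCyc hM hmaxM (by omega) hMk
    obtain ⟨C', hC', hsub, hlen⟩ := hC.exists_longer h2 hlt
    have hMC' : ∀ a ∈ M, a ∈ C' := fun a ha => hsub a (hC.hMC a ha)
    have hCl := hC.hlen
    rcases Nat.lt_or_ge k C'.length with hl | hl
    · by_cases h1 : C'.length = k + 1
      · exact h.free (hC'.hasCyc' h1 (by omega))
      · by_cases h2' : C'.length = k + 2
        · rcases drop_one hM hk3 (by omega) h2 hC' hMC' h2' with h3 | ⟨L', hL', hL'l, hL'M⟩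
          · exact h.free h3
          · have := hC.hmax L' hL' hL'M (by omega)
            omega
        · have h34 : C'.length = k + 3 ∨ C'.length = k + 4 := by omega
          by_cases h8 : 8 ≤ M.card
          · exact h.free (drop_of_eight (o := C'.length - (k + 1)) hM hk3 h8 h2 hC' hMC'
              (by omega) (by omega))
          · rcases hcls V G k M.card M C' hM rfl h5 (by omega) h2 hlt hC' h34 hMC' with
              h9 | ⟨cs, hcs, hperm, hX⟩
            · exact h.free h9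
            · exact h.no_pattern hM hmaxM rfl hcs (by rw [hperm.length_eq]; omega) hX
    · have := hC.hmax C' hC' hMC' hl
      omega
  · exact h.no_clique_k hk4 hM (by omega)

end Crest.Agent.R054
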