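import Crest.Agent.R054.Classify
import Crest.Agent.R054.ThmA

/-! # R054 / ClassifyDone : `ClassifyStmt` holds -/

set_option autoImplicit false

namespace Crest.Agent.R054

universe u

theorem classifyStmt : ClassifyStmt.{u} := by
  intro V _ _ G k w M C hM hw h5 h7 hk hwk hC hlen hMC
  subst hw
  have h : ∃ o, (o = 2 ∨ o = 3) ∧ C.length = k + 1 + o := by
    rcases hlen with h | h
    · exact ⟨2, Or.inl rfl, by omega⟩
    · exact ⟨3, Or.inr rfl, by omega⟩
  obtain ⟨o, ho, hlen'⟩ := h
  rcases classify hM hC hMC h5 h7 hwk hk ho hlen' with h | ⟨cs, h1, h2, h3⟩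
  · exact Or.inl h
  · refine Or.inr ⟨cs, h1, h2, ?_⟩
    revert h3
    generalize (cs.map fun x => decide (x ∈ M)) = Y
    generalize M.card = w at *
    intro h3
    clear hMC hM hC hlen hlen' h1 h2
    unfold templates at h3
    split at h3 <;>
      simp only [List.mem_cons, List.not_mem_nil, or_false] at h3
    · subst h3; simp [Pat.X3]
    · subst h3; simp [Pat.X4]
    · subst h3; simp [Pat.X11]
    · rcases h3 with rfl | rfl
      · simp [Pat.X5]
      · simp [Pat.X6]
    · rcases h3 with rfl | rfl
      · simp [Pat.X7]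
      · simp [Pat.X8]
    · rcases h3 with rfl | rfl
      · simp [Pat.X9]
      · simp [Pat.X10]

end Crest.Agent.R054
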