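import Mathlib

/-!
# A–B paths of every length (Bondy–Simonovits / Verstraëte lemma)

`exists_seqPath` : let `Z` be a connected set of vertices of a graph containing a cycle
`c` of length `n` that has a chord, and let `lam` be a two-labelling of `Z` which is not
constant and is not a proper colouring.  Then for every `1 ≤ t < n` there is a path in `Z`
with exactly `t` edges whose ends have different labels.
-/

set_option autoImplicit false

namespace Crest.Agent.R054

variable {V : Type*} {G : SimpleGraph V}

/-- `q 0, ..., q t` is a path of `G` inside `Z` (with `t` edges). -/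
structure SeqPath (G : SimpleGraph V) (Z : Set V) (t : ℕ) (q : ℕ → V) : Prop where
  mem : ∀ i ≤ t, q i ∈ Z
  adj : ∀ i < t, G.Adj (q i) (q (i + 1))
  inj : ∀ i ≤ t, ∀ j ≤ t, q i = q j → i = j

/-- a sequence path as a list -/
theorem SeqPath.toList {Z : Set V} {t : ℕ} {q : ℕ → V} (h : SeqPath G Z t q) :
    ((List.range (t + 1)).map q).Nodup ∧ ((List.range (t + 1)).map q).IsChain G.Adj ∧
    (∀ v ∈ (List.range (t + 1)).map q, v ∈ Z) ∧ ((List.range (t + 1)).map q).length = t + 1 ∧
    ((List.range (t + 1)).map q).head? = some (q 0) ∧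
    ((List.range (t + 1)).map q).getLast? = some (q t) := by
  refine ⟨?_, ?_, ?_, by simp, ?_, ?_⟩
  · rw [List.nodup_map_iff_inj_on List.nodup_range]
    intro i hi j hj hij
    rw [List.mem_range] at hi hj
    exact h.inj i (by omega) j (by omega) hij
  · rw [List.isChain_map, List.isChain_iff_getElem]
    intro i hi
    simp only [List.length_range] at hi
    simp only [List.getElem_range]
    exact h.adj i (by omega)
  · intro v hv
    simp only [List.mem_map, List.mem_range] at hv
    obtain ⟨i, hi, rfl⟩ := hv
    exact h.mem i (by omega)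
  · simp [List.range_succ_eq_map]
  · simp [List.range_succ]

/-- sub-path -/
theorem SeqPath.shift {Z : Set V} {N : ℕ} {q : ℕ → V} (h : SeqPath G Z N q) (a t : ℕ)
    (hat : a + t ≤ N) : SeqPath G Z t (fun i => q (a + i)) where
  mem i hi := h.mem _ (by omega)
  adj i hi := h.adj (a + i) (by omega)
  inj i hi j hj hij := by
    have := h.inj _ (by omega) _ (by omega) hij
    omega

/-- A cycle of length `n` given as an `n`-periodic function on `ℤ`, inside `Z`. -/
structure IntCycle (G : SimpleGraph V) (Z : Set V) (n : ℕ) (c : ℤ → V) : Prop where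
  per : ∀ i, c (i + n) = c i
  inj : ∀ i j, c i = c j → (n : ℤ) ∣ i - j
  adj : ∀ i, G.Adj (c i) (c (i + 1))
  mem : ∀ i, c i ∈ Z

theorem IntCycle.inj_of_lt {Z : Set V} {n : ℕ} {c : ℤ → V} (h : IntCycle G Z n c) {i j : ℤ}
    (hij : c i = c j) (h1 : i - j < n) (h2 : j - i < n) : i = j := by
  have hd := h.inj i j hij
  obtain ⟨k, hk⟩ := hd
  have hk0 : k = 0 := by
    by_contra hne
    rcases lt_or_gt_of_ne hne with hlt | hgt
    · have : (n : ℤ) * k ≤ (n : ℤ) * (-1) := by
        apply mul_le_mul_of_nonneg_left _ (Int.natCast_nonneg n)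
        omega
      omega
    · have : (n : ℤ) * 1 ≤ (n : ℤ) * k := by
        apply mul_le_mul_of_nonneg_left _ (Int.natCast_nonneg n)
        omega
      omega
  rw [hk0] at hk
  omega

/-- shifted cycle -/
theorem IntCycle.shift {Z : Set V} {n : ℕ} {c : ℤ → V} (h : IntCycle G Z n c) (a : ℤ) :
    IntCycle G Z n (fun i => c (a + i)) where
  per i := by
    have := h.per (a + i)
    rw [← this]; congr 1; ring
  inj i j hij := by
    have := h.inj _ _ hij
    have e : a + i - (a + j) = i - j := by ring
    rwa [e] at this
  adj i := by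
    have := h.adj (a + i)
    rwa [add_assoc] at this
  mem i := h.mem _

/-- reversed cycle -/
theorem IntCycle.neg {Z : Set V} {n : ℕ} {c : ℤ → V} (h : IntCycle G Z n c) :
    IntCycle G Z n (fun i => c (-i)) where
  per i := by
    have := h.per (-(i + n))
    rw [← this]; congr 1; ring
  inj i j hij := by
    have := h.inj _ _ hij
    have e : -i - (-j) = -(i - j) := by ring
    rw [e] at this
    exact (dvd_neg).1 this
  adj i := by
    have := h.adj (-(i + 1))
    have e : -(i + 1) + 1 = -i := by ring
    rw [e] at this
    exact this.symm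
  mem i := h.mem _

/-- arc of a cycle as a path -/
theorem IntCycle.arc {Z : Set V} {n : ℕ} {c : ℤ → V} (h : IntCycle G Z n c) (a : ℤ) (t : ℕ)
    (ht : t < n) : SeqPath G Z t (fun i => c (a + i)) where
  mem i _ := h.mem _
  adj i _ := by
    have := h.adj (a + i)
    rw [add_assoc] at this
    exact_mod_cast this
  inj i hi j hj hij := by
    have := h.inj_of_lt hij (by omega) (by omega)
    omega

/-! ### Chord paths -/

/-- path `c x, c (x-1), ..., c 0, c r, c (r+1), ..., c (r+t-1-x)` -/
theorem IntCycle.chordR1 {Z : Set V} {n : ℕ} {c : ℤ → V} (h : IntCycle G Z n c) {r : ℤ}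
    (hch : G.Adj (c 0) (c r)) {t x : ℕ} (hxr : (x : ℤ) < r) (hxt : x < t)
    (hn : r + (t : ℤ) - 1 - x ≤ n - 1) :
    SeqPath G Z t (fun i => if i ≤ x then c ((x : ℤ) - i) else c (r + ((i : ℤ) - x - 1))) where
  mem i _ := by
    split_ifs <;> exact h.mem _
  adj i hi := by
    by_cases h1 : i + 1 ≤ x
    · rw [if_pos (by omega), if_pos h1]
      have := h.adj ((x : ℤ) - (i + 1 : ℕ))
      have e : (x : ℤ) - (i + 1 : ℕ) + 1 = (x : ℤ) - i := by push_cast; ring
      rw [e] at this
      exact this.symm
    · by_cases h2 : i ≤ x
      · have hix : i = x := by omega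
        subst hix
        rw [if_pos (le_refl _), if_neg h1]
        have e1 : (i : ℤ) - i = 0 := by ring
        have e2 : r + (((i + 1 : ℕ) : ℤ) - i - 1) = r := by push_cast; ring
        rw [e1, e2]
        exact hch
      · rw [if_neg h2, if_neg h1]
        have := h.adj (r + ((i : ℤ) - x - 1))
        have e : r + ((i : ℤ) - x - 1) + 1 = r + (((i + 1 : ℕ) : ℤ) - x - 1) := by
          push_cast; ring
        rw [e] at this
        exact this
  inj i hi j hj hij := by
    by_cases h1 : i ≤ x
    · by_cases h2 : j ≤ x
      · rw [if_pos h1, if_pos h2] at hij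
        have := h.inj_of_lt hij (by omega) (by omega)
        omega
      · rw [if_pos h1, if_neg h2] at hij
        have := h.inj_of_lt hij (by omega) (by omega)
        omega
    · by_cases h2 : j ≤ x
      · rw [if_neg h1, if_pos h2] at hij
        have := h.inj_of_lt hij (by omega) (by omega)
        omega
      · rw [if_neg h1, if_neg h2] at hij
        have := h.inj_of_lt hij (by omega) (by omega)
        omega

/-- path `c (-y), ..., c 0, c r, c (r-1), ..., c (r-(t-1-y))` -/
theorem IntCycle.chordR2 {Z : Set V} {n : ℕ} {c : ℤ → V} (h : IntCycle G Z n c) {r : ℤ}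
    (hch : G.Adj (c 0) (c r)) {t y : ℕ} (hyt : y < t)
    (hr : 0 < r - ((t : ℤ) - 1 - y)) (hn : r + (y : ℤ) ≤ n - 1) :
    SeqPath G Z t (fun i => if i ≤ y then c ((i : ℤ) - y) else c (r - ((i : ℤ) - y - 1))) where
  mem i _ := by
    split_ifs <;> exact h.mem _
  adj i hi := by
    by_cases h1 : i + 1 ≤ y
    · rw [if_pos (by omega), if_pos h1]
      have := h.adj ((i : ℤ) - y)
      have e : (i : ℤ) - y + 1 = ((i + 1 : ℕ) : ℤ) - y := by push_cast; ring
      rw [e] at this
      exact this
    · by_cases h2 : i ≤ y
      · have hix : i = y := by omega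
        subst hix
        rw [if_pos (le_refl _), if_neg h1]
        have e1 : (i : ℤ) - i = 0 := by ring
        have e2 : r - (((i + 1 : ℕ) : ℤ) - i - 1) = r := by push_cast; ring
        rw [e1, e2]
        exact hch
      · rw [if_neg h2, if_neg h1]
        have := h.adj (r - (((i + 1 : ℕ) : ℤ) - y - 1))
        have e : r - (((i + 1 : ℕ) : ℤ) - y - 1) + 1 = r - ((i : ℤ) - y - 1) := by
          push_cast; ring
        rw [e] at this
        exact this.symm
  inj i hi j hj hij := by
    by_cases h1 : i ≤ y
    · by_cases h2 : j ≤ y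
      · rw [if_pos h1, if_pos h2] at hij
        have := h.inj_of_lt hij (by omega) (by omega)
        omega
      · rw [if_pos h1, if_neg h2] at hij
        have := h.inj_of_lt hij (by omega) (by omega)
        omega
    · by_cases h2 : j ≤ y
      · rw [if_neg h1, if_pos h2] at hij
        have := h.inj_of_lt hij (by omega) (by omega)
        omega
      · rw [if_neg h1, if_neg h2] at hij
        have := h.inj_of_lt hij (by omega) (by omega)
        omega

/-- path `c (-y), ..., c 0, c r, c (r+1), ..., c (r+t-1-y)` -/
theorem IntCycle.chordS {Z : Set V} {n : ℕ} {c : ℤ → V} (h : IntCycle G Z n c) {r : ℤ}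
    (hch : G.Adj (c 0) (c r)) (hr : 0 < r) {t y : ℕ} (hyt : y < t)
    (hn : r + (t : ℤ) ≤ n) :
    SeqPath G Z t (fun i => if i ≤ y then c ((i : ℤ) - y) else c (r + ((i : ℤ) - y - 1))) where
  mem i _ := by
    split_ifs <;> exact h.mem _
  adj i hi := by
    by_cases h1 : i + 1 ≤ y
    · rw [if_pos (by omega), if_pos h1]
      have := h.adj ((i : ℤ) - y)
      have e : (i : ℤ) - y + 1 = ((i + 1 : ℕ) : ℤ) - y := by push_cast; ring
      rw [e] at this
      exact this
    · by_cases h2 : i ≤ y
      · have hix : i = y := by omega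
        subst hix
        rw [if_pos (le_refl _), if_neg h1]
        have e1 : (i : ℤ) - i = 0 := by ring
        have e2 : r + (((i + 1 : ℕ) : ℤ) - i - 1) = r := by push_cast; ring
        rw [e1, e2]
        exact hch
      · rw [if_neg h2, if_neg h1]
        have := h.adj (r + ((i : ℤ) - y - 1))
        have e : r + ((i : ℤ) - y - 1) + 1 = r + (((i + 1 : ℕ) : ℤ) - y - 1) := by
          push_cast; ring
        rw [e] at this
        exact this
  inj i hi j hj hij := by
    by_cases h1 : i ≤ y
    · by_cases h2 : j ≤ y
      · rw [if_pos h1, if_pos h2] at hij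
        have := h.inj_of_lt hij (by omega) (by omega)
        omega
      · rw [if_pos h1, if_neg h2] at hij
        have := h.inj_of_lt hij (by omega) (by omega)
        omega
    · by_cases h2 : j ≤ y
      · rw [if_neg h1, if_pos h2] at hij
        have := h.inj_of_lt hij (by omega) (by omega)
        omega
      · rw [if_neg h1, if_neg h2] at hij
        have := h.inj_of_lt hij (by omega) (by omega)
        omega

/-- path `c x, ..., c 0, c r, c (r-1), ..., c (r-(t-1-x))` -/
theorem IntCycle.chordS' {Z : Set V} {n : ℕ} {c : ℤ → V} (h : IntCycle G Z n c) {r : ℤ}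
    (hch : G.Adj (c 0) (c r)) {t x : ℕ} (hxt : x < t)
    (htr : (t : ℤ) ≤ r) (hn : r < n) :
    SeqPath G Z t (fun i => if i ≤ x then c ((x : ℤ) - i) else c (r - ((i : ℤ) - x - 1))) where
  mem i _ := by
    split_ifs <;> exact h.mem _
  adj i hi := by
    by_cases h1 : i + 1 ≤ x
    · rw [if_pos (by omega), if_pos h1]
      have := h.adj ((x : ℤ) - (i + 1 : ℕ))
      have e : (x : ℤ) - (i + 1 : ℕ) + 1 = (x : ℤ) - i := by push_cast; ring
      rw [e] at this
      exact this.symm
    · by_cases h2 : i ≤ x
      · have hix : i = x := by omega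
        subst hix
        rw [if_pos (le_refl _), if_neg h1]
        have e1 : (i : ℤ) - i = 0 := by ring
        have e2 : r - (((i + 1 : ℕ) : ℤ) - i - 1) = r := by push_cast; ring
        rw [e1, e2]
        exact hch
      · rw [if_neg h2, if_neg h1]
        have := h.adj (r - (((i + 1 : ℕ) : ℤ) - x - 1))
        have e : r - (((i + 1 : ℕ) : ℤ) - x - 1) + 1 = r - ((i : ℤ) - x - 1) := by
          push_cast; ring
        rw [e] at this
        exact this.symm
  inj i hi j hj hij := by
    by_cases h1 : i ≤ x
    · by_cases h2 : j ≤ x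
      · rw [if_pos h1, if_pos h2] at hij
        have := h.inj_of_lt hij (by omega) (by omega)
        omega
      · rw [if_pos h1, if_neg h2] at hij
        have := h.inj_of_lt hij (by omega) (by omega)
        omega
    · by_cases h2 : j ≤ x
      · rw [if_neg h1, if_pos h2] at hij
        have := h.inj_of_lt hij (by omega) (by omega)
        omega
      · rw [if_neg h1, if_neg h2] at hij
        have := h.inj_of_lt hij (by omega) (by omega)
        omega

/-! ### Periods -/

/-- `g` is the least positive period of `f`. -/
theorem exists_min_period (f : ℤ → Bool) (n : ℕ) (hn : 0 < n) (hper : ∀ i, f (i + n) = f i) :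
    ∃ g : ℕ, 0 < g ∧ (∀ i, f (i + g) = f i) ∧
      ∀ p : ℤ, 0 < p → (∀ i, f (i + p) = f i) → (g : ℤ) ≤ p := by
  classical
  have hex : ∃ g : ℕ, 0 < g ∧ ∀ i, f (i + g) = f i := ⟨n, hn, hper⟩
  refine ⟨Nat.find hex, (Nat.find_spec hex).1, (Nat.find_spec hex).2, ?_⟩
  intro p hp hpp
  obtain ⟨m, rfl⟩ := Int.eq_ofNat_of_zero_le hp.le
  have := Nat.find_min' hex (m := m) ⟨by exact_mod_cast hp, hpp⟩
  exact_mod_cast this

theorem period_mul {f : ℤ → Bool} {g : ℕ} (hg : ∀ i, f (i + g) = f i) (m : ℤ) (x : ℤ) :
    f (x + m * g) = f x := by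
  have hnat : ∀ (k : ℕ) (x : ℤ), f (x + k * g) = f x := by
    intro k
    induction k with
    | zero => intro x; simp
    | succ k ih =>
      intro x
      have := hg (x + k * g)
      rw [ih] at this
      rw [← this]; congr 1; push_cast; ring
  rcases Int.eq_nat_or_neg m with ⟨k, hk | hk⟩
  · rw [hk]; exact hnat k x
  · rw [hk]
    have := hnat k (x + -(k : ℤ) * g)
    rw [← this]; congr 1; ring

/-- any integer can be moved into a window of length `g` by a multiple of `g` -/
theorem exists_window (g : ℕ) (hg : 0 < g) (a x : ℤ) :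
    ∃ m : ℤ, a ≤ x + m * g ∧ x + m * g < a + g := by
  refine ⟨-((x - a) / g), ?_, ?_⟩
  · have h1 := Int.emod_nonneg (x - a) (b := (g : ℤ)) (by omega)
    have h2 := Int.emod_add_mul_ediv (x - a) g
    nlinarith
  · have h1 := Int.emod_lt_of_pos (x - a) (b := (g : ℤ)) (by omega)
    have h2 := Int.emod_add_mul_ediv (x - a) g
    nlinarith

theorem refl_global {f : ℤ → Bool} {g : ℕ} (hg0 : 0 < g) (hg : ∀ i, f (i + g) = f i) (s a : ℤ)
    (h : ∀ x, a ≤ x → x < a + g → f x = f (s - x)) : ∀ x, f x = f (s - x) := by
  intro x
  obtain ⟨m, h1, h2⟩ := exists_window g hg0 a x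
  have h3 := h _ h1 h2
  rw [period_mul hg] at h3
  rw [h3]
  have h4 := period_mul hg (-m) (s - x)
  rw [← h4]; congr 1; ring

theorem transl_global {f : ℤ → Bool} {g : ℕ} (hg0 : 0 < g) (hg : ∀ i, f (i + g) = f i) (s a : ℤ)
    (h : ∀ x, a ≤ x → x < a + g → f (x + s) = f x) : ∀ x, f (x + s) = f x := by
  intro x
  obtain ⟨m, h1, h2⟩ := exists_window g hg0 a x
  have h3 := h _ h1 h2
  rw [period_mul hg] at h3
  rw [← h3]
  have h4 := period_mul hg m (x + s)
  rw [← h4]; congr 1; ring

/-- If all `t`-paths have equally labelled ends and the cycle has a chord, then the labels along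
the cycle have period two. -/
theorem IntCycle.period_two {Z : Set V} {n : ℕ} {c : ℤ → V} (h : IntCycle G Z n c) {r : ℤ}
    (hr : 2 ≤ r) (hrn : r ≤ n - 2) (hch : G.Adj (c 0) (c r)) {t : ℕ} (ht : 1 ≤ t) (htn : t < n)
    (lam : V → Bool) (H : ∀ q, SeqPath G Z t q → lam (q 0) = lam (q t)) :
    (∀ i, lam (c (i + t)) = lam (c i)) ∧ ∀ i, lam (c (i + 2)) = lam (c i) := by
  set f : ℤ → Bool := fun i => lam (c i) with hf
  have hn0 : 0 < n := by omega
  have fper : ∀ i, f (i + n) = f i := fun i => by simp only [hf, h.per]
  have ft : ∀ i, f (i + t) = f i := by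
    intro i
    have := H _ (h.arc i t htn)
    simp only [Nat.cast_zero, add_zero] at this
    exact this.symm
  obtain ⟨g, hg0, hg, hmin⟩ := exists_min_period f n hn0 fper
  have hgt : (g : ℤ) ≤ t := hmin t (by omega) ft
  have hgnt : (g : ℤ) ≤ n - t := by
    apply hmin _ (by omega)
    intro i
    have h1 := ft (i + (n - t))
    have e : i + ((n : ℤ) - t) + t = i + n := by ring
    rw [e, fper] at h1
    exact h1.symm
  -- first claim
  have hgr : (g : ℤ) ≤ r := by
    by_contra hcon
    push Not at hcon
    have hS : ∀ x : ℤ, -((g : ℤ) - 1) ≤ x → x < -((g : ℤ) - 1) + g → f (x + (r - 1)) = f x := by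
      intro x hx1 hx2
      obtain ⟨y, rfl⟩ : ∃ y : ℕ, x = -(y : ℤ) := ⟨x.natAbs, by omega⟩
      have hyt : y < t := by omega
      have := H _ (h.chordS hch (by omega) hyt (by omega))
      simp only [Nat.zero_le, if_true, Nat.cast_zero, zero_sub] at this
      rw [if_neg (by omega)] at this
      have h2 := ft (-(y : ℤ) + (r - 1))
      simp only [hf] at h2 ⊢
      rw [← h2, this]
      congr 2; ring
    have hglob := transl_global hg0 hg (r - 1) _ hS
    have := hmin (r - 1) (by omega) hglob
    omega
  have hgnr : (g : ℤ) ≤ n - r := by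
    by_contra hcon
    push Not at hcon
    have hS : ∀ x : ℤ, 0 ≤ x → x < 0 + g → f (x + (r + 1)) = f x := by
      intro x hx1 hx2
      obtain ⟨y, rfl⟩ : ∃ y : ℕ, x = (y : ℤ) := ⟨x.toNat, by omega⟩
      have hyt : y < t := by omega
      have := H _ (h.chordS' hch hyt (by omega) (by omega))
      simp only [Nat.zero_le, if_true, Nat.cast_zero, sub_zero] at this
      rw [if_neg (by omega)] at this
      have h2 := ft (r - ((t : ℤ) - y - 1))
      simp only [hf] at h2 ⊢
      rw [this, ← h2]
      congr 2; ring
    have hglob := transl_global hg0 hg (r + 1) _ hS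
    have := hmin (n - (r + 1)) (by omega) (by
      intro i
      have h1 := hglob (i + (n - (r + 1)))
      have e : i + ((n : ℤ) - (r + 1)) + (r + 1) = i + n := by ring
      rw [e, fper] at h1
      exact h1.symm)
    omega
  -- reflection R1
  have hR1 : ∀ x, f x = f (r - 1 - x) := by
    apply refl_global hg0 hg (r - 1) (max 0 (r + t - n))
    intro x hx1 hx2
    obtain ⟨y, rfl⟩ : ∃ y : ℕ, x = (y : ℤ) := ⟨x.toNat, by omega⟩
    have := H _ (h.chordR1 hch (t := t) (x := y) (by omega) (by omega) (by omega))
    simp only [Nat.zero_le, if_true, Nat.cast_zero, sub_zero] at this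
    rw [if_neg (by omega)] at this
    have h2 := ft (r - 1 - y)
    simp only [hf] at h2 ⊢
    rw [this, ← h2]
    congr 2; ring
  have hR2 : ∀ x, f x = f (r + 1 - x) := by
    apply refl_global hg0 hg (r + 1) (-(max 0 ((t : ℤ) - r) + g - 1))
    intro x hx1 hx2
    obtain ⟨y, rfl⟩ : ∃ y : ℕ, x = -(y : ℤ) := ⟨x.natAbs, by omega⟩
    have := H _ (h.chordR2 hch (t := t) (y := y) (by omega) (by omega) (by omega))
    simp only [Nat.zero_le, if_true, Nat.cast_zero, zero_sub] at this
    rw [if_neg (by omega)] at this
    have h2 := ft (r - ((t : ℤ) - y - 1))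
    simp only [hf] at h2 ⊢
    rw [this, ← h2]
    congr 2; ring
  refine ⟨ft, ?_⟩
  intro i
  have h1 := hR1 i
  have h2 := hR2 (r - 1 - i)
  rw [← h1] at h2
  have e : r + 1 - (r - 1 - i) = i + 2 := by ring
  rw [e] at h2
  exact h2.symm

/-! ### Paths ending on the cycle -/

/-- `y 0, ..., y p` is a path in `Z` whose last vertex is `c j` and whose other vertices are not
on the cycle. -/
structure ToCycle (G : SimpleGraph V) (Z : Set V) (c : ℤ → V) (p : ℕ) (y : ℕ → V) (j : ℤ) :
    Prop where
  path : SeqPath G Z p y
  last : y p = c j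
  off : ∀ i < p, ∀ m, y i ≠ c m

theorem ToCycle.drop {Z : Set V} {c : ℤ → V} {p : ℕ} {y : ℕ → V} {j : ℤ}
    (h : ToCycle G Z c p y j) {i : ℕ} (hi : i ≤ p) :
    ToCycle G Z c (p - i) (fun k => y (i + k)) j where
  path := h.path.shift i (p - i) (by omega)
  last := by
    have : i + (p - i) = p := by omega
    simp only [this, h.last]
  off k hk m := h.off _ (by omega) m

theorem ToCycle.cons {Z : Set V} {c : ℤ → V} {p : ℕ} {y : ℕ → V} {j : ℤ}
    (h : ToCycle G Z c p y j) {v : V} (hvZ : v ∈ Z) (hvc : ∀ m, v ≠ c m)
    (hvy : ∀ i ≤ p, v ≠ y i) (hadj : G.Adj v (y 0)) :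
    ToCycle G Z c (p + 1) (fun k => match k with
      | 0 => v
      | k + 1 => y k) j where
  path := by
    refine ⟨?_, ?_, ?_⟩
    · intro i hi
      cases i with
      | zero => exact hvZ
      | succ i => exact h.path.mem i (by omega)
    · intro i hi
      cases i with
      | zero => exact hadj
      | succ i => exact h.path.adj i (by omega)
    · intro i hi k hk hik
      cases i with
      | zero =>
        cases k with
        | zero => rfl
        | succ k => exact absurd hik (hvy k (by omega))
      | succ i =>
        cases k with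
        | zero => exact absurd hik.symm (hvy i (by omega))
        | succ k =>
          have := h.path.inj i (by omega) k (by omega) hik
          omega
  last := h.last
  off i hi m := by
    cases i with
    | zero => exact hvc m
    | succ i => exact h.off i (by omega) m

theorem toCycle_single {Z : Set V} {n : ℕ} {c : ℤ → V} (h : IntCycle G Z n c) (j : ℤ) :
    ToCycle G Z c 0 (fun _ => c j) j where
  path := ⟨fun _ _ => h.mem _, fun i hi => absurd hi (by omega), fun i hi k hk _ => by omega⟩
  last := rfl
  off i hi := absurd hi (by omega)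

/-- connectivity in cut form -/
def CutConn (G : SimpleGraph V) (Z : Set V) : Prop :=
  ∀ S ⊆ Z, S.Nonempty → S ≠ Z → ∃ u ∈ S, ∃ v ∈ Z, v ∉ S ∧ G.Adj u v

theorem exists_toCycle {Z : Set V} {n : ℕ} {c : ℤ → V} (h : IntCycle G Z n c)
    (hconn : CutConn G Z) {v : V} (hv : v ∈ Z) : ∃ p y j, ToCycle G Z c p y j ∧ y 0 = v := by
  by_contra hcon
  set S : Set V := {v ∈ Z | ∃ p y j, ToCycle G Z c p y j ∧ y 0 = v} with hS
  have h0 : c 0 ∈ S := ⟨h.mem 0, 0, _, 0, toCycle_single h 0, rfl⟩
  obtain ⟨u, hu, w, hwZ, hwS, huw⟩ := hconn S (fun x hx => hx.1) ⟨_, h0⟩ (by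
    intro hSZ
    rw [← hSZ] at hv
    exact hcon hv.2)
  obtain ⟨huZ, p, y, j, hy, hy0⟩ := hu
  apply hwS
  refine ⟨hwZ, ?_⟩
  by_cases hwc : ∃ m, w = c m
  · obtain ⟨m, hm⟩ := hwc
    exact ⟨0, _, m, toCycle_single h m, hm.symm⟩
  · push Not at hwc
    by_cases hwy : ∃ i ≤ p, w = y i
    · obtain ⟨i, hi, hwi⟩ := hwy
      exact ⟨p - i, _, j, hy.drop hi, by simp [hwi]⟩
    · push Not at hwy
      exact ⟨p + 1, _, j, hy.cons hwZ hwc hwy (by rw [hy0]; exact huw.symm), rfl⟩

/-- the path to the cycle, continued around the cycle -/
theorem ToCycle.extend {Z : Set V} {n : ℕ} {c : ℤ → V} (h : IntCycle G Z n c) {p : ℕ}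
    {y : ℕ → V} {j : ℤ} (hy : ToCycle G Z c p y j) (hn : 0 < n) :
    SeqPath G Z (p + n - 1) (fun i => if i < p then y i else c (j + ((i : ℤ) - p))) where
  mem i hi := by
    split_ifs with h1
    · exact hy.path.mem i (by omega)
    · exact h.mem _
  adj i hi := by
    by_cases h1 : i + 1 < p
    · rw [if_pos (by omega), if_pos h1]
      exact hy.path.adj i (by omega)
    · by_cases h2 : i < p
      · rw [if_pos h2, if_neg h1]
        have h3 := hy.path.adj i (by omega)
        have hip : i + 1 = p := by omega
        rw [hip, hy.last] at h3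
        have e : j + (((i + 1 : ℕ) : ℤ) - p) = j := by omega
        rw [e]
        exact h3
      · rw [if_neg h2, if_neg h1]
        have := h.adj (j + ((i : ℤ) - p))
        have e : j + ((i : ℤ) - p) + 1 = j + (((i + 1 : ℕ) : ℤ) - p) := by push_cast; ring
        rw [e] at this
        exact this
  inj i hi k hk hik := by
    by_cases h1 : i < p
    · by_cases h2 : k < p
      · rw [if_pos h1, if_pos h2] at hik
        exact hy.path.inj i (by omega) k (by omega) hik
      · rw [if_pos h1, if_neg h2] at hik
        exact absurd hik (hy.off i h1 _)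
    · by_cases h2 : k < p
      · rw [if_neg h1, if_pos h2] at hik
        exact absurd hik.symm (hy.off k h2 _)
      · rw [if_neg h1, if_neg h2] at hik
        have := h.inj_of_lt hik (by omega) (by omega)
        omega

/-- labels propagate along a path to the cycle -/
theorem ToCycle.label {Z : Set V} {n : ℕ} {c : ℤ → V} (h : IntCycle G Z n c) {p : ℕ}
    {y : ℕ → V} {j : ℤ} (hy : ToCycle G Z c p y j) {t : ℕ} (ht : 1 ≤ t) (htn : t < n)
    (lam : V → Bool) (H : ∀ q, SeqPath G Z t q → lam (q 0) = lam (q t))
    (ft : ∀ i, lam (c (i + t)) = lam (c i)) :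
    lam (y 0) = lam (c (j - p)) := by
  have hext := hy.extend h (by omega)
  set q : ℕ → V := fun i => if i < p then y i else c (j + ((i : ℤ) - p)) with hq
  have key : ∀ m a : ℕ, a + m = p + n - 1 → lam (q a) = lam (c (j + ((a : ℤ) - p))) := by
    intro m
    induction m using Nat.strong_induction_on with
    | _ m ih =>
      intro a ham
      by_cases hap : a < p
      · have h1 := H _ (hext.shift a t (by omega))
        simp only [add_zero] at h1
        have h2 := ih (m - t) (by omega) (a + t) (by omega)
        rw [h1, h2]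
        have h3 := ft (j + ((a : ℤ) - p))
        rw [← h3]; congr 2; push_cast; ring
      · simp only [hq, if_neg hap]
  have h0 := key (p + n - 1) 0 (by omega)
  have hq0 : q 0 = y 0 := by
    by_cases hp : 0 < p
    · simp only [hq, if_pos hp]
    · have hp0 : p = 0 := by omega
      subst hp0
      have := hy.last
      simp only [hq, lt_self_iff_false, if_false, Nat.cast_zero, sub_zero, add_zero]
      exact this.symm
  rw [hq0] at h0
  rw [h0]; congr 2; push_cast; ring

/-- **A–B path lemma.**  `Z` is connected, contains a cycle of length `n` with a chord, `lam` is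
a nonconstant labelling of `Z` which is not a proper colouring.  Then for `1 ≤ t < n` there is a
path in `Z` with `t` edges and differently labelled ends. -/
theorem exists_seqPath {Z : Set V} {n : ℕ} {c : ℤ → V} (h : IntCycle G Z n c) {r : ℤ}
    (hr : 2 ≤ r) (hrn : r ≤ n - 2) (hch : G.Adj (c 0) (c r)) (hconn : CutConn G Z)
    (lam : V → Bool) (hA : ∃ v ∈ Z, lam v = true) (hB : ∃ v ∈ Z, lam v = false)
    (hnp : ∃ u ∈ Z, ∃ v ∈ Z, G.Adj u v ∧ lam u = lam v) {t : ℕ} (ht : 1 ≤ t) (htn : t < n) :
    ∃ q, SeqPath G Z t q ∧ lam (q 0) ≠ lam (q t) := by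
  by_contra hcon
  push Not at hcon
  obtain ⟨ft, f2⟩ := h.period_two hr hrn hch ht htn lam hcon
  -- constant or alternating
  by_cases hconst : ∃ i, lam (c (i + 1)) = lam (c i)
  · -- constant on the cycle
    obtain ⟨i0, hi0⟩ := hconst
    have hall : ∀ i, lam (c i) = lam (c i0) := by
      have hev : ∀ (m : ℕ) (i : ℤ), lam (c (i + 2 * m)) = lam (c i) := by
        intro m
        induction m with
        | zero => intro i; simp
        | succ m ih =>
          intro i
          have h1 := f2 (i + 2 * m)
          rw [ih] at h1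
          rw [← h1]; congr 2; push_cast; ring
      have hevz : ∀ (m i : ℤ), lam (c (i + 2 * m)) = lam (c i) := by
        intro m i
        rcases Int.eq_nat_or_neg m with ⟨k, hk | hk⟩
        · rw [hk]; exact hev k i
        · rw [hk]
          have := hev k (i + 2 * -(k : ℤ))
          rw [← this]; congr 2; ring
      intro i
      rcases Int.even_or_odd' (i - i0) with ⟨m, hm | hm⟩
      · have e : i = i0 + 2 * m := by omega
        rw [e, hevz]
      · have e : i = (i0 + 1) + 2 * m := by omega
        rw [e, hevz, hi0]
    have hZ : ∀ v ∈ Z, lam v = lam (c i0) := by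
      intro v hv
      obtain ⟨p, y, j, hy, hy0⟩ := exists_toCycle h hconn hv
      rw [← hy0, hy.label h ht htn lam hcon ft, hall]
    obtain ⟨v, hv, hv1⟩ := hA
    obtain ⟨w, hw, hw1⟩ := hB
    rw [hZ v hv] at hv1
    rw [hZ w hw, hv1] at hw1
    exact absurd hw1 (by decide)
  · -- alternating on the cycle
    push Not at hconst
    have halt : ∀ i, lam (c (i + 1)) = !lam (c i) := by
      intro i
      have := hconst i
      revert this
      cases lam (c (i + 1)) <;> cases lam (c i) <;> simp
    have hev : ∀ (m : ℕ) (i : ℤ), lam (c (i + 2 * m)) = lam (c i) := by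
      intro m
      induction m with
      | zero => intro i; simp
      | succ m ih =>
        intro i
        have h1 := f2 (i + 2 * m)
        rw [ih] at h1
        rw [← h1]; congr 2; push_cast; ring
    have hevz : ∀ (m i : ℤ), lam (c (i + 2 * m)) = lam (c i) := by
      intro m i
      rcases Int.eq_nat_or_neg m with ⟨k, hk | hk⟩
      · rw [hk]; exact hev k i
      · rw [hk]
        have := hev k (i + 2 * -(k : ℤ))
        rw [← this]; congr 2; ring
    have hoddz : ∀ (m i : ℤ), lam (c (i + (2 * m + 1))) = !lam (c i) := by
      intro m i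
      have h1 := halt (i + 2 * m)
      rw [hevz] at h1
      rw [← h1]; congr 2; ring
    -- edges alternate
    have hedge : ∀ u ∈ Z, ∀ v ∈ Z, G.Adj u v → lam u ≠ lam v := by
      -- first: an off-cycle vertex adjacent to a path to the cycle
      have hstep : ∀ (p : ℕ) (y : ℕ → V) (j : ℤ), ToCycle G Z c p y j → ∀ u ∈ Z,
          (∀ m, u ≠ c m) → (∀ i ≤ p, u ≠ y i) → G.Adj u (y 0) → lam u ≠ lam (y 0) := by
        intro p y j hy u hu huc huy hadj
        have h1 := hy.label h ht htn lam hcon ft
        have h2 := (hy.cons hu huc huy hadj).label h ht htn lam hcon ft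
        simp only at h2
        rw [h1, h2]
        have h3 := halt (j - ((p + 1 : ℕ) : ℤ))
        have e : j - ((p + 1 : ℕ) : ℤ) + 1 = j - p := by push_cast; ring
        rw [e] at h3
        rw [h3]
        cases lam (c (j - ((p + 1 : ℕ) : ℤ))) <;> simp
      -- u off cycle
      have hoff : ∀ u ∈ Z, ∀ v ∈ Z, G.Adj u v → (∀ m, u ≠ c m) → lam u ≠ lam v := by
        intro u hu v hv huv huc
        by_cases hvc : ∃ m, v = c m
        · obtain ⟨m, rfl⟩ := hvc
          exact hstep 0 _ m (toCycle_single h m) u hu huc (fun _ _ => huc m) huv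
        · push Not at hvc
          obtain ⟨p, y, j, hy, hy0⟩ := exists_toCycle h hconn hu
          by_cases hvy : ∃ i ≤ p, v = y i
          · obtain ⟨i, hi, hvi⟩ := hvy
            have hi1 : 1 ≤ i := by
              rcases Nat.eq_zero_or_pos i with h0 | h0
              · subst h0
                rw [hy0] at hvi
                exact absurd huv (by rw [hvi]; exact G.irrefl)
              · exact h0
            have hd := hy.drop hi
            have := hstep _ _ _ hd u hu huc (by
              intro k hk huk
              rw [← hy0] at huk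
              have := hy.path.inj 0 (by omega) (i + k) (by omega) huk
              omega) (by simpa [← hvi] using huv)
            simpa [← hvi] using this
          · push Not at hvy
            have := hstep p y j hy v hv hvc hvy (by rw [hy0]; exact huv.symm)
            rw [hy0] at this
            exact this.symm
      intro u hu v hv huv
      by_cases huc : ∃ m, u = c m
      · by_cases hvc : ∃ m, v = c m
        · obtain ⟨a, rfl⟩ := huc
          obtain ⟨b, rfl⟩ := hvc
          -- reduce to c' 0 ~ c' s with 0 ≤ s < n
          have hsh := h.shift a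
          have hn0 : (0 : ℤ) < n := by omega
          set s : ℤ := (b - a) % n with hs
          have hs0 : 0 ≤ s := Int.emod_nonneg _ (by omega)
          have hsn : s < n := Int.emod_lt_of_pos _ hn0
          have hcb : c b = c (a + s) := by
            have hbs : b = a + s + n * ((b - a) / n) := by
              have := Int.emod_add_mul_ediv (b - a) n
              rw [← hs] at this
              linarith
            have hpern : ∀ (k : ℕ) (i : ℤ), c (i + n * k) = c i := by
              intro k
              induction k with
              | zero => intro i; simp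
              | succ k ih =>
                intro i
                have h1 := h.per (i + n * k)
                rw [ih] at h1
                rw [← h1]; congr 1; push_cast; ring
            have hperz : ∀ (k i : ℤ), c (i + n * k) = c i := by
              intro k i
              rcases Int.eq_nat_or_neg k with ⟨l, hl | hl⟩
              · rw [hl]; exact hpern l i
              · rw [hl]
                have := hpern l (i + n * -(l : ℤ))
                rw [← this]; congr 1; ring
            rw [hbs, hperz]
          rw [hcb] at huv ⊢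
          have hs1 : s ≠ 0 := by
            intro h0
            rw [h0, add_zero] at huv
            exact G.irrefl huv
          -- the parity of s is odd
          have hodd : ∃ m : ℤ, s = 2 * m + 1 := by
            rcases Int.even_or_odd' s with ⟨m, hm | hm⟩
            swap
            · exact ⟨m, hm⟩
            exfalso
            by_cases hs2 : s ≤ n - 2
            · -- genuine chord
              have hx : ∃ x : ℕ, (x : ℤ) < s ∧ x < t ∧ s + (t : ℤ) - 1 - x ≤ n - 1 := by
                refine ⟨(max 0 (s + t - n)).toNat, ?_, ?_, ?_⟩ <;> omega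
              obtain ⟨x, hx1, hx2, hx3⟩ := hx
              have h1 := hcon _ (hsh.chordR1 (r := s) (by simpa using huv) hx1 hx2 hx3)
              simp only [Nat.zero_le, if_true, Nat.cast_zero, sub_zero] at h1
              rw [if_neg (by omega)] at h1
              have h2 := ft (a + (s - 1 - x))
              have e1 : a + (s + ((t : ℤ) - x - 1)) = a + (s - 1 - x) + t := by ring
              rw [e1, h2] at h1
              have h3 := hoddz (m - 1 - x) (a + x)
              have e2 : a + (x : ℤ) + (2 * (m - 1 - x) + 1) = a + (s - 1 - x) := by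
                rw [hm]; ring
              rw [e2, ← h1] at h3
              revert h3
              cases lam (c (a + (x : ℤ))) <;> simp
            · -- s = n - 1 even: but then c (a + n - 1), c (a + n) = c a adjacent is consistent:
              -- n is even because labels alternate, so s is odd
              have hsn1 : s = n - 1 := by omega
              have h1 := h.per a
              have h2 := hoddz m a
              have e : a + (2 * m + 1) = a + n := by omega
              rw [e, h1] at h2
              revert h2
              cases lam (c a) <;> simp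
          obtain ⟨m, hm⟩ := hodd
          rw [hm, hoddz]
          cases lam (c a) <;> simp
        · push Not at hvc
          exact (hoff v hv u hu huv.symm hvc).symm
      · push Not at huc
        exact hoff u hu v hv huv huc
    obtain ⟨u, hu, v, hv, huv, hl⟩ := hnp
    exact hedge u hu v hv huv hl

end Crest.Agent.R054
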