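import Crest.Agent.R054.Cyc
import Crest.Agent.R054.LemAB

/-!
# R054 : conversions between list cycles (`IsCyc`) and integer cycles (`IntCycle`)
-/

set_option autoImplicit false

namespace Crest.Agent.R054

variable {V : Type*} {G : SimpleGraph V}

/-- A path sequence gives a list path. -/
theorem SeqPath.isPth {Z : Set V} {t : ℕ} {q : ℕ → V} (h : SeqPath G Z t q) :
    IsPth G ((List.range (t + 1)).map q) := ⟨h.toList.1, h.toList.2.1⟩

/-- A cyclic list gives an integer cycle. -/
theorem IsCyc.intCycle {L : List V} (h : IsCyc G L) (h1 : L ≠ []) {Z : Set V}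
    (hZ : ∀ x ∈ L, x ∈ Z) :
    ∃ c : ℤ → V, IntCycle G Z L.length c ∧ ∀ (i : ℕ) (hi : i < L.length), c i = L[i] := by
  obtain ⟨hnd, hch, hcl⟩ := h
  have hn : 0 < L.length := List.length_pos_of_ne_nil h1
  have hlt : ∀ i : ℤ, (i % (L.length : ℤ)).toNat < L.length := fun i => by
    have h1 := Int.emod_nonneg i (b := (L.length : ℤ)) (by omega)
    have h2 := Int.emod_lt_of_pos i (b := (L.length : ℤ)) (by omega)
    omega
  have hpos : ∀ i : ℤ, 0 ≤ i % (L.length : ℤ) := fun i =>
    Int.emod_nonneg i (b := (L.length : ℤ)) (by omega)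
  refine ⟨fun i => L[(i % (L.length : ℤ)).toNat]'(hlt i), ⟨?_, ?_, ?_, ?_⟩, ?_⟩
  · intro i
    simp only [Int.add_emod_right]
  · intro i j hij
    have h3 := (List.Nodup.getElem_inj_iff hnd).1 hij
    have h4 := hpos i
    have h5 := hpos j
    have h6 : i % (L.length : ℤ) = j % (L.length : ℤ) := by omega
    exact Int.dvd_of_emod_eq_zero (by rw [Int.sub_emod, h6]; simp)
  · intro i
    have h3 := hpos i
    have h4 := hlt i
    rw [List.isChain_iff_getElem] at hch
    by_cases hlast : (i % (L.length : ℤ)).toNat + 1 < L.length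
    · have e : ((i + 1) % (L.length : ℤ)).toNat = (i % (L.length : ℤ)).toNat + 1 := by
        have : (i + 1) % (L.length : ℤ) = i % (L.length : ℤ) + 1 := by
          rw [Int.add_emod]
          rw [Int.emod_eq_of_lt (a := 1) (by omega) (by omega)]
          rw [Int.emod_eq_of_lt (by omega) (by omega)]
        omega
      have := hch _ hlast
      simp only [e]
      exact this
    · have e : ((i + 1) % (L.length : ℤ)).toNat = 0 := by
        have : (i + 1) % (L.length : ℤ) = 0 := by
          have h6 : (L.length : ℤ) ∣ i + 1 := by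
            have h7 := Int.emod_add_mul_ediv i (L.length : ℤ)
            refine ⟨i / (L.length : ℤ) + 1, ?_⟩
            rw [mul_add, mul_one]
            omega
          exact Int.emod_eq_zero_of_dvd h6
        omega
      simp only [e]
      have e2 : (i % (L.length : ℤ)).toNat = L.length - 1 := by omega
      simp only [e2]
      refine hcl _ ?_ _ ?_
      · rw [List.getLast?_eq_getLast_of_ne_nil h1, List.getLast_eq_getElem]; simp
      · rw [List.head?_eq_some_head h1, List.head_eq_getElem]; simp
  · intro i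
    exact hZ _ (List.getElem_mem _)
  · intro i hi
    have : ((i : ℤ) % (L.length : ℤ)).toNat = i := by
      rw [Int.emod_eq_of_lt (by omega) (by omega)]; simp
    simp only [this]

/-- An integer cycle gives a cyclic list. -/
theorem IntCycle.isCyc {Z : Set V} {n : ℕ} {c : ℤ → V} (h : IntCycle G Z n c) :
    IsCyc G ((List.range n).map (fun i : ℕ => c i)) := by
  refine ⟨?_, ?_, ?_⟩
  · rw [List.nodup_map_iff_inj_on List.nodup_range]
    intro i hi j hj hij
    rw [List.mem_range] at hi hj
    have := h.inj_of_lt hij (by omega) (by omega)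
    omega
  · rw [List.isChain_map, List.isChain_iff_getElem]
    intro i hi
    simp only [List.length_range] at hi
    simp only [List.getElem_range]
    exact_mod_cast h.adj i
  · intro a ha b hb
    rcases Nat.eq_zero_or_pos n with rfl | hn
    · simp at ha
    · have ha' : a = c (n - 1 : ℕ) := by
        obtain ⟨m, rfl⟩ : ∃ m, n = m + 1 := ⟨n - 1, by omega⟩
        simp [List.range_succ] at ha
        rw [← ha]; simp
      have hb' : b = c 0 := by
        obtain ⟨m, rfl⟩ : ∃ m, n = m + 1 := ⟨n - 1, by omega⟩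
        simp [List.range_succ_eq_map] at hb
        exact hb.symm
      rw [ha', hb']
      have h1 := h.adj ((n - 1 : ℕ) : ℤ)
      have e : ((n - 1 : ℕ) : ℤ) + 1 = 0 + n := by omega
      rw [e, h.per] at h1
      exact h1

/-- **A–B path lemma**, list form: `Z` is connected (cut form), contains a cyclic list `L` with a
chord, `lam` is a nonconstant labelling of `Z` which is not a proper colouring.  Then `Z` contains
a path with `t` edges and differently labelled ends, for every `1 ≤ t < L.length`. -/
theorem lemAB {Z : Finset V}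
    (hconn : ∀ A ⊆ Z, A.Nonempty → A ≠ Z → ∃ x ∈ A, ∃ y ∈ Z, y ∉ A ∧ G.Adj x y)
    {L : List V} (hL : IsCyc G L) (hLZ : ∀ x ∈ L, x ∈ Z) {r : ℕ} (hr2 : 2 ≤ r)
    (hr : r + 2 ≤ L.length) (hch : G.Adj (L[0]'(by omega)) (L[r]'(by omega)))
    {lam : V → Bool} (hlam : ∃ a ∈ Z, ∃ b ∈ Z, lam a ≠ lam b)
    (hnp : ∃ x ∈ Z, ∃ y ∈ Z, G.Adj x y ∧ lam x = lam y) {t : ℕ} (ht1 : 1 ≤ t)
    (ht : t < L.length) :
    ∃ P : List V, IsPth G P ∧ P.length = t + 1 ∧ (∀ x ∈ P, x ∈ Z) ∧
      ∃ a b, P.head? = some a ∧ P.getLast? = some b ∧ lam a ≠ lam b := by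
  classical
  have hne : L ≠ [] := by rintro rfl; simp at hr
  obtain ⟨c, hc, hcL⟩ := hL.intCycle hne (Z := (Z : Set V)) (fun x hx => by simpa using hLZ x hx)
  have h0 : c 0 = L[0]'(by omega) := by
    have := hcL 0 (by omega)
    simpa using this
  have hr' : c r = L[r]'(by omega) := hcL r (by omega)
  have hconn' : CutConn G (Z : Set V) := by
    intro S hS hSne hSZ
    obtain ⟨x, hx, y, hy, hyA, hxy⟩ := hconn (Z.filter (fun v => v ∈ S)) (Finset.filter_subset _ _)
      (by
        obtain ⟨v, hv⟩ := hSne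
        exact ⟨v, Finset.mem_filter.2 ⟨by simpa using hS hv, hv⟩⟩)
      (by
        intro h
        apply hSZ
        apply Set.Subset.antisymm hS
        intro v hv
        have hv' : v ∈ Z := by simpa using hv
        rw [← h] at hv'
        exact (Finset.mem_filter.1 hv').2)
    refine ⟨x, (Finset.mem_filter.1 hx).2, y, by simpa using hy, ?_, hxy⟩
    intro hyS
    exact hyA (Finset.mem_filter.2 ⟨hy, hyS⟩)
  obtain ⟨a, ha, b, hb, hab⟩ := hlam
  have hA : ∃ v ∈ (Z : Set V), lam v = true := by
    rcases hl : lam a with _ | _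
    · rcases hl2 : lam b with _ | _
      · exact absurd (hl.trans hl2.symm) hab
      · exact ⟨b, by simpa using hb, hl2⟩
    · exact ⟨a, by simpa using ha, hl⟩
  have hB : ∃ v ∈ (Z : Set V), lam v = false := by
    rcases hl : lam a with _ | _
    · exact ⟨a, by simpa using ha, hl⟩
    · rcases hl2 : lam b with _ | _
      · exact ⟨b, by simpa using hb, hl2⟩
      · exact absurd (hl.trans hl2.symm) hab
  obtain ⟨q, hq, hlq⟩ := exists_seqPath hc (r := (r : ℤ)) (by omega) (by omega)
    (by rw [h0, hr']; exact hch) hconn' lam hA hB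
    (by
      obtain ⟨x, hx, y, hy, h1, h2⟩ := hnp
      exact ⟨x, by simpa using hx, y, by simpa using hy, h1, h2⟩) ht1 ht
  obtain ⟨h1, h2, h3, h4, h5, h6⟩ := hq.toList
  exact ⟨_, ⟨h1, h2⟩, h4, fun x hx => by simpa using h3 x hx, _, _, h5, h6, hlq⟩

end Crest.Agent.R054
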