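import Mathlib
import Crest.Agent.R054.Alpha
import Crest.Agent.R054.Cyc

/-!
R054: Lemma CYC.  An inclusion-minimal finset `Z` with `2|Z| > c·alp Z` which is not a clique contains
a cycle with at least `c+1` vertices, with a chord at its first vertex (if `6 ≤ c`).
-/

set_option autoImplicit false
set_option linter.unusedSectionVars false

open Finset

namespace Crest.Agent.R054

variable {V : Type*} [DecidableEq V] {G : SimpleGraph V}

variable (G) in
/-- Inclusion-minimal finsets with `2|Z| > c·alp Z`. -/
structure MinDense (c : ℕ) (Z : Finset V) : Prop where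
  dense : c * alp G Z < 2 * Z.card
  min : ∀ Y ⊂ Z, 2 * Y.card ≤ c * alp G Y

theorem exists_minDense {c : ℕ} (Z : Finset V) (h : c * alp G Z < 2 * Z.card) :
    ∃ Y ⊆ Z, MinDense G c Y := by
  induction Z using Finset.strongInduction with
  | H Z ih =>
    by_cases hm : ∀ Y ⊂ Z, 2 * Y.card ≤ c * alp G Y
    · exact ⟨Z, subset_rfl, h, hm⟩
    · push Not at hm
      obtain ⟨Y, hY, hlt⟩ := hm
      obtain ⟨X, hX, hmin⟩ := ih Y hY hlt
      exact ⟨X, hX.trans hY.1, hmin⟩

variable (G) in
/-- Closed neighbourhood inside `Z` of a finset `I`. -/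
noncomputable def nbZ (Z I : Finset V) : Finset V :=
  by classical exact Z.filter (fun x => x ∈ I ∨ ∃ y ∈ I, G.Adj y x)

theorem mem_nbZ {Z I : Finset V} {x : V} :
    x ∈ nbZ G Z I ↔ x ∈ Z ∧ (x ∈ I ∨ ∃ y ∈ I, G.Adj y x) := by
  classical
  simp [nbZ]

theorem alp_sdiff_nbZ {Z I : Finset V} (hI : Indep G I) (hIZ : I ⊆ Z) :
    alp G (Z \ nbZ G Z I) + I.card ≤ alp G Z := by
  obtain ⟨T, hT, hTI, hTc⟩ := exists_indep G (Z \ nbZ G Z I)
  rw [← hTc, ← card_union_of_disjoint]
  · refine (hTI.union hI ?_).card_le_alp ?_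
    · intro x hx y hy hxy
      have := mem_sdiff.1 (hT hx)
      exact this.2 (mem_nbZ.2 ⟨this.1, Or.inr ⟨y, hy, hxy.symm⟩⟩)
    · exact union_subset (hT.trans sdiff_subset) hIZ
  · rw [disjoint_left]
    intro x hx hxI
    have := mem_sdiff.1 (hT hx)
    exact this.2 (mem_nbZ.2 ⟨this.1, Or.inl hxI⟩)

namespace MinDense

variable {c : ℕ} {Z : Finset V}

theorem card_nbZ (h : MinDense G c Z) {I : Finset V} (hI : Indep G I) (hIZ : I ⊆ Z)
    (hne : I.Nonempty) : c * I.card < 2 * (nbZ G Z I).card := by
  have hsub : nbZ G Z I ⊆ Z := fun x hx => (mem_nbZ.1 hx).1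
  have hss : Z \ nbZ G Z I ⊂ Z := by
    refine ⟨sdiff_subset, fun hcon => ?_⟩
    obtain ⟨x, hx⟩ := hne
    exact (mem_sdiff.1 (hcon (hIZ hx))).2 (mem_nbZ.2 ⟨hIZ hx, Or.inl hx⟩)
  have h1 := h.min _ hss
  have h2 := alp_sdiff_nbZ hI hIZ
  have h3 := h.dense
  have h4 : (Z \ nbZ G Z I).card + (nbZ G Z I).card = Z.card := by
    rw [card_sdiff_add_card_eq_card hsub]
  have h5 : c * alp G (Z \ nbZ G Z I) + c * I.card ≤ c * alp G Z := by
    rw [← mul_add]; exact Nat.mul_le_mul_left c h2
  omega

theorem conn (h : MinDense G c Z) :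
    ∀ A ⊆ Z, A.Nonempty → A ≠ Z → ∃ x ∈ A, ∃ y ∈ Z, y ∉ A ∧ G.Adj x y := by
  intro A hA hne hAZ
  by_contra hcon
  push Not at hcon
  have h1 := h.min A ⟨hA, fun hcon' => hAZ (hA.antisymm hcon')⟩
  have h2 := h.min (Z \ A) ⟨sdiff_subset, fun hcon' => by
    obtain ⟨x, hx⟩ := hne
    exact (mem_sdiff.1 (hcon' (hA hx))).2 hx⟩
  have h3 : alp G A + alp G (Z \ A) ≤ alp G Z := by
    have := alp_add_le (G := G) (A := A) (B := Z \ A) disjoint_sdiff
      (fun x hx y hy => hcon x hx y (mem_sdiff.1 hy).1 (mem_sdiff.1 hy).2)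
    rwa [union_sdiff_of_subset hA] at this
  have h4 := h.dense
  have h5 : (Z \ A).card + A.card = Z.card := card_sdiff_add_card_eq_card hA
  have h6 : c * alp G A + c * alp G (Z \ A) ≤ c * alp G Z := by
    rw [← mul_add]; exact Nat.mul_le_mul_left c h3
  omega

/-- Not 2-colourable. -/
theorem not_proper (h : MinDense G c Z) (hc : 4 ≤ c) (lam : V → Bool) :
    ∃ x ∈ Z, ∃ y ∈ Z, G.Adj x y ∧ lam x = lam y := by
  by_contra hcon
  push Not at hcon
  have key : ∀ b : Bool, Indep G (Z.filter (fun x => lam x = b)) := by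
    intro b x hx y hy hxy
    rw [mem_filter] at hx hy
    exact hcon x hx.1 y hy.1 hxy (hx.2.trans hy.2.symm)
  have h1 := (key true).card_le_alp (S := Z) (filter_subset _ _)
  have h2 := (key false).card_le_alp (S := Z) (filter_subset _ _)
  have h3 : (Z.filter (fun x => lam x = true)).card + (Z.filter (fun x => lam x = false)).card
      = Z.card := by
    have := Finset.card_filter_add_card_filter_not (s := Z) (fun x => lam x = true)
    simpa using this
  have h4 := h.dense
  have : 4 * alp G Z ≤ c * alp G Z := Nat.mul_le_mul_right _ hc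
  omega

/-- No cut vertex. -/
theorem no_cut (h : MinDense G c Z) (hc : 2 ≤ c) {A B : Finset V} {z : V} (hA : A.Nonempty)
    (hB : B.Nonempty) (hzA : z ∉ A) (hzB : z ∉ B) (hd : Disjoint A B) (hAB : NoAdj G A B)
    (hZ : Z = insert z (A ∪ B)) : False := by
  have hcard : Z.card = A.card + B.card + 1 := by
    rw [hZ, card_insert_of_notMem (by simp [hzA, hzB]), card_union_of_disjoint hd]
  have hadd := alp_add_le hd hAB
  have hsub : A ∪ B ⊆ Z := by rw [hZ]; exact subset_insert _ _
  have hmono := alp_mono (G := G) hsub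
  have hAs : A ⊂ Z := by
    refine ⟨subset_union_left.trans hsub, fun hcon => hzA (hcon ?_)⟩
    rw [hZ]; exact mem_insert_self _ _
  have hBs : B ⊂ Z := by
    refine ⟨subset_union_right.trans hsub, fun hcon => hzB (hcon ?_)⟩
    rw [hZ]; exact mem_insert_self _ _
  have hAz : insert z A ⊂ Z := by
    obtain ⟨b, hb⟩ := hB
    refine ⟨?_, fun hcon => ?_⟩
    · rw [hZ]; exact insert_subset_insert _ subset_union_left
    · have hbZ : b ∈ insert z A := hcon (hsub (mem_union_right _ hb))
      rcases mem_insert.1 hbZ with rfl | hbA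
      · exact hzB hb
      · exact disjoint_left.1 hd hbA hb
  have hBz : insert z B ⊂ Z := by
    obtain ⟨a, ha⟩ := hA
    refine ⟨?_, fun hcon => ?_⟩
    · rw [hZ]; exact insert_subset_insert _ subset_union_right
    · have haZ : a ∈ insert z B := hcon (hsub (mem_union_left _ ha))
      rcases mem_insert.1 haZ with rfl | haB
      · exact hzA ha
      · exact disjoint_left.1 hd ha haB
  have m1 := h.min A hAs
  have m2 := h.min B hBs
  have m3 := h.min _ hAz
  have m4 := h.min _ hBz
  rw [card_insert_of_notMem hzA] at m3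
  rw [card_insert_of_notMem hzB] at m4
  have hdn := h.dense
  have key : c * alp G A + c * alp G B ≤ c * alp G Z := by
    rw [← mul_add]; exact Nat.mul_le_mul_left c (hadd.trans hmono)
  have eA : alp G (insert z A) = alp G A + 1 := by
    have h1 := alp_insert_le (G := G) z A
    have h2 := alp_mono (G := G) (subset_insert z A)
    by_contra hne
    have : alp G (insert z A) = alp G A := by omega
    rw [this] at m3
    omega
  have eB : alp G (insert z B) = alp G B + 1 := by
    have h1 := alp_insert_le (G := G) z B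
    have h2 := alp_mono (G := G) (subset_insert z B)
    by_contra hne
    have : alp G (insert z B) = alp G B := by omega
    rw [this] at m4
    omega
  obtain ⟨S, hS, hSI, hSc⟩ := exists_indep G (insert z A)
  obtain ⟨T, hT, hTI, hTc⟩ := exists_indep G (insert z B)
  have hzS : z ∈ S := by
    by_contra hz
    have : S ⊆ A := fun x hx => by
      rcases mem_insert.1 (hS hx) with rfl | hxA
      · exact absurd hx hz
      · exact hxA
    have := hSI.card_le_alp this
    omega
  have hzT : z ∈ T := by
    by_contra hz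
    have : T ⊆ B := fun x hx => by
      rcases mem_insert.1 (hT hx) with rfl | hxB
      · exact absurd hx hz
      · exact hxB
    have := hTI.card_le_alp this
    omega
  have hU : Indep G (S ∪ T) := by
    intro x hx y hy hxy
    rcases mem_union.1 hx with hx | hx <;> rcases mem_union.1 hy with hy | hy
    · exact hSI x hx y hy hxy
    · rcases mem_insert.1 (hS hx) with rfl | hxA
      · exact hTI _ hzT y hy hxy
      · rcases mem_insert.1 (hT hy) with rfl | hyB
        · exact hSI x hx _ hzS hxy
        · exact hAB x hxA y hyB hxy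
    · rcases mem_insert.1 (hT hx) with rfl | hxB
      · exact hSI _ hzS y hy hxy
      · rcases mem_insert.1 (hS hy) with rfl | hyA
        · exact hTI x hx _ hzT hxy
        · exact hAB y hyA x hxB hxy.symm
    · exact hTI x hx y hy hxy
  have hSTi : S ∩ T = {z} := by
    ext x
    rw [mem_inter, mem_singleton]
    constructor
    · rintro ⟨hx, hx'⟩
      rcases mem_insert.1 (hS hx) with rfl | hxA
      · rfl
      · rcases mem_insert.1 (hT hx') with rfl | hxB
        · rfl
        · exact absurd hxB (disjoint_left.1 hd hxA)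
    · rintro rfl; exact ⟨hzS, hzT⟩
  have hcU : (S ∪ T).card + 1 = S.card + T.card := by
    have := card_union_add_card_inter S T
    rw [hSTi, card_singleton] at this
    exact this
  have hUZ : S ∪ T ⊆ Z := union_subset (hS.trans hAz.1) (hT.trans hBz.1)
  have hfin := hU.card_le_alp hUZ
  have hge : alp G A + alp G B + 1 ≤ alp G Z := by omega
  have hge' : c * alp G A + c * alp G B + c ≤ c * alp G Z := by
    calc c * alp G A + c * alp G B + c = c * (alp G A + alp G B + 1) := by ring
      _ ≤ _ := Nat.mul_le_mul_left c hge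
  omega

end MinDense

/-! ### Longest paths and rotations -/

theorem IsPth.take {L : List V} (h : IsPth G L) (n : ℕ) : IsPth G (L.take n) :=
  ⟨h.1.sublist (List.take_sublist n L), h.2.take n⟩

theorem IsPth.drop {L : List V} (h : IsPth G L) (n : ℕ) : IsPth G (L.drop n) :=
  ⟨h.1.sublist (List.drop_sublist n L), h.2.drop n⟩

/-- Pósa rotation. -/
theorem IsPth.rot {L : List V} (h : IsPth G L) {i : ℕ} {a b : V} (hi : 1 ≤ i)
    (ha : L[0]? = some a) (hb : L[i]? = some b) (hab : G.Adj a b) :
    IsPth G ((L.take i).reverse ++ L.drop i) := by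
  rw [isPth_append]
  refine ⟨(h.take i).reverse, h.drop i, ?_, ?_⟩
  · intro x hx hx'
    rw [List.mem_reverse] at hx
    have hnd := h.1
    rw [← List.take_append_drop i L, List.nodup_append'] at hnd
    exact hnd.2.2 hx hx'
  · intro x hx y hy
    rw [List.getLast?_reverse, List.head?_take] at hx
    rw [List.head?_drop] at hy
    rw [if_neg (by omega), List.head?_eq_getElem?, ha] at hx
    rw [hb] at hy
    simp only [Option.mem_def, Option.some.injEq] at hx hy
    subst hx; subst hy; exact hab

theorem rot_length {L : List V} {i : ℕ} :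
    ((L.take i).reverse ++ L.drop i).length = L.length := by
  simp [List.length_append, List.length_take, List.length_drop]
  omega

theorem rot_mem {L : List V} {i : ℕ} {x : V} :
    x ∈ ((L.take i).reverse ++ L.drop i) ↔ x ∈ L := by
  rw [List.mem_append, List.mem_reverse, ← List.mem_append, List.take_append_drop]

theorem rot_getElem?_of_le {L : List V} {i t : ℕ} (hi : i ≤ L.length) (ht : i ≤ t) :
    ((L.take i).reverse ++ L.drop i)[t]? = L[t]? := by
  rw [List.getElem?_append_right (by simp; omega)]
  simp only [List.length_reverse, List.length_take, List.getElem?_drop]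
  congr 1
  omega

theorem rot_getElem?_zero {L : List V} {i : ℕ} (hi : i ≤ L.length) (h1 : 1 ≤ i) :
    ((L.take i).reverse ++ L.drop i)[0]? = L[i - 1]? := by
  rw [List.getElem?_append_left (by simp; omega)]
  rw [List.getElem?_reverse (by simp; omega)]
  simp only [List.length_take, List.getElem?_take]
  rw [if_pos (by omega)]
  congr 1
  omega

theorem MinDense.exists_cyc {c : ℕ} {Z : Finset V} (h : MinDense G c Z) (hc : 2 ≤ c)
    (h2 : 2 ≤ alp G Z) :
    ∃ L : List V, IsCyc G L ∧ c + 1 ≤ L.length ∧ (∀ x ∈ L, x ∈ Z) ∧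
      (6 ≤ c → ∃ r, 2 ≤ r ∧ r + 2 ≤ L.length ∧
        ∃ a b, L[0]? = some a ∧ L[r]? = some b ∧ G.Adj a b) := by
  classical
  have hZc : c + 1 ≤ Z.card := by
    have h1 := h.dense
    have h3 : c * 2 ≤ c * alp G Z := Nat.mul_le_mul_left c h2
    omega
  -- longest path
  let P : ℕ → Prop := fun n => ∃ L : List V, IsPth G L ∧ (∀ x ∈ L, x ∈ Z) ∧ L.length = n
  have hPbd : ∀ L : List V, IsPth G L → (∀ x ∈ L, x ∈ Z) → L.length ≤ Z.card := by
    intro L hL hLZ
    rw [← List.toFinset_card_of_nodup hL.1]
    apply card_le_card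
    intro x hx
    exact hLZ x (List.mem_toFinset.1 hx)
  have hP0 : P 0 := ⟨[], isPth_nil, by simp, rfl⟩
  obtain ⟨n0, hn0, hn0max⟩ : ∃ n, P n ∧ ∀ m, P m → m ≤ n := by
    refine ⟨Nat.findGreatest P Z.card, ?_, ?_⟩
    · exact Nat.findGreatest_spec (P := P) (Nat.zero_le _) hP0
    · intro m hm
      apply Nat.le_findGreatest _ hm
      obtain ⟨L, hL, hLZ, hLm⟩ := hm
      rw [← hLm]; exact hPbd L hL hLZ
  -- the head's neighbours lie on a longest path
  have hhead : ∀ L : List V, IsPth G L → (∀ x ∈ L, x ∈ Z) → L.length = n0 → ∀ a, L[0]? = some a →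
      ∀ z ∈ Z, G.Adj a z → z ∈ L := by
    intro L hL hLZ hLn a ha z hz haz
    by_contra hzL
    have hpath : IsPth G (z :: L) := by
      refine ⟨List.nodup_cons.2 ⟨hzL, hL.1⟩, ?_⟩
      match L, hL, ha with
      | b :: L, hL, ha =>
        simp only [List.getElem?_cons_zero, Option.some.injEq] at ha
        subst ha
        exact List.isChain_cons_cons.2 ⟨haz.symm, hL.2⟩
    have := hn0max (n0 + 1) ⟨z :: L, hpath, by
      intro x hx
      rcases List.mem_cons.1 hx with rfl | hx
      · exact hz
      · exact hLZ x hx, by simp [hLn]⟩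
    omega
  let Q : ℕ → Prop := fun j => ∃ L : List V, IsPth G L ∧ (∀ x ∈ L, x ∈ Z) ∧ L.length = n0 ∧
    ∃ a b, L[0]? = some a ∧ L[j]? = some b ∧ G.Adj a b
  have hQbd : ∀ j, Q j → j ≤ n0 := by
    rintro j ⟨L, -, -, hLn, a, b, -, hb, -⟩
    have := (List.getElem?_eq_some_iff.1 hb).1
    omega
  -- any longest path gives some `Q j`, `1 ≤ j`
  have hexQ : ∃ j, 1 ≤ j ∧ Q j := by
    obtain ⟨L, hL, hLZ, hLn⟩ := hn0
    have hn1 : 1 ≤ n0 := by
      obtain ⟨z, hz⟩ := card_pos.1 (show 0 < Z.card by omega)
      exact hn0max 1 ⟨[z], isPth_singleton z, by simpa using hz, rfl⟩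
    obtain ⟨a, ha⟩ : ∃ a, L[0]? = some a := by
      refine ⟨L[0], List.getElem?_eq_getElem (by omega)⟩
    have haL : a ∈ L := List.mem_of_getElem? ha
    have haZ := hLZ a haL
    have hcn := h.card_nbZ (indep_singleton a) (I := {a}) (by simpa using haZ) (by simp)
    rw [card_singleton] at hcn
    have : 1 < (nbZ G Z {a}).card := by omega
    obtain ⟨b, hb, hba⟩ := exists_mem_ne this a
    rw [mem_nbZ] at hb
    obtain ⟨hbZ, hb | ⟨y, hy, hyb⟩⟩ := hb
    · exact absurd (mem_singleton.1 hb) hba
    · rw [mem_singleton] at hy; subst hy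
      have hbL := hhead L hL hLZ hLn _ ha b hbZ hyb
      obtain ⟨j, hj⟩ := List.mem_iff_getElem?.1 hbL
      refine ⟨j, ?_, L, hL, hLZ, hLn, _, b, ha, hj, hyb⟩
      rcases Nat.eq_zero_or_pos j with rfl | hj0
      · rw [ha] at hj
        exact absurd (Option.some.inj hj).symm hba
      · exact hj0
  obtain ⟨j1, hj1, hQj1⟩ := hexQ
  obtain ⟨j0, hQj0, hj0max⟩ : ∃ j, Q j ∧ ∀ m, Q m → m ≤ j := by
    refine ⟨Nat.findGreatest Q n0, ?_, ?_⟩
    · exact Nat.findGreatest_spec (P := Q) (hQbd _ hQj1) hQj1
    · intro m hm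
      exact Nat.le_findGreatest (hQbd m hm) hm
  have hj01 : 1 ≤ j0 := hj1.trans (hj0max _ hQj1)
  obtain ⟨L, hL, hLZ, hLn, a, b, ha, hb, hab⟩ := hQj0
  have hj0L : j0 < L.length := (List.getElem?_eq_some_iff.1 hb).1
  -- the key rotation property
  have key : ∀ i y b', 1 ≤ i → L[i]? = some b' → G.Adj a b' → L[i - 1]? = some y →
      ∀ z ∈ Z, G.Adj y z → z ∈ L.take (j0 + 1) := by
    intro i y b' hi hb' hab' hy z hz hyz
    have hiL : i < L.length := (List.getElem?_eq_some_iff.1 hb').1
    have hij : i ≤ j0 := hj0max i ⟨L, hL, hLZ, hLn, a, b', ha, hb', hab'⟩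
    have hrot := hL.rot hi ha hb' hab'
    have h0 := rot_getElem?_zero (L := L) hiL.le hi
    rw [hy] at h0
    have hmem : z ∈ ((L.take i).reverse ++ L.drop i) :=
      hhead _ hrot (fun x hx => hLZ x (rot_mem.1 hx)) (by rw [rot_length, hLn]) y h0 z hz hyz
    have hzL := rot_mem.1 hmem
    obtain ⟨t, ht⟩ := List.mem_iff_getElem?.1 hzL
    have htj : t ≤ j0 := by
      rcases Nat.lt_or_ge t i with hti | hti
      · omega
      · apply hj0max t
        refine ⟨_, hrot, fun x hx => hLZ x (rot_mem.1 hx), by rw [rot_length, hLn], y, z, h0, ?_, hyz⟩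
        rw [rot_getElem?_of_le hiL.le hti]; exact ht
    rw [List.mem_iff_getElem?]
    refine ⟨t, ?_⟩
    rw [List.getElem?_take, if_pos (by omega)]
    exact ht
  -- the cycle
  have hcyc : IsCyc G (L.take (j0 + 1)) := by
    refine ⟨(hL.take _).1, (hL.take _).2, ?_⟩
    intro x hx y hy
    rw [List.getLast?_take, if_neg (by omega)] at hx
    rw [List.head?_take, if_neg (by omega), List.head?_eq_getElem?, ha] at hy
    have h1 : L[j0 + 1 - 1]? = some b := by simpa using hb
    rw [h1] at hx
    simp only [Option.some_or, Option.mem_def, Option.some.injEq] at hx hy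
    subst hx; subst hy; exact hab.symm
  have hlen : (L.take (j0 + 1)).length = j0 + 1 := by
    rw [List.length_take]; omega
  have htZ : ∀ x ∈ L.take (j0 + 1), x ∈ Z := fun x hx => hLZ x (List.mem_of_mem_take hx)
  -- chord
  have haZ : a ∈ Z := hLZ a (List.mem_of_getElem? ha)
  have hchord : 6 ≤ c → ∃ r, 2 ≤ r ∧ r + 2 ≤ (L.take (j0 + 1)).length ∧
        ∃ a b, (L.take (j0 + 1))[0]? = some a ∧ (L.take (j0 + 1))[r]? = some b ∧ G.Adj a b := by
    intro hc6
    by_contra hcon
    push Not at hcon
    have hsub : nbZ G Z {a} ⊆ {a} ∪ ((L[1]?).toFinset ∪ {b}) := by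
      intro x hx
      rw [mem_nbZ] at hx
      obtain ⟨hxZ, hx | ⟨y, hy, hyx⟩⟩ := hx
      · rw [mem_union]; exact Or.inl hx
      · rw [mem_singleton] at hy; subst hy
        have hxL := hhead L hL hLZ hLn _ ha x hxZ hyx
        obtain ⟨t, ht⟩ := List.mem_iff_getElem?.1 hxL
        have htj : t ≤ j0 := hj0max t ⟨L, hL, hLZ, hLn, _, x, ha, ht, hyx⟩
        rcases Nat.lt_or_ge t 2 with ht2 | ht2
        · interval_cases t
          · rw [ha] at ht
            have := Option.some.inj ht
            subst this
            simp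
          · rw [mem_union, mem_union]
            right; left
            rw [ht]; simp
        · rcases eq_or_lt_of_le htj with rfl | htj'
          · rw [hb] at ht
            have := Option.some.inj ht
            subst this
            simp
          · exfalso
            refine hcon t ht2 (by rw [hlen]; omega) _ x ?_ ?_ hyx
            · rw [List.getElem?_take, if_pos (by omega)]; exact ha
            · rw [List.getElem?_take, if_pos (by omega)]; exact ht
    have hc1 := card_le_card hsub
    have hc2 : ({a} ∪ ((L[1]?).toFinset ∪ {b}) : Finset V).card ≤ 3 := by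
      refine (card_union_le _ _).trans ?_
      have h1 := card_union_le (L[1]?).toFinset ({b} : Finset V)
      have h3 : (L[1]?).toFinset.card ≤ 1 := by
        cases L[1]? <;> simp
      rw [card_singleton] at h1 ⊢
      omega
    have hcn := h.card_nbZ (indep_singleton a) (I := {a}) (by simpa using haZ) (by simp)
    rw [card_singleton] at hcn
    omega
  by_cases hcase : ∃ i i' y y' d d', 1 ≤ i ∧ 1 ≤ i' ∧ L[i]? = some d ∧ G.Adj a d ∧
      L[i']? = some d' ∧ G.Adj a d' ∧ L[i - 1]? = some y ∧ L[i' - 1]? = some y' ∧ y ≠ y' ∧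
      ¬ G.Adj y y'
  · obtain ⟨i, i', y, y', d, d', hi, hi', hd, had, hd', had', hy, hy', hne, hnadj⟩ := hcase
    have hyZ : y ∈ Z := hLZ y (List.mem_of_getElem? hy)
    have hyZ' : y' ∈ Z := hLZ y' (List.mem_of_getElem? hy')
    have hij : i ≤ j0 := hj0max i ⟨L, hL, hLZ, hLn, a, d, ha, hd, had⟩
    have hij' : i' ≤ j0 := hj0max i' ⟨L, hL, hLZ, hLn, a, d', ha, hd', had'⟩
    have hcn := h.card_nbZ (indep_pair hnadj) (by
      intro z hz
      rcases mem_insert.1 hz with rfl | hz
      · exact hyZ
      · rw [mem_singleton] at hz; subst hz; exact hyZ') (by simp)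
    rw [card_pair hne] at hcn
    have hsub : nbZ G Z {y, y'} ⊆ (L.take (j0 + 1)).toFinset := by
      intro x hx
      rw [List.mem_toFinset]
      rw [mem_nbZ] at hx
      obtain ⟨hxZ, hx | ⟨w, hw, hwx⟩⟩ := hx
      · rw [List.mem_iff_getElem?]
        rcases mem_insert.1 hx with rfl | hx
        · exact ⟨i - 1, by rw [List.getElem?_take, if_pos (by omega)]; exact hy⟩
        · rw [mem_singleton] at hx; subst hx
          exact ⟨i' - 1, by rw [List.getElem?_take, if_pos (by omega)]; exact hy'⟩
      · rcases mem_insert.1 hw with rfl | hw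
        · exact key i _ d hi hd had hy x hxZ hwx
        · rw [mem_singleton] at hw; subst hw
          exact key i' _ d' hi' hd' had' hy' x hxZ hwx
    have hc1 := card_le_card hsub
    rw [List.toFinset_card_of_nodup (hL.take _).1, hlen] at hc1
    exact ⟨L.take (j0 + 1), hcyc, by rw [hlen]; omega, htZ, hchord⟩
  · push Not at hcase
    -- all `L[t]`, `t < j0`, are in the clique `W`
    have hall : ∀ t, t < j0 → ∃ d, L[t + 1]? = some d ∧ G.Adj a d := by
      intro t ht
      -- downward induction
      obtain ⟨s, rfl⟩ : ∃ s, t = j0 - 1 - s := ⟨j0 - 1 - t, by omega⟩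
      induction s with
      | zero =>
        refine ⟨b, ?_, hab⟩
        rw [show j0 - 1 - 0 + 1 = j0 by omega]; exact hb
      | succ s ih =>
        rcases Nat.lt_or_ge s (j0 - 1) with hs | hs
        · obtain ⟨d, hd, had⟩ := ih (by omega)
          have h1L : 1 < L.length := by omega
          have hd1 : L[1]? = some L[1] := List.getElem?_eq_getElem h1L
          have ha0 : L[0]? = some L[0] := List.getElem?_eq_getElem (by omega)
          have haeq : L[0] = a := by rw [ha] at ha0; exact (Option.some.inj ha0).symm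
          have hadj1 : G.Adj a L[1] := by
            have := List.isChain_iff_getElem.1 hL.2 0 (by omega)
            rw [haeq] at this
            exact this
          have hyt : L[j0 - 1 - (s + 1) + 1]? = some (L[j0 - 1 - (s + 1) + 1]'(by omega)) :=
            List.getElem?_eq_getElem (by omega)
          refine ⟨_, hyt, ?_⟩
          have hne : a ≠ L[j0 - 1 - (s + 1) + 1]'(by omega) := by
            rw [← haeq]
            intro heq
            have := (List.Nodup.getElem_inj_iff hL.1).1 heq
            omega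
          by_contra hnadj
          refine hnadj (hcase 1 (j0 - 1 - s + 1) a _ L[1] d le_rfl (by omega) hd1 hadj1 hd had ha ?_ hne)
          rw [show j0 - 1 - s + 1 - 1 = j0 - 1 - (s + 1) + 1 by omega]
          exact hyt
        · -- `s + 1 ≥ j0`, index 0 - fine: value at index 1
          have hz : j0 - 1 - (s + 1) = 0 := by omega
          have hz' : j0 - 1 - s = 0 := by omega
          rw [hz]
          have := ih (by omega)
          rw [hz'] at this
          exact this
    have hnb : ∀ t y, t < j0 → L[t]? = some y → ∀ z ∈ Z, G.Adj y z → z ∈ L.take (j0 + 1) := by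
      intro t y ht hy z hz hyz
      obtain ⟨d, hd, had⟩ := hall t ht
      exact key (t + 1) y d (by omega) hd had (by simpa using hy) z hz hyz
    by_cases hB : Z ⊆ (L.take (j0 + 1)).toFinset
    · have hc1 := card_le_card hB
      rw [List.toFinset_card_of_nodup (hL.take _).1, hlen] at hc1
      exact ⟨L.take (j0 + 1), hcyc, by rw [hlen]; omega, htZ, hchord⟩
    · exfalso
      obtain ⟨q, hqZ, hq⟩ := not_subset.1 hB
      have hnd := hL.1
      have hbnot : b ∉ L.take j0 := by
        intro hmem
        obtain ⟨t, ht⟩ := List.mem_iff_getElem?.1 hmem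
        have htlt : t < (L.take j0).length := (List.getElem?_eq_some_iff.1 ht).1
        rw [List.length_take] at htlt
        rw [List.getElem?_take, if_pos (by omega)] at ht
        have h1 := List.getElem?_eq_some_iff.1 ht
        have h3 := List.getElem?_eq_some_iff.1 hb
        obtain ⟨h1a, h1b⟩ := h1
        obtain ⟨h3a, h3b⟩ := h3
        have := (List.Nodup.getElem_inj_iff hnd).1 (h1b.trans h3b.symm)
        omega
      have htake : L.take (j0 + 1) = L.take j0 ++ [b] := by
        rw [List.take_add_one, hb]; rfl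
      refine h.no_cut hc (A := (L.take j0).toFinset) (B := Z \ (L.take (j0 + 1)).toFinset) (z := b)
        ?_ ⟨q, mem_sdiff.2 ⟨hqZ, hq⟩⟩ ?_ ?_ ?_ ?_ ?_
      · refine ⟨a, ?_⟩
        rw [List.mem_toFinset, List.mem_iff_getElem?]
        exact ⟨0, by rw [List.getElem?_take, if_pos (by omega)]; exact ha⟩
      · rw [List.mem_toFinset]; exact hbnot
      · intro hbm
        refine (mem_sdiff.1 hbm).2 ?_
        rw [List.mem_toFinset, htake]; simp
      · rw [disjoint_left]
        intro x hx hx'
        refine (mem_sdiff.1 hx').2 ?_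
        rw [List.mem_toFinset] at hx ⊢
        rw [htake]; exact List.mem_append_left _ hx
      · intro x hx y hy hxy
        rw [List.mem_toFinset] at hx
        obtain ⟨t, ht⟩ := List.mem_iff_getElem?.1 hx
        have htlt : t < (L.take j0).length := (List.getElem?_eq_some_iff.1 ht).1
        rw [List.length_take] at htlt
        rw [List.getElem?_take, if_pos (by omega)] at ht
        have := hnb t x (by omega) ht y (mem_sdiff.1 hy).1 hxy
        exact (mem_sdiff.1 hy).2 (List.mem_toFinset.2 this)
      · ext x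
        rw [mem_insert, mem_union, mem_sdiff, List.mem_toFinset, List.mem_toFinset, htake]
        constructor
        · intro hx
          by_cases hx1 : x ∈ L.take j0 ++ [b]
          · rcases List.mem_append.1 hx1 with hx1 | hx1
            · exact Or.inr (Or.inl hx1)
            · left; simpa using hx1
          · exact Or.inr (Or.inr ⟨hx, hx1⟩)
        · rintro (rfl | hx | hx)
          · exact hLZ _ (List.mem_of_getElem? hb)
          · exact hLZ _ (List.mem_of_mem_take hx)
          · exact hx.1

end Crest.Agent.R054
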