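import Mathlib
import Crest.Agent.R054.Alpha
import Crest.Agent.R054.Cyc
import Crest.Agent.R054.Basic
import Crest.Agent.R054.LemCYC
import Crest.Agent.R054.LemAB
import Crest.Agent.R054.LemABList

/-!
R054: breadth first layers around a vertex, closing paths of a layer through the lowest common
ancestor, and the bound `2|Z| ≤ c·alp Z` for subsets `Z` of a layer.
-/

set_option autoImplicit false
set_option linter.unusedSectionVars false
set_option linter.unusedVariables false

open Finset

namespace Crest.Agent.R054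

universe u

variable {V : Type u} [Fintype V] [DecidableEq V] {G : SimpleGraph V}

variable (G) in
/-- Ball of radius `i` around `v`. -/
noncomputable def ball (v : V) : ℕ → Finset V
  | 0 => {v}
  | i + 1 => nbC G (ball v i)

variable (G) in
/-- Layer (sphere) of radius `i` around `v`. -/
noncomputable def lay (v : V) : ℕ → Finset V
  | 0 => {v}
  | i + 1 => ball G v (i + 1) \ ball G v i

theorem ball_zero (v : V) : ball G v 0 = {v} := rfl

theorem ball_succ (v : V) (i : ℕ) : ball G v (i + 1) = nbC G (ball G v i) := rfl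

theorem lay_zero (v : V) : lay G v 0 = {v} := rfl

theorem lay_succ (v : V) (i : ℕ) : lay G v (i + 1) = ball G v (i + 1) \ ball G v i := rfl

theorem ball_subset_succ (v : V) (i : ℕ) : ball G v i ⊆ ball G v (i + 1) := subset_nbC _

theorem ball_mono (v : V) {i j : ℕ} (h : i ≤ j) : ball G v i ⊆ ball G v j :=
  monotone_nat_of_le_succ (ball_subset_succ v) h

theorem lay_subset_ball (v : V) (i : ℕ) : lay G v i ⊆ ball G v i := by
  cases i with
  | zero => exact subset_rfl
  | succ i => exact sdiff_subset

theorem mem_lay_one {v x : V} : x ∈ lay G v 1 ↔ G.Adj v x := by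
  rw [lay_succ, ball_succ, ball_zero, mem_sdiff, mem_nbC]
  simp only [mem_singleton, exists_eq_left]
  constructor
  · rintro ⟨h | h, h'⟩
    · exact absurd h h'
    · exact h
  · intro h
    exact ⟨Or.inr h, h.ne'⟩

theorem notMem_ball_of_mem_lay {v x : V} {i j : ℕ} (hij : i < j) (hx : x ∈ lay G v j) :
    x ∉ ball G v i := by
  match j, hij, hx with
  | j + 1, hij, hx =>
    intro hcon
    exact (mem_sdiff.1 hx).2 (ball_mono v (by omega) hcon)

theorem lay_index_unique {v x : V} {i j : ℕ} (hi : x ∈ lay G v i) (hj : x ∈ lay G v j) : i = j := by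
  rcases lt_trichotomy i j with h | h | h
  · exact absurd (lay_subset_ball v i hi) (notMem_ball_of_mem_lay h hj)
  · exact h
  · exact absurd (lay_subset_ball v j hj) (notMem_ball_of_mem_lay h hi)

theorem lay_disjoint {v : V} {i j : ℕ} (h : i ≠ j) : Disjoint (lay G v i) (lay G v j) := by
  rw [disjoint_left]
  intro x hx hx'
  exact h (lay_index_unique hx hx')

theorem noAdj_ball_lay {v : V} {i j : ℕ} (h : i + 2 ≤ j) : NoAdj G (ball G v i) (lay G v j) := by
  intro x hx y hy hxy
  refine notMem_ball_of_mem_lay (show i + 1 < j by omega) hy ?_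
  rw [ball_succ, mem_nbC]
  exact Or.inr ⟨x, hx, hxy⟩

theorem exists_parent {v x : V} {i : ℕ} (hx : x ∈ lay G v (i + 1)) :
    ∃ y ∈ lay G v i, G.Adj y x := by
  rw [lay_succ, mem_sdiff, ball_succ, mem_nbC] at hx
  obtain ⟨h | ⟨y, hy, hyx⟩, hx'⟩ := hx
  · exact absurd h hx'
  · refine ⟨y, ?_, hyx⟩
    cases i with
    | zero => exact hy
    | succ i =>
      rw [lay_succ, mem_sdiff]
      refine ⟨hy, fun hcon => hx' ?_⟩
      rw [ball_succ, mem_nbC]
      exact Or.inr ⟨y, hcon, hyx⟩

/-- Neighbours of a layer vertex are in the adjacent layers or the same. -/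
theorem lay_adj_index {v x y : V} {i j : ℕ} (hx : x ∈ lay G v i) (hy : y ∈ lay G v j)
    (hxy : G.Adj x y) : i ≤ j + 1 ∧ j ≤ i + 1 := by
  constructor
  · by_contra hcon
    exact noAdj_ball_lay (show j + 2 ≤ i by omega) y (lay_subset_ball v j hy) x hx hxy.symm
  · by_contra hcon
    exact noAdj_ball_lay (show i + 2 ≤ j by omega) x (lay_subset_ball v i hx) y hy hxy

variable (G) in
/-- `par` is a parent function (a breadth first tree) for the layers around `v`. -/
def IsPar (v : V) (par : V → V) : Prop :=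
  ∀ i x, x ∈ lay G v (i + 1) → par x ∈ lay G v i ∧ G.Adj (par x) x

theorem exists_isPar (v : V) : ∃ par : V → V, IsPar G v par := by
  classical
  refine ⟨fun x => if h : ∃ y i, x ∈ lay G v (i + 1) ∧ y ∈ lay G v i ∧ G.Adj y x then
    h.choose else x, ?_⟩
  intro i x hx
  have h : ∃ y i, x ∈ lay G v (i + 1) ∧ y ∈ lay G v i ∧ G.Adj y x := by
    obtain ⟨y, hy, hyx⟩ := exists_parent hx
    exact ⟨y, i, hx, hy, hyx⟩
  simp only [dif_pos h]
  obtain ⟨j, h1, h2, h3⟩ := h.choose_spec
  have := lay_index_unique hx h1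
  have hi : i = j := by omega
  rw [← hi] at h2
  exact ⟨h2, h3⟩

/-- A parent function with one prescribed value. -/
theorem IsPar.update {v : V} {par : V → V} (h : IsPar G v par) {x y : V} {i : ℕ}
    (hx : x ∈ lay G v (i + 1)) (hy : y ∈ lay G v i) (hyx : G.Adj y x) :
    IsPar G v (Function.update par x y) := by
  intro j z hz
  by_cases hzx : z = x
  · subst hzx
    have := lay_index_unique hx hz
    have hij : i = j := by omega
    subst hij
    simp only [Function.update_self]
    exact ⟨hy, hyx⟩
  · rw [Function.update_of_ne hzx]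
    exact h j z hz

section Par

variable {v : V} {par : V → V}

theorem IsPar.iter_mem (h : IsPar G v par) {x : V} {i : ℕ} (hx : x ∈ lay G v i) :
    ∀ t, t ≤ i → par^[t] x ∈ lay G v (i - t) := by
  intro t
  induction t with
  | zero => intro _; simpa using hx
  | succ t ih =>
    intro ht
    have h1 := ih (by omega)
    rw [Function.iterate_succ_apply']
    have h2 : i - t = (i - (t + 1)) + 1 := by omega
    rw [h2] at h1
    exact (h _ _ h1).1

theorem IsPar.iter_adj (h : IsPar G v par) {x : V} {i : ℕ} (hx : x ∈ lay G v i) {t : ℕ}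
    (ht : t < i) : G.Adj (par^[t + 1] x) (par^[t] x) := by
  have h1 := h.iter_mem hx t ht.le
  rw [Function.iterate_succ_apply']
  have h2 : i - t = (i - (t + 1)) + 1 := by omega
  rw [h2] at h1
  exact (h _ _ h1).2

/-- The path `par x, par² x, …, parˢ x`. -/
theorem IsPar.isPth_up (h : IsPar G v par) {x : V} {i : ℕ} (hx : x ∈ lay G v i) {s : ℕ}
    (hs : s ≤ i) : IsPth G ((List.range s).map (fun t => par^[t + 1] x)) := by
  refine ⟨?_, ?_⟩
  · rw [List.nodup_map_iff_inj_on List.nodup_range]
    intro t ht t' ht' heq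
    rw [List.mem_range] at ht ht'
    have h1 := h.iter_mem hx (t + 1) (by omega)
    have h2 := h.iter_mem hx (t' + 1) (by omega)
    rw [heq] at h1
    have := lay_index_unique h1 h2
    omega
  · rw [List.isChain_map, List.isChain_iff_getElem]
    intro t ht
    simp only [List.length_range] at ht
    simp only [List.getElem_range]
    exact (h.iter_adj hx (t := t + 1) (by omega)).symm

/-- Closing a path of a layer through the lowest common ancestor of its ends. -/
theorem IsPar.close (h : IsPar G v par) {a b : V} {i s : ℕ} (ha : a ∈ lay G v i)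
    (hb : b ∈ lay G v i) (hs1 : 1 ≤ s) (hsi : s ≤ i) (hs : par^[s] a = par^[s] b)
    (hs' : par^[s - 1] a ≠ par^[s - 1] b) {P : List V} (hP : IsPth G P)
    (hPl : ∀ x ∈ P, x ∈ lay G v i) (hPa : P.head? = some a) (hPb : P.getLast? = some b) {n : ℕ}
    (hn : P.length + (2 * s - 1) = n) (h3 : 3 ≤ n) : HasCyc G n := by
  have hdiff : ∀ t, t ≤ s - 1 → par^[t] a ≠ par^[t] b := by
    intro t ht heq
    apply hs'
    obtain ⟨d, hd⟩ : ∃ d, s - 1 = d + t := ⟨s - 1 - t, by omega⟩
    rw [hd, Function.iterate_add_apply, Function.iterate_add_apply, heq]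
  let D := (List.range (s - 1)).map (fun t => par^[t + 1] b)
  let U := (List.range s).map (fun t => par^[t + 1] a)
  have hD : IsPth G D := h.isPth_up hb (by omega)
  have hU : IsPth G U := h.isPth_up ha hsi
  have hUn : U ≠ [] := by simp [U]; omega
  have hUh : U.head? = some (par a) := by
    obtain ⟨s', rfl⟩ : ∃ s', s = s' + 1 := ⟨s - 1, by omega⟩
    simp [U, List.range_succ_eq_map]
  have hUl : U.getLast? = some (par^[s] a) := by
    obtain ⟨s', rfl⟩ : ∃ s', s = s' + 1 := ⟨s - 1, by omega⟩
    simp [U, List.range_succ]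
  -- `Q = D ++ U.reverse`
  have hQ : IsPth G (D ++ U.reverse) := by
    rw [isPth_append]
    refine ⟨hD, hU.reverse, ?_, ?_⟩
    · intro x hx hx'
      rw [List.mem_reverse] at hx'
      simp only [D, U, List.mem_map, List.mem_range] at hx hx'
      obtain ⟨t, ht, rfl⟩ := hx
      obtain ⟨t', ht', heq⟩ := hx'
      have h1 := h.iter_mem ha (t' + 1) (by omega)
      have h2 := h.iter_mem hb (t + 1) (by omega)
      rw [heq] at h1
      have := lay_index_unique h1 h2
      have htt : t' = t := by omega
      subst htt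
      exact hdiff _ (by omega) heq
    · intro x hx y hy
      rw [List.head?_reverse, hUl] at hy
      simp only [Option.mem_def, Option.some.injEq] at hy
      subst hy
      rcases Nat.eq_zero_or_pos (s - 1) with h0 | h0
      · simp [D, h0] at hx
      · have hDl : D.getLast? = some (par^[s - 1] b) := by
          obtain ⟨s', hs'⟩ : ∃ s', s - 1 = s' + 1 := ⟨s - 2, by omega⟩
          simp only [D, hs', List.range_succ, List.map_append, List.map_cons, List.map_nil,
            List.getLast?_append, List.getLast?_singleton, Option.some_or]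
        rw [hDl] at hx
        simp only [Option.mem_def, Option.some.injEq] at hx
        subst hx
        rw [hs]
        have := h.iter_adj hb (t := s - 1) (by omega)
        rw [show s - 1 + 1 = s by omega] at this
        exact this.symm
  have hQn : D ++ U.reverse ≠ [] := by simp [hUn]
  have hPn : P ≠ [] := by rintro rfl; simp at hPa
  have hUrn : U.reverse ≠ [] := by simpa using hUn
  refine (hP.close hQ hPn hQn ?_ ?_ ?_).hasCyc' ?_ h3
  · intro x hx hx'
    have hxi := hPl x hx
    rcases List.mem_append.1 hx' with hx' | hx'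
    · simp only [D, List.mem_map, List.mem_range] at hx'
      obtain ⟨t, ht, rfl⟩ := hx'
      have h1 := h.iter_mem hb (t + 1) (by omega)
      have := lay_index_unique h1 hxi
      omega
    · rw [List.mem_reverse] at hx'
      simp only [U, List.mem_map, List.mem_range] at hx'
      obtain ⟨t, ht, rfl⟩ := hx'
      have h1 := h.iter_mem ha (t + 1) (by omega)
      have := lay_index_unique h1 hxi
      omega
  · -- last of `P` is `b`, head of `Q` is `par b` or `par^[s] a`
    have h1 : P.getLast hPn = b := by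
      rw [List.getLast?_eq_getLast_of_ne_nil hPn] at hPb
      exact Option.some.inj hPb
    rw [h1]
    have hb1 := h.iter_adj hb (t := 0) (by omega)
    have h2 : (D ++ U.reverse).head hQn = par b := by
      rcases Nat.eq_zero_or_pos (s - 1) with h0 | h0
      · have hs1' : s = 1 := by omega
        subst hs1'
        simp only [D, U]
        simp
        simpa using hs
      · have hDn : D ≠ [] := by simp [D]; omega
        rw [List.head_append_of_ne_nil hDn]
        obtain ⟨s', hs'⟩ : ∃ s', s - 1 = s' + 1 := ⟨s - 2, by omega⟩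
        simp [D, hs', List.range_succ_eq_map]
    rw [h2]
    simpa using hb1.symm
  · have h1 : P.head hPn = a := by
      rw [List.head?_eq_some_head hPn] at hPa
      exact Option.some.inj hPa
    rw [h1, List.getLast_append_of_ne_nil hQn hUrn, List.getLast_reverse]
    have h2 : U.head hUn = par a := by
      rw [List.head?_eq_some_head hUn] at hUh
      exact Option.some.inj hUh
    rw [h2]
    have ha1 := h.iter_adj ha (t := 0) (by omega)
    simpa using ha1
  · simp only [D, U, List.length_append, List.length_reverse, List.length_map, List.length_range]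
    omega

/-- The height of the lowest common ancestor of a set of at least two vertices of a layer. -/
theorem IsPar.exists_lca (h : IsPar G v par) {i : ℕ} {Z : Finset V} (hZ : Z ⊆ lay G v i)
    {x0 y0 : V} (hx0 : x0 ∈ Z) (hy0 : y0 ∈ Z) (hne : x0 ≠ y0) :
    ∃ s, 1 ≤ s ∧ s ≤ i ∧ (∀ x ∈ Z, ∀ y ∈ Z, par^[s] x = par^[s] y) ∧
      ∃ x ∈ Z, ∃ y ∈ Z, par^[s - 1] x ≠ par^[s - 1] y := by
  classical
  have hex : ∃ s, ∀ x ∈ Z, ∀ y ∈ Z, par^[s] x = par^[s] y := by
    refine ⟨i, fun x hx y hy => ?_⟩
    have h1 := h.iter_mem (hZ hx) i le_rfl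
    have h2 := h.iter_mem (hZ hy) i le_rfl
    rw [Nat.sub_self, lay_zero, mem_singleton] at h1 h2
    rw [h1, h2]
  have hle : Nat.find hex ≤ i := by
    apply Nat.find_min' hex
    intro x hx y hy
    have h1 := h.iter_mem (hZ hx) i le_rfl
    have h2 := h.iter_mem (hZ hy) i le_rfl
    rw [Nat.sub_self, lay_zero, mem_singleton] at h1 h2
    rw [h1, h2]
  have h1 : 1 ≤ Nat.find hex := by
    by_contra hcon
    have h0 : Nat.find hex = 0 := by omega
    have := Nat.find_spec hex x0 hx0 y0 hy0
    rw [h0] at this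
    exact hne this
  have h2 := Nat.find_min hex (m := Nat.find hex - 1) (by omega)
  push Not at h2
  exact ⟨Nat.find hex, h1, hle, Nat.find_spec hex, h2⟩

end Par

/-- A minimal dense subset of a layer is a clique. -/
theorem layer_minDense {k c : ℕ} (hc : 6 ≤ c) (hkc : k ≤ c + 1) (hfree : ¬ HasCyc G (k + 1))
    {v : V} {i : ℕ} (hi : 1 ≤ i) (hik : 2 * i ≤ k) {Z : Finset V} (hZ : Z ⊆ lay G v i)
    (hmin : MinDense G c Z) : alp G Z ≤ 1 := by
  by_contra hcon
  have h2 : 2 ≤ alp G Z := by omega
  obtain ⟨L, hL, hLl, hLZ, hch⟩ := hmin.exists_cyc (by omega) h2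
  obtain ⟨r, hr2, hrL, a0, b0, ha0, hb0, hab0⟩ := hch hc
  obtain ⟨par, hpar⟩ := exists_isPar (G := G) v
  obtain ⟨x0, hx0, y0, hy0, hne, -⟩ := exists_not_adj_of_two_le_alp h2
  obtain ⟨s, hs1, hsi, hs, x1, hx1, y1, hy1, hxy1⟩ := hpar.exists_lca hZ hx0 hy0 hne
  have hLn : L ≠ [] := by rintro rfl; simp at hLl
  obtain ⟨c', hc', hcL⟩ := hL.intCycle hLn (Z := (Z : Set V)) (fun x hx => hLZ x hx)
  classical
  let lam : V → Bool := fun x => decide (par^[s - 1] x = par^[s - 1] x1)
  have e0 : c' 0 = a0 := by
    have h1 := hcL 0 (by omega)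
    have h3 := (List.getElem?_eq_some_iff.1 ha0).2
    rw [h3] at h1
    simpa using h1
  have er : c' (r : ℤ) = b0 := by
    have h1 := hcL r (by omega)
    have h3 := (List.getElem?_eq_some_iff.1 hb0).2
    rw [h3] at h1
    exact h1
  have hconn : CutConn G (Z : Set V) := by
    intro S hS hSne hSZ
    obtain ⟨x, hx⟩ := hSne
    obtain ⟨p, hp, q, hq, hqA, hpq⟩ := hmin.conn (Z.filter (fun z => z ∈ S)) (filter_subset _ _)
      ⟨x, mem_filter.2 ⟨by exact_mod_cast hS hx, hx⟩⟩ (by
        intro heq
        apply hSZ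
        apply Set.Subset.antisymm hS
        intro z hz
        have hz' : z ∈ Z := by exact_mod_cast hz
        rw [← heq] at hz'
        exact (mem_filter.1 hz').2)
    exact ⟨p, (mem_filter.1 hp).2, q, by exact_mod_cast hq,
      fun hcon => hqA (mem_filter.2 ⟨hq, hcon⟩), hpq⟩
  obtain ⟨u1, hu1, v1, hv1, huv1, hlam1⟩ := hmin.not_proper (by omega) lam
  obtain ⟨q, hq, hlq⟩ := exists_seqPath hc' (r := (r : ℤ)) (by omega) (by omega)
    (by rw [e0, er]; exact hab0) hconn lam
    ⟨x1, by exact_mod_cast hx1, by simp [lam]⟩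
    ⟨y1, by exact_mod_cast hy1, by simp [lam, hxy1.symm]⟩
    ⟨u1, by exact_mod_cast hu1, v1, by exact_mod_cast hv1, huv1, hlam1⟩
    (t := k + 1 - 2 * s) (by omega) (by omega)
  obtain ⟨l1, l2, l3, l4, l5, l6⟩ := hq.toList
  have hq0 : q 0 ∈ Z := by exact_mod_cast hq.mem 0 (by omega)
  have hqt : q (k + 1 - 2 * s) ∈ Z := by exact_mod_cast hq.mem _ le_rfl
  apply hfree
  refine hpar.close (hZ hq0) (hZ hqt) hs1 hsi (hs _ hq0 _ hqt) ?_ ⟨l1, l2⟩ ?_ l5 l6
    (by rw [l4]; omega) (by omega)
  · intro heq
    apply hlq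
    simp only [lam, heq]
  · intro x hx
    exact hZ (by exact_mod_cast l3 x hx)

/-- Bound for a subset of a layer. -/
theorem layer_bound {k c : ℕ} (hc : 6 ≤ c) (hkc : k ≤ c + 1) (hfree : ¬ HasCyc G (k + 1))
    {v : V} {i : ℕ} (hi : 1 ≤ i) (hik : 2 * i ≤ k) {Z : Finset V} (hZ : Z ⊆ lay G v i)
    (hcl : ∀ Q ⊆ Z, (∀ a ∈ Q, ∀ b ∈ Q, a ≠ b → G.Adj a b) → 2 * Q.card ≤ c) :
    2 * Z.card ≤ c * alp G Z := by
  by_contra hcon
  obtain ⟨Y, hY, hmin⟩ := exists_minDense (G := G) (c := c) Z (by omega)
  have h1 := layer_minDense hc hkc hfree hi hik (hY.trans hZ) hmin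
  have h2 := hcl Y hY (fun a ha b hb hab => adj_of_alp_le_one h1 ha hb hab)
  have h3 := hmin.dense
  have h4 : 1 ≤ alp G Y := by
    apply alp_pos
    rw [nonempty_iff_ne_empty]
    rintro rfl
    simp at h3
  have h5 : c * 1 ≤ c * alp G Y := Nat.mul_le_mul_left c h4
  omega

/-- Bound for a subset of the neighbourhood of `v` (no condition `6 ≤ c`). -/
theorem layer1_bound {k c : ℕ} (hc : 2 ≤ c) (hk : 2 ≤ k) (hkc : k ≤ c + 1)
    (hfree : ¬ HasCyc G (k + 1)) {v : V} {Z : Finset V} (hZ : Z ⊆ lay G v 1)
    (hcl : ∀ Q ⊆ Z, (∀ a ∈ Q, ∀ b ∈ Q, a ≠ b → G.Adj a b) → 2 * Q.card ≤ c) :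
    2 * Z.card ≤ c * alp G Z := by
  by_contra hcon
  obtain ⟨Y, hY, hmin⟩ := exists_minDense (G := G) (c := c) Z (by omega)
  have h4 : 1 ≤ alp G Y := by
    apply alp_pos
    rw [nonempty_iff_ne_empty]
    rintro rfl
    have h3 := hmin.dense
    simp at h3
  rcases Nat.lt_or_ge 1 (alp G Y) with h1 | h1
  · obtain ⟨L, hL, hLl, hLZ, -⟩ := hmin.exists_cyc hc h1
    have hp : IsPth G (L.take k) := hL.isPth.take k
    have hlen : (L.take k).length = k := by rw [List.length_take]; omega
    have hpn : L.take k ≠ [] := by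
      intro h0; rw [h0] at hlen; simp at hlen; omega
    have hadj : ∀ x ∈ L.take k, G.Adj v x := fun x hx =>
      mem_lay_one.1 (hZ (hY (hLZ x (List.mem_of_mem_take hx))))
    apply hfree
    refine (hp.close (isPth_singleton v) hpn (by simp) ?_ ?_ ?_).hasCyc' (by simp [hlen]) (by omega)
    · intro x hx hx'
      rw [List.mem_singleton] at hx'
      subst hx'
      exact G.loopless.irrefl _ (hadj _ hx)
    · simpa using (hadj _ (List.getLast_mem hpn)).symm
    · simpa using hadj _ (List.head_mem hpn)
  · have h2 := hcl Y hY (fun a ha b hb hab => adj_of_alp_le_one h1 ha hb hab)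
    have h3 := hmin.dense
    have h5 : c * 1 ≤ c * alp G Y := Nat.mul_le_mul_left c h4
    omega

/-! ### Counting in balls -/

theorem card_ball (v : V) (i : ℕ) :
    (ball G v i).card = 1 + ∑ j ∈ range i, (lay G v (j + 1)).card := by
  induction i with
  | zero => simp [ball_zero]
  | succ i ih =>
    rw [sum_range_succ, ← add_assoc, ← ih, lay_succ]
    have := card_sdiff_add_card_eq_card (ball_subset_succ (G := G) v i)
    omega

theorem alp_ball_add (v : V) (i : ℕ) :
    1 + ∑ j ∈ range (i + 1), alp G (lay G v (j + 1)) ≤ alp G (ball G v (i + 1)) + alp G (ball G v i) := by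
  induction i with
  | zero =>
    have h1 : alp G (lay G v 1) ≤ alp G (ball G v 1) := alp_mono (lay_subset_ball v 1)
    have h2 : alp G (ball G v 0) = 1 := by rw [ball_zero, alp_singleton]
    simp only [zero_add, range_one, sum_singleton]
    omega
  | succ i ih =>
    rw [sum_range_succ]
    have h1 : alp G (ball G v i) + alp G (lay G v (i + 1 + 1)) ≤ alp G (ball G v (i + 1 + 1)) := by
      have hd : Disjoint (ball G v i) (lay G v (i + 1 + 1)) := by
        rw [disjoint_left]
        intro x hx hx'
        exact notMem_ball_of_mem_lay (by omega) hx' hx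
      refine (alp_add_le hd (noAdj_ball_lay le_rfl)).trans (alp_mono ?_)
      exact union_subset (ball_mono v (by omega)) (lay_subset_ball v _)
    omega

theorem MinCE.card_ball_succ {k : ℕ} (h : MinCE k G) (v : V) (i : ℕ) :
    k * alp G (ball G v i) + 1 ≤ (ball G v (i + 1)).card := by
  obtain ⟨I, hI, hII, hIc⟩ := exists_indep G (ball G v i)
  have hne : I.Nonempty := by
    rw [← card_pos, hIc]
    exact alp_pos ⟨v, ball_mono v (Nat.zero_le i) (by simp [ball_zero])⟩
  have h1 := h.card_nbC hII hne
  rw [hIc] at h1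
  exact h1.trans (card_le_card (nbC_mono hI))

end Crest.Agent.R054
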