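import Crest.Agent.R054.Basic

/-!
# R054 / Small3 : no minimal counterexample for `k = 3` (cycle length four).

Proof: if `a, b, c` is a triangle, the sets `A, B, C` of outside neighbours of `a, b, c` are
pairwise disjoint and far, so `alp = 3`, `|V| = 10`, they are cliques of size `1` or `2`, and every
further vertex sees at least two vertices of every transversal; counting gives a contradiction.
So `G` is triangle-free and `(N(u) - v) ∪ (N(v) - u)` is independent of size `≥ 4` for an edge `uv`.
-/

set_option autoImplicit false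

open Finset

namespace Crest.Agent.R054

universe u

namespace K3

variable {V : Type u} [Fintype V] {G : SimpleGraph V}

theorem no4 (h : MinCE 3 G) {a b c d : V} (hac : a ≠ c) (hbd : b ≠ d) (h1 : G.Adj a b)
    (h2 : G.Adj b c) (h3 : G.Adj c d) (h4 : G.Adj d a) : False := by
  refine h.free (IsCyc.hasCyc' (L := [a, b, c, d]) ⟨?_, ?_, ?_⟩ rfl (by norm_num))
  · simp [h1.ne, h2.ne, h3.ne, h4.ne.symm, hac, hbd]
  · simp [h1, h2, h3]
  · simpa using h4

/-- outside neighbours of `a` for the triangle `a, b, c` -/
noncomputable def out [DecidableEq V] (G : SimpleGraph V) (a b c : V) : Finset V :=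
  ((nb G a).erase b).erase c

theorem mem_out [DecidableEq V] {a b c x : V} :
    x ∈ out G a b c ↔ x ≠ c ∧ x ≠ b ∧ G.Adj a x := by
  simp [out]

theorem out_comm [DecidableEq V] (a b c : V) : out G a b c = out G a c b := by
  ext x; simp only [mem_out]; tauto

variable [DecidableEq V]

/-- a triangle -/
def Tri (G : SimpleGraph V) (a b c : V) : Prop := G.Adj a b ∧ G.Adj b c ∧ G.Adj a c

omit [Fintype V] [DecidableEq V] in
theorem Tri.rot {a b c : V} (t : Tri G a b c) : Tri G b c a := ⟨t.2.1, t.2.2.symm, t.1.symm⟩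

omit [Fintype V] [DecidableEq V] in
theorem Tri.swap {a b c : V} (t : Tri G a b c) : Tri G b a c := ⟨t.1.symm, t.2.2, t.2.1⟩

/-- outside neighbours of different triangle vertices are different and nonadjacent -/
theorem out_far (h : MinCE 3 G) {a b c x y : V} (t : Tri G a b c) (hx : x ∈ out G a b c)
    (hy : y ∈ out G b c a) : x ≠ y ∧ ¬ G.Adj x y := by
  rw [mem_out] at hx hy
  obtain ⟨t1, t2, t3⟩ := t
  constructor
  · rintro rfl
    exact no4 h (a := x) (b := a) (c := c) (d := b) hx.1 t1.ne hx.2.2.symm t3 t2.symm hy.2.2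
  · intro hxy
    exact no4 h (a := x) (b := a) (c := b) (d := y) hx.2.1 (Ne.symm hy.1) hx.2.2.symm t1 hy.2.2 hxy.symm

theorem out_not_adj (h : MinCE 3 G) {a b c x : V} (t : Tri G a b c) (hx : x ∈ out G a b c) :
    ¬ G.Adj b x := by
  intro hbx
  have hx' := mem_out.1 hx
  have : x ∈ out G b c a := mem_out.2 ⟨hx'.2.2.ne.symm, hx'.1, hbx⟩
  exact (out_far h t hx this).1 rfl

theorem out_not_adj' (h : MinCE 3 G) {a b c x : V} (t : Tri G a b c) (hx : x ∈ out G a b c) :
    ¬ G.Adj c x := by
  rw [out_comm] at hx
  have t' : Tri G a c b := ⟨t.2.2, t.2.1.symm, t.1⟩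
  exact out_not_adj h t' hx

theorem out_nonempty (h : MinCE 3 G) {a b c : V} : (out G a b c).Nonempty := by
  rw [← Finset.card_pos]
  have h1 := h.le_card_nb a
  have h2 := Finset.pred_card_le_card_erase (s := nb G a) (a := b)
  have h3 := Finset.pred_card_le_card_erase (s := (nb G a).erase b) (a := c)
  unfold out
  omega

omit [Fintype V] in
theorem indep3 {x y z : V} (h1 : ¬ G.Adj x y) (h2 : ¬ G.Adj x z) (h3 : ¬ G.Adj y z) :
    Indep G {x, y, z} := by
  apply indep_insert (indep_pair h3)
  intro w hw
  simp only [Finset.mem_insert, Finset.mem_singleton] at hw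
  rcases hw with rfl | rfl <;> assumption

omit [Fintype V] in
theorem indep4 {w x y z : V} (h1 : ¬ G.Adj w x) (h2 : ¬ G.Adj w y) (h3 : ¬ G.Adj w z)
    (h4 : ¬ G.Adj x y) (h5 : ¬ G.Adj x z) (h6 : ¬ G.Adj y z) : Indep G {w, x, y, z} := by
  apply indep_insert (indep3 h4 h5 h6)
  intro v hv
  simp only [Finset.mem_insert, Finset.mem_singleton] at hv
  rcases hv with rfl | rfl | rfl <;> assumption

theorem no_indep4 (h : MinCE 3 G) {w x y z : V} (n1 : w ≠ x) (n2 : w ≠ y) (n3 : w ≠ z)
    (n4 : x ≠ y) (n5 : x ≠ z) (n6 : y ≠ z) (h1 : ¬ G.Adj w x) (h2 : ¬ G.Adj w y)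
    (h3 : ¬ G.Adj w z) (h4 : ¬ G.Adj x y) (h5 : ¬ G.Adj x z) (h6 : ¬ G.Adj y z) : False := by
  have h7 := h.card_indep_le (indep4 h1 h2 h3 h4 h5 h6)
  have h8 : ({w, x, y, z} : Finset V).card = 4 := by
    rw [Finset.card_insert_of_notMem, Finset.card_insert_of_notMem, Finset.card_pair n6]
    · simp [n4, n5]
    · simp [n1, n2, n3]
  omega

/-- the vertices not in the triangle and not adjacent to it -/
noncomputable def rest (G : SimpleGraph V) (a b c : V) : Finset V :=
  univ \ ({a, b, c} ∪ (out G a b c ∪ (out G b c a ∪ out G c a b)))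

theorem mem_rest {a b c w : V} : w ∈ rest G a b c ↔
    w ≠ a ∧ w ≠ b ∧ w ≠ c ∧ ¬ G.Adj a w ∧ ¬ G.Adj b w ∧ ¬ G.Adj c w := by
  simp only [rest, Finset.mem_sdiff, Finset.mem_univ, true_and, Finset.mem_union,
    Finset.mem_insert, Finset.mem_singleton, mem_out]
  tauto

theorem rest_rot (a b c : V) : rest G a b c = rest G b c a := by
  ext w; simp only [mem_rest]; tauto

/-- every vertex of the rest sees at least one of any `y ∈ B`, `z ∈ C`. -/
theorem rest_adj (h : MinCE 3 G) {a b c y z w : V} (t : Tri G a b c) (hy : y ∈ out G b c a)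
    (hz : z ∈ out G c a b) (hw : w ∈ rest G a b c) : G.Adj w y ∨ G.Adj w z := by
  by_contra hcon
  push Not at hcon
  obtain ⟨h1, h2⟩ := hcon
  rw [mem_rest] at hw
  obtain ⟨w1, w2, w3, w4, w5, w6⟩ := hw
  have hyz := out_far h t.rot hy hz
  have hay : ¬ G.Adj a y := out_not_adj' h t.rot hy
  have haz : ¬ G.Adj a z := out_not_adj h t.rot.rot hz
  have hya := (mem_out.1 hy).1
  have hza := (mem_out.1 hz).2.1
  have hwy : w ≠ y := by
    rintro rfl
    exact w5 (mem_out.1 hy).2.2
  have hwz : w ≠ z := by
    rintro rfl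
    exact w6 (mem_out.1 hz).2.2
  exact no_indep4 h w1 hwy hwz (Ne.symm hya) (Ne.symm hza) hyz.1 (fun e => w4 e.symm) h1 h2
    hay haz hyz.2

/-- two different vertices have at most one common neighbour -/
theorem common_le_one (h : MinCE 3 G) {x y : V} (hxy : x ≠ y) {S : Finset V}
    (hS : ∀ w ∈ S, G.Adj w x ∧ G.Adj w y) : S.card ≤ 1 := by
  rw [Finset.card_le_one]
  intro w hw w' hw'
  by_contra hne
  obtain ⟨h1, h2⟩ := hS w hw
  obtain ⟨h3, h4⟩ := hS w' hw'
  exact no4 h (a := w) (b := x) (c := w') (d := y) hne hxy h1 h3.symm h4 h2.symm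

theorem card_univ_le {a b c : V} :
    Fintype.card V ≤ 3 + ((out G a b c).card + ((out G b c a).card + ((out G c a b).card)))
      + (rest G a b c).card := by
  have h1 : (univ : Finset V) ⊆
      ({a, b, c} ∪ (out G a b c ∪ (out G b c a ∪ out G c a b))) ∪ rest G a b c := by
    intro x _
    simp only [rest, Finset.mem_union, Finset.mem_sdiff, Finset.mem_univ, true_and]
    tauto
  have h2 := Finset.card_le_card h1
  rw [Finset.card_univ] at h2
  have h3 := Finset.card_union_le ({a, b, c} ∪ (out G a b c ∪ (out G b c a ∪ out G c a b)))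
    (rest G a b c)
  have h4 := Finset.card_union_le ({a, b, c} : Finset V)
    (out G a b c ∪ (out G b c a ∪ out G c a b))
  have h5 := Finset.card_union_le (out G a b c) (out G b c a ∪ out G c a b)
  have h6 := Finset.card_union_le (out G b c a) (out G c a b)
  have h7 : ({a, b, c} : Finset V).card ≤ 3 := Finset.card_le_three
  omega

theorem alp_eq_three (h : MinCE 3 G) {a b c : V} (t : Tri G a b c) : alp G univ = 3 := by
  apply le_antisymm h.alp_le
  obtain ⟨x, hx⟩ := out_nonempty h (a := a) (b := b) (c := c)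
  obtain ⟨y, hy⟩ := out_nonempty h (a := b) (b := c) (c := a)
  obtain ⟨z, hz⟩ := out_nonempty h (a := c) (b := a) (c := b)
  have hxy := out_far h t hx hy
  have hyz := out_far h t.rot hy hz
  have hzx := out_far h t.rot.rot hz hx
  have hI : Indep G {x, y, z} := indep3 hxy.2 (fun e => hzx.2 e.symm) hyz.2
  have h1 := hI.card_le_alp (Finset.subset_univ _)
  have h2 : ({x, y, z} : Finset V).card = 3 := by
    rw [Finset.card_insert_of_notMem, Finset.card_pair hyz.1]
    simp [hxy.1, Ne.symm hzx.1]
  omega

/-- the outside neighbourhoods are cliques of size at most two -/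
theorem out_card_le (h : MinCE 3 G) {a b c : V} (t : Tri G a b c) : (out G a b c).card ≤ 2 := by
  obtain ⟨y, hy⟩ := out_nonempty h (a := b) (b := c) (c := a)
  obtain ⟨z, hz⟩ := out_nonempty h (a := c) (b := a) (c := b)
  have hyz := out_far h t.rot hy hz
  have hcl : ∀ p ∈ insert a (out G a b c), ∀ q ∈ insert a (out G a b c), p ≠ q → G.Adj p q := by
    intro p hp q hq hpq
    rw [Finset.mem_insert] at hp hq
    rcases hp with rfl | hp
    · rcases hq with rfl | hq
      · exact absurd rfl hpq
      · exact (mem_out.1 hq).2.2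
    · rcases hq with rfl | hq
      · exact (mem_out.1 hp).2.2.symm
      · by_contra hadj
        have hpy := out_far h t hp hy
        have hqy := out_far h t hq hy
        have hzp := out_far h t.rot.rot hz hp
        have hzq := out_far h t.rot.rot hz hq
        exact no_indep4 h hpq hpy.1 (Ne.symm hzp.1) hqy.1 (Ne.symm hzq.1) hyz.1 hadj hpy.2
          (fun e => hzp.2 e.symm) hqy.2 (fun e => hzq.2 e.symm) hyz.2
  have h1 := h.card_clique_le hcl
  rw [Finset.card_insert_of_notMem] at h1
  · omega
  · rw [mem_out]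
    rintro ⟨_, _, h⟩
    exact G.irrefl h

/-- an outside neighbourhood with two vertices is impossible -/
theorem no_two (h : MinCE 3 G) {a b c x x' : V} (t : Tri G a b c) (hx : x ∈ out G a b c)
    (hx' : x' ∈ out G a b c) (hne : x ≠ x') : False := by
  have hal := alp_eq_three h t
  have hcard := h.card_eq
  rw [hal] at hcard
  have h10 := card_univ_le (G := G) (a := a) (b := b) (c := c)
  have hA := out_card_le h t
  have hB := out_card_le h t.rot
  have hC := out_card_le h t.rot.rot
  -- every vertex of the rest sees all of B and C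
  have key : ∀ w ∈ rest G a b c, ∀ y ∈ out G b c a, ∀ z ∈ out G c a b, G.Adj w y ∧ G.Adj w z := by
    intro w hw y hy z hz
    have hnot : ¬ G.Adj w x ∨ ¬ G.Adj w x' := by
      by_contra hcon
      push Not at hcon
      have hw' := (mem_rest.1 hw).1
      exact no4 h (a := a) (b := x) (c := w) (d := x') (Ne.symm hw') hne (mem_out.1 hx).2.2
        hcon.1.symm hcon.2 (mem_out.1 hx').2.2.symm
    rcases hnot with hn | hn
    · constructor
      · have hw2 : w ∈ rest G c a b := by rw [← rest_rot, ← rest_rot]; exact hw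
        rcases rest_adj h t.rot.rot hx hy hw2 with h1 | h1
        · exact absurd h1 hn
        · exact h1
      · have hw2 : w ∈ rest G b c a := by rw [← rest_rot]; exact hw
        rcases rest_adj h t.rot hz hx hw2 with h1 | h1
        · exact h1
        · exact absurd h1 hn
    · constructor
      · have hw2 : w ∈ rest G c a b := by rw [← rest_rot, ← rest_rot]; exact hw
        rcases rest_adj h t.rot.rot hx' hy hw2 with h1 | h1
        · exact absurd h1 hn
        · exact h1
      · have hw2 : w ∈ rest G b c a := by rw [← rest_rot]; exact hw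
        rcases rest_adj h t.rot hz hx' hw2 with h1 | h1
        · exact h1
        · exact absurd h1 hn
  obtain ⟨y, hy⟩ := out_nonempty h (a := b) (b := c) (c := a)
  obtain ⟨z, hz⟩ := out_nonempty h (a := c) (b := a) (c := b)
  have hyz := out_far h t.rot hy hz
  have hW : (rest G a b c).card ≤ 1 := common_le_one h hyz.1 (fun w hw => key w hw y hy z hz)
  -- so B has two vertices, the rest is nonempty: contradiction
  have hB2 : 1 < (out G b c a).card := by omega
  have hW1 : 0 < (rest G a b c).card := by omega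
  obtain ⟨w, hw⟩ := Finset.card_pos.1 hW1
  obtain ⟨p, hp, q, hq, hpq⟩ := Finset.one_lt_card.1 hB2
  have h1 := (key w hw p hp z hz).1
  have h2 := (key w hw q hq z hz).1
  have hw' := (mem_rest.1 hw).2.1
  exact no4 h (a := b) (b := p) (c := w) (d := q) (Ne.symm hw') hpq (mem_out.1 hp).2.2
    h1.symm h2 (mem_out.1 hq).2.2.symm

theorem no_tri (h : MinCE 3 G) {a b c : V} (t : Tri G a b c) : False := by
  classical
  have hal := alp_eq_three h t
  have hcard := h.card_eq
  rw [hal] at hcard
  have h10 := card_univ_le (G := G) (a := a) (b := b) (c := c)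
  have hA : (out G a b c).card ≤ 1 := by
    rw [Finset.card_le_one]
    intro p hp q hq
    by_contra hne
    exact no_two h t hp hq hne
  have hB : (out G b c a).card ≤ 1 := by
    rw [Finset.card_le_one]
    intro p hp q hq
    by_contra hne
    exact no_two h t.rot hp hq hne
  have hC : (out G c a b).card ≤ 1 := by
    rw [Finset.card_le_one]
    intro p hp q hq
    by_contra hne
    exact no_two h t.rot.rot hp hq hne
  obtain ⟨x, hx⟩ := out_nonempty h (a := a) (b := b) (c := c)
  obtain ⟨y, hy⟩ := out_nonempty h (a := b) (b := c) (c := a)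
  obtain ⟨z, hz⟩ := out_nonempty h (a := c) (b := a) (c := b)
  have hxy := out_far h t hx hy
  have hyz := out_far h t.rot hy hz
  have hzx := out_far h t.rot.rot hz hx
  have hsub : rest G a b c ⊆ (rest G a b c).filter (fun w => G.Adj w x ∧ G.Adj w y) ∪
      ((rest G a b c).filter (fun w => G.Adj w y ∧ G.Adj w z) ∪
        (rest G a b c).filter (fun w => G.Adj w z ∧ G.Adj w x)) := by
    intro w hw
    have h1 := rest_adj h t hy hz hw
    have h2 := rest_adj h t.rot hz hx (by rw [← rest_rot]; exact hw)
    have h3 := rest_adj h t.rot.rot hx hy (by rw [← rest_rot, ← rest_rot]; exact hw)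
    simp only [Finset.mem_union, Finset.mem_filter]
    tauto
  have c1 := Finset.card_le_card hsub
  have c2 := common_le_one h hxy.1 (S := (rest G a b c).filter (fun w => G.Adj w x ∧ G.Adj w y))
    (fun w hw => (Finset.mem_filter.1 hw).2)
  have c3 := common_le_one h hyz.1 (S := (rest G a b c).filter (fun w => G.Adj w y ∧ G.Adj w z))
    (fun w hw => (Finset.mem_filter.1 hw).2)
  have c4 := common_le_one h hzx.1 (S := (rest G a b c).filter (fun w => G.Adj w z ∧ G.Adj w x))
    (fun w hw => (Finset.mem_filter.1 hw).2)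
  have c5 := (Finset.card_union_le ((rest G a b c).filter (fun w => G.Adj w x ∧ G.Adj w y))
      ((rest G a b c).filter (fun w => G.Adj w y ∧ G.Adj w z) ∪
        (rest G a b c).filter (fun w => G.Adj w z ∧ G.Adj w x)))
  have c6 := (Finset.card_union_le ((rest G a b c).filter (fun w => G.Adj w y ∧ G.Adj w z))
        ((rest G a b c).filter (fun w => G.Adj w z ∧ G.Adj w x)))
  omega

end K3

/-- No minimal counterexample for `k = 3`. -/
theorem no_minCE_three {V : Type u} [Fintype V] {G : SimpleGraph V} : ¬ MinCE 3 G := by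
  classical
  intro h
  have htri : ∀ a b c : V, G.Adj a b → G.Adj b c → G.Adj a c → False :=
    fun a b c h1 h2 h3 => K3.no_tri h ⟨h1, h2, h3⟩
  -- an edge `u v`
  have hV : 0 < Fintype.card V := by rw [h.card_eq]; omega
  obtain ⟨u⟩ := Fintype.card_pos_iff.1 hV
  have hu := h.le_card_nb u
  obtain ⟨v, hv⟩ := Finset.card_pos.1 (show 0 < (nb G u).card by omega)
  rw [mem_nb] at hv
  have hvn := h.le_card_nb v
  -- the independent set
  have hI : Indep G ((nb G u).erase v ∪ (nb G v).erase u) := by
    apply Indep.union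
    · intro x hx y hy hxy
      rw [Finset.mem_erase, mem_nb] at hx hy
      exact htri u x y hx.2 hxy hy.2
    · intro x hx y hy hxy
      rw [Finset.mem_erase, mem_nb] at hx hy
      exact htri v x y hx.2 hxy hy.2
    · intro x hx y hy hxy
      rw [Finset.mem_erase, mem_nb] at hx hy
      exact K3.no4 h (a := u) (b := x) (c := y) (d := v) (Ne.symm hy.1) hx.1 hx.2 hxy hy.2.symm
        hv.symm
  have hd : Disjoint ((nb G u).erase v) ((nb G v).erase u) := by
    rw [Finset.disjoint_left]
    intro x hx hy
    rw [Finset.mem_erase, mem_nb] at hx hy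
    exact htri u v x hv hy.2 hx.2
  have h1 := h.card_indep_le hI
  rw [Finset.card_union_of_disjoint hd, Finset.card_erase_of_mem (mem_nb.2 hv),
    Finset.card_erase_of_mem (mem_nb.2 hv.symm)] at h1
  omega

end Crest.Agent.R054
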