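import Crest.Agent.R054.Basic

/-!
# R054 / Small45 : no `K_4`-free minimal counterexample for `k = 4` and `k = 5`.
-/

set_option autoImplicit false

open Finset

namespace Crest.Agent.R054

universe u

namespace K45

variable {V : Type u} {G : SimpleGraph V}

/-- triangle-free set -/
def TriFree (G : SimpleGraph V) (Z : Finset V) : Prop :=
  ∀ x ∈ Z, ∀ y ∈ Z, ∀ z ∈ Z, G.Adj x y → G.Adj y z → G.Adj x z → False

/-- no path with four vertices in `Z` -/
def P4Free (G : SimpleGraph V) (Z : Finset V) : Prop :=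
  ∀ w ∈ Z, ∀ x ∈ Z, ∀ y ∈ Z, ∀ z ∈ Z, w ≠ y → w ≠ z → x ≠ z →
    G.Adj w x → G.Adj x y → G.Adj y z → False

/-- no path with five vertices in `Z` -/
def P5Free (G : SimpleGraph V) (Z : Finset V) : Prop :=
  ∀ v ∈ Z, ∀ w ∈ Z, ∀ x ∈ Z, ∀ y ∈ Z, ∀ z ∈ Z, v ≠ x → v ≠ y → v ≠ z → w ≠ y → w ≠ z → x ≠ z →
    G.Adj v w → G.Adj w x → G.Adj x y → G.Adj y z → False

theorem TriFree.mono {Z T : Finset V} (h : TriFree G Z) (hT : T ⊆ Z) : TriFree G T :=
  fun x hx y hy z hz => h x (hT hx) y (hT hy) z (hT hz)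

theorem P4Free.mono {Z T : Finset V} (h : P4Free G Z) (hT : T ⊆ Z) : P4Free G T :=
  fun w hw x hx y hy z hz => h w (hT hw) x (hT hx) y (hT hy) z (hT hz)

theorem P5Free.mono {Z T : Finset V} (h : P5Free G Z) (hT : T ⊆ Z) : P5Free G T :=
  fun v hv w hw x hx y hy z hz => h v (hT hv) w (hT hw) x (hT hx) y (hT hy) z (hT hz)

/-- a minimal subset violating `|T| ≤ 2 alp T` -/
theorem exists_min2 (Z : Finset V) (hZ : 2 * alp G Z < Z.card) :
    ∃ T, T ⊆ Z ∧ 2 * alp G T < T.card ∧ ∀ S, S ⊂ T → S.card ≤ 2 * alp G S := by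
  classical
  induction Z using Finset.strongInduction with
  | H Z ih =>
    by_cases hcon : ∀ S, S ⊂ Z → S.card ≤ 2 * alp G S
    · exact ⟨Z, Finset.Subset.refl Z, hZ, hcon⟩
    · push Not at hcon
      obtain ⟨S, hS, hS2⟩ := hcon
      obtain ⟨T, hT, hT2⟩ := ih S hS hS2
      exact ⟨T, hT.trans hS.1, hT2⟩

variable [Fintype V] [DecidableEq V]

/-- in a set all whose subsets satisfy `|S| ≤ 2 alp S` (proper ones suffice) -/
theorem card_inter_nbC {T I : Finset V} (hmin : ∀ S, S ⊂ T → S.card ≤ 2 * alp G S)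
    (hI : Indep G I) (hIT : I ⊆ T) (hne : I.Nonempty) :
    T.card + 2 * I.card ≤ 2 * alp G T + (T ∩ nbC G I).card := by
  have h1 := alp_sdiff_nbC hI hIT
  have h2 : T \ nbC G I ⊂ T := by
    rw [Finset.ssubset_iff_subset_ne]
    refine ⟨Finset.sdiff_subset, ?_⟩
    intro heq
    obtain ⟨v, hv⟩ := hne
    have h3 : v ∈ T \ nbC G I := by rw [heq]; exact hIT hv
    exact (Finset.mem_sdiff.1 h3).2 (subset_nbC I hv)
  have h3 := hmin _ h2
  have h4 := Finset.card_sdiff_add_card_inter T (nbC G I)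
  omega

/-- from `|T ∩ N[z]| ≥ 3` two distinct neighbours -/
theorem two_nbrs {T : Finset V} {z : V} (h : 3 ≤ (T ∩ nbC G {z}).card) :
    ∃ x ∈ T, ∃ y ∈ T, x ≠ y ∧ G.Adj z x ∧ G.Adj z y := by
  have h1 := Finset.pred_card_le_card_erase (s := T ∩ nbC G {z}) (a := z)
  have h2 : 1 < ((T ∩ nbC G {z}).erase z).card := by omega
  obtain ⟨x, hx, y, hy, hxy⟩ := Finset.one_lt_card.1 h2
  rw [Finset.mem_erase, Finset.mem_inter, mem_nbC_singleton] at hx hy
  refine ⟨x, hx.2.1, y, hy.2.1, hxy, ?_, ?_⟩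
  · rcases hx.2.2 with h | h
    · exact absurd h hx.1
    · exact h
  · rcases hy.2.2 with h | h
    · exact absurd h hy.1
    · exact h

theorem one_nbr {T : Finset V} {z : V} (h : 2 ≤ (T ∩ nbC G {z}).card) :
    ∃ x ∈ T, G.Adj z x := by
  have h1 := Finset.pred_card_le_card_erase (s := T ∩ nbC G {z}) (a := z)
  have h2 : 0 < ((T ∩ nbC G {z}).erase z).card := by omega
  obtain ⟨x, hx⟩ := Finset.card_pos.1 h2
  rw [Finset.mem_erase, Finset.mem_inter, mem_nbC_singleton] at hx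
  refine ⟨x, hx.2.1, ?_⟩
  rcases hx.2.2 with h | h
  · exact absurd h hx.1
  · exact h

/-- minimal violating sets have minimum degree two -/
theorem min2_two_nbrs {T : Finset V} (hT : 2 * alp G T < T.card)
    (hmin : ∀ S, S ⊂ T → S.card ≤ 2 * alp G S) {z : V} (hz : z ∈ T) :
    ∃ x ∈ T, ∃ y ∈ T, x ≠ y ∧ G.Adj z x ∧ G.Adj z y := by
  have h1 := card_inter_nbC hmin (indep_singleton z) (Finset.singleton_subset_iff.2 hz)
    (Finset.singleton_nonempty z)
  rw [Finset.card_singleton] at h1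
  exact two_nbrs (by omega)

/-- a further neighbour, different from a given one -/
theorem min2_other {T : Finset V} (hT : 2 * alp G T < T.card)
    (hmin : ∀ S, S ⊂ T → S.card ≤ 2 * alp G S) {z : V} (hz : z ∈ T) (u : V) :
    ∃ x ∈ T, x ≠ u ∧ G.Adj z x := by
  obtain ⟨x, hx, y, hy, hxy, h1, h2⟩ := min2_two_nbrs hT hmin hz
  by_cases h : x = u
  · exact ⟨y, hy, fun e => hxy (h.trans e.symm), h2⟩
  · exact ⟨x, hx, h, h1⟩

omit [Fintype V] [DecidableEq V] in
theorem min2_nonempty {T : Finset V} (hT : 2 * alp G T < T.card) : T.Nonempty := by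
  rw [← Finset.card_pos]; omega

theorem card_le_of_P4Free {Z : Finset V} (h3 : TriFree G Z) (h4 : P4Free G Z) :
    Z.card ≤ 2 * alp G Z := by
  by_contra hcon
  push Not at hcon
  obtain ⟨T, hTZ, hT, hmin⟩ := exists_min2 Z hcon
  obtain ⟨z, hz⟩ := min2_nonempty hT
  obtain ⟨x, hx, y, hy, hxy, h1, h2⟩ := min2_two_nbrs hT hmin hz
  obtain ⟨w, hw, hwz, hxw⟩ := min2_other hT hmin hx z
  have hwy : w ≠ y := by
    rintro rfl
    exact h3 z (hTZ hz) x (hTZ hx) w (hTZ hw) h1 hxw h2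
  exact h4 w (hTZ hw) x (hTZ hx) z (hTZ hz) y (hTZ hy) hwz hwy hxy hxw.symm h1.symm h2

/-- equality case: perfect matching -/
theorem matching_of_P4Free {Z : Finset V} (h3 : TriFree G Z) (h4 : P4Free G Z)
    (heq : 2 * alp G Z ≤ Z.card) : ∀ z ∈ Z, (∃ x ∈ Z, G.Adj z x) ∧
      ∀ x ∈ Z, ∀ y ∈ Z, G.Adj z x → G.Adj z y → x = y := by
  have hmin : ∀ S, S ⊂ Z → S.card ≤ 2 * alp G S :=
    fun S hS => card_le_of_P4Free (h3.mono hS.1) (h4.mono hS.1)
  intro z hz
  constructor
  · have h1 := card_inter_nbC hmin (indep_singleton z) (Finset.singleton_subset_iff.2 hz)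
      (Finset.singleton_nonempty z)
    rw [Finset.card_singleton] at h1
    exact one_nbr (by omega)
  · intro x hx y hy h1 h2
    by_contra hxy
    have hnadj : ¬ G.Adj x y := fun h => h3 z hz x hx y hy h1 h h2
    have h5 := card_inter_nbC (I := {x, y}) hmin (indep_pair hnadj)
      (by intro w hw; simp only [Finset.mem_insert, Finset.mem_singleton] at hw
          rcases hw with rfl | rfl <;> assumption) (Finset.insert_nonempty x {y})
    rw [Finset.card_pair hxy] at h5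
    have h6 : Z ∩ nbC G {x, y} ⊆ {x, y, z} := by
      intro w hw
      rw [Finset.mem_inter, nbC_pair, Finset.mem_union, mem_nbC_singleton,
        mem_nbC_singleton] at hw
      obtain ⟨hwZ, hw⟩ := hw
      simp only [Finset.mem_insert, Finset.mem_singleton]
      by_contra hcon
      push Not at hcon
      obtain ⟨n1, n2, n3⟩ := hcon
      rcases hw with (rfl | hw) | (rfl | hw)
      · exact n1 rfl
      · exact h4 w hwZ x hx z hz y hy n3 n2 hxy hw.symm h1.symm h2
      · exact n2 rfl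
      · exact h4 w hwZ y hy z hz x hx n3 n1 (Ne.symm hxy) hw.symm h2.symm h1
    have h7 := Finset.card_le_card h6
    have h8 : ({x, y, z} : Finset V).card ≤ 3 := Finset.card_le_three
    omega

theorem card_le_of_P5Free {Z : Finset V} (h3 : TriFree G Z) (h5 : P5Free G Z) :
    Z.card ≤ 2 * alp G Z := by
  by_contra hcon
  push Not at hcon
  obtain ⟨T, hTZ, hT, hmin⟩ := exists_min2 Z hcon
  have h3 := h3.mono hTZ
  have h5 := h5.mono hTZ
  clear hTZ hcon
  -- two distinct neighbours `y, y'` of `x` : the other neighbours of `y` and `y'` coincide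
  have key : ∀ x ∈ T, ∀ y ∈ T, ∀ y' ∈ T, y ≠ y' → G.Adj x y → G.Adj x y' →
      ∀ w ∈ T, ∀ w' ∈ T, w ≠ x → w' ≠ x → G.Adj y w → G.Adj y' w' → w = w' := by
    intro x hx y hy y' hy' hne hxy hxy' w hw w' hw' hwx hwx' hyw hyw'
    by_contra hww
    have h1 : w ≠ y' := by
      rintro rfl
      exact h3 x hx y hy w hw hxy hyw hxy'
    have h2 : w' ≠ y := by
      rintro rfl
      exact h3 x hx y' hy' w' hw' hxy' hyw' hxy
    exact h5 w hw y hy x hx y' hy' w' hw' hwx h1 hww hne (Ne.symm h2) (Ne.symm hwx') hyw.symm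
      hxy.symm hxy' hyw'
  -- every vertex has exactly two neighbours in `T`
  have deg2 : ∀ y ∈ T, ∀ a ∈ T, ∀ b ∈ T, ∀ c ∈ T, G.Adj y a → G.Adj y b → G.Adj y c →
      a ≠ b → b ≠ c → a = c := by
    intro y hy a ha b hb c hc h1 h2 h4 hab hbc
    -- `b` has another neighbour `y' ≠ y`; `y'` has another neighbour `w' ≠ b`
    obtain ⟨y', hy', hne, hby'⟩ := min2_other hT hmin hb y
    obtain ⟨w', hw', hne', hyw'⟩ := min2_other hT hmin hy' b
    have e1 := key b hb y hy y' hy' (Ne.symm hne) h2.symm hby' a ha w' hw' hab hne' h1 hyw'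
    have e2 := key b hb y hy y' hy' (Ne.symm hne) h2.symm hby' c hc w' hw' (Ne.symm hbc) hne' h4
      hyw'
    rw [e1, e2]
  obtain ⟨x, hx⟩ := min2_nonempty hT
  obtain ⟨y, hy, y', hy', hne, h1, h2⟩ := min2_two_nbrs hT hmin hx
  obtain ⟨w, hw, hwx, hyw⟩ := min2_other hT hmin hy x
  obtain ⟨w', hw', hwx', hyw'⟩ := min2_other hT hmin hy' x
  have hww := key x hx y hy y' hy' hne h1 h2 w hw w' hw' hwx hwx' hyw hyw'
  subst hww
  have hxw : ¬ G.Adj x w := by
    intro hxw
    have hyw2 : w ≠ y' := hyw'.ne.symm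
    have := deg2 x hx y hy w hw y' hy' h1 hxw h2 hyw.ne hyw2
    exact hne this
  have h6 := card_inter_nbC (I := {x, w}) hmin (indep_pair hxw)
      (by intro v hv; simp only [Finset.mem_insert, Finset.mem_singleton] at hv
          rcases hv with rfl | rfl <;> assumption) (Finset.insert_nonempty x {w})
  rw [Finset.card_pair (Ne.symm hwx)] at h6
  have h7 : T ∩ nbC G {x, w} ⊆ {x, w, y, y'} := by
    intro v hv
    rw [Finset.mem_inter, nbC_pair, Finset.mem_union, mem_nbC_singleton,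
      mem_nbC_singleton] at hv
    obtain ⟨hvT, hv⟩ := hv
    simp only [Finset.mem_insert, Finset.mem_singleton]
    by_contra hcon
    push Not at hcon
    obtain ⟨n1, n2, n3, n4⟩ := hcon
    rcases hv with (rfl | hv) | (rfl | hv)
    · exact n1 rfl
    · exact hne (deg2 x hx y hy v hvT y' hy' h1 hv h2 (Ne.symm n3) n4)
    · exact n2 rfl
    · exact hne (deg2 w hw y hy v hvT y' hy' hyw.symm hv hyw'.symm (Ne.symm n3) n4)
  have h8 := Finset.card_le_card h7
  have h9 : ({x, w, y, y'} : Finset V).card ≤ 4 := Finset.card_le_four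
  omega

/-- the second BFS layer -/
noncomputable def L2 (G : SimpleGraph V) (v : V) : Finset V := by
  classical exact univ.filter (fun w => w ≠ v ∧ ¬ G.Adj v w ∧ ∃ p, G.Adj v p ∧ G.Adj p w)

theorem mem_L2 {v w : V} :
    w ∈ L2 G v ↔ w ≠ v ∧ ¬ G.Adj v w ∧ ∃ p, G.Adj v p ∧ G.Adj p w := by
  simp [L2]

/-- `alp (L2) + 1 ≤ alp univ` -/
theorem alp_L2 (v : V) : alp G (L2 G v) + 1 ≤ alp G univ := by
  have h1 : v ∉ L2 G v := by
    intro h; exact (mem_L2.1 h).1 rfl
  have h2 := alp_insert_of_noAdj (G := G) h1 (fun x hx => (mem_L2.1 hx).2.1)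
  rw [← h2]
  exact alp_mono (Finset.subset_univ _)

/-- The size estimate: `k * alp(N(v)) ≤ |N(v)| + |L2(v)|`. -/
theorem card_two_layers {k : ℕ} (h : MinCE k G) (v : V) :
    k * alp G (nb G v) ≤ (nb G v).card + (L2 G v).card := by
  obtain ⟨I, hI, hII, hIc⟩ := exists_indep G (nb G v)
  have hne : I.Nonempty := by
    rw [← Finset.card_pos, hIc]
    have : (nb G v).Nonempty := by
      rw [← Finset.card_pos]
      have := h.le_card_nb v
      have := h.hk
      omega
    exact alp_pos this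
  have h1 := h.card_nbC hII hne
  have h2 : nbC G I ⊆ insert v (nb G v ∪ L2 G v) := by
    intro w hw
    rw [mem_nbC] at hw
    rw [Finset.mem_insert, Finset.mem_union, mem_nb, mem_L2]
    rcases hw with hw | ⟨p, hp, hpw⟩
    · exact Or.inr (Or.inl (mem_nb.1 (hI hw)))
    · by_cases h3 : w = v
      · exact Or.inl h3
      · by_cases h4 : G.Adj v w
        · exact Or.inr (Or.inl h4)
        · exact Or.inr (Or.inr ⟨h3, h4, p, mem_nb.1 (hI hp), hpw⟩)
  have h3 := Finset.card_le_card h2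
  have h4 := Finset.card_insert_le v (nb G v ∪ L2 G v)
  have h5 := Finset.card_union_le (nb G v) (L2 G v)
  rw [hIc] at h1
  omega

omit [DecidableEq V] in
theorem no5 (h : MinCE 4 G) {a b c d e : V} (hac : a ≠ c) (had : a ≠ d) (hbd : b ≠ d)
    (hbe : b ≠ e) (hce : c ≠ e) (h1 : G.Adj a b) (h2 : G.Adj b c) (h3 : G.Adj c d)
    (h4 : G.Adj d e) (h5 : G.Adj e a) : False := by
  refine h.free (IsCyc.hasCyc' (L := [a, b, c, d, e]) ⟨?_, ?_, ?_⟩ rfl (by norm_num))
  · simp [h1.ne, h2.ne, h3.ne, h4.ne, h5.ne.symm, hac, had, hbd, hbe, hce]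
  · simp [h1, h2, h3, h4]
  · simpa using h5

omit [DecidableEq V] in
theorem no6 (h : MinCE 5 G) {a b c d e f : V} (hac : a ≠ c) (had : a ≠ d) (hae : a ≠ e)
    (hbd : b ≠ d) (hbe : b ≠ e) (hbf : b ≠ f) (hce : c ≠ e) (hcf : c ≠ f) (hdf : d ≠ f)
    (h1 : G.Adj a b) (h2 : G.Adj b c) (h3 : G.Adj c d)
    (h4 : G.Adj d e) (h5 : G.Adj e f) (h6 : G.Adj f a) : False := by
  refine h.free (IsCyc.hasCyc' (L := [a, b, c, d, e, f]) ⟨?_, ?_, ?_⟩ rfl (by norm_num))
  · simp [h1.ne, h2.ne, h3.ne, h4.ne, h5.ne, h6.ne.symm, hac, had, hae, hbd, hbe, hbf, hce, hcf,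
      hdf]
  · simp [h1, h2, h3, h4, h5]
  · simpa using h6

omit [Fintype V] in
theorem noK4 (hω : ∀ K : Finset V, (∀ a ∈ K, ∀ b ∈ K, a ≠ b → G.Adj a b) → K.card ≤ 3)
    {a b c d : V} (h1 : G.Adj a b) (h2 : G.Adj a c) (h3 : G.Adj a d) (h4 : G.Adj b c)
    (h5 : G.Adj b d) (h6 : G.Adj c d) : False := by
  have h7 := hω {a, b, c, d} (by
    intro x hx y hy hxy
    simp only [Finset.mem_insert, Finset.mem_singleton] at hx hy
    rcases hx with rfl | rfl | rfl | rfl <;> rcases hy with rfl | rfl | rfl | rfl <;>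
      first
        | exact absurd rfl hxy
        | assumption
        | (apply SimpleGraph.Adj.symm; assumption))
  have h8 : ({a, b, c, d} : Finset V).card = 4 := by
    rw [Finset.card_insert_of_notMem, Finset.card_insert_of_notMem, Finset.card_pair h6.ne]
    · simp [h4.ne, h5.ne]
    · simp [h1.ne, h2.ne, h3.ne]
  omega

/-- abbreviation: clique number at most three -/
def Om3 (G : SimpleGraph V) : Prop :=
  ∀ K : Finset V, (∀ a ∈ K, ∀ b ∈ K, a ≠ b → G.Adj a b) → K.card ≤ 3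

/-! ### `k = 4` -/

theorem nb_triFree (hω : Om3 G) (v : V) : TriFree G (nb G v) := by
  intro x hx y hy z hz h1 h2 h3
  rw [mem_nb] at hx hy hz
  exact noK4 hω hx hy hz h1 h3 h2

omit [DecidableEq V] in
theorem nb_P4Free (h : MinCE 4 G) (v : V) : P4Free G (nb G v) := by
  intro w hw x hx y hy z hz n1 n2 n3 h1 h2 h3
  rw [mem_nb] at hw hx hy hz
  exact no5 h (a := v) (b := w) (c := x) (d := y) (e := z) hx.ne hy.ne n1 n2 n3 hw h1 h2 h3
    hz.symm

/-- both ends of an edge in the second layer have the same parents -/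
theorem L2_parent4 (h : MinCE 4 G) {v x y p q : V} (hx : x ∈ L2 G v) (hy : y ∈ L2 G v)
    (hxy : G.Adj x y) (hp : G.Adj v p) (hpx : G.Adj p x) (hq : G.Adj v q) (hqy : G.Adj q y) :
    p = q := by
  by_contra hpq
  rw [mem_L2] at hx hy
  have h1 : p ≠ y := by rintro rfl; exact hy.2.1 hp
  have h2 : x ≠ q := by rintro rfl; exact hx.2.1 hq
  exact no5 h (a := v) (b := p) (c := x) (d := y) (e := q) (Ne.symm hx.1) (Ne.symm hy.1) h1 hpq
    h2 hp hpx hxy hqy.symm hq.symm

theorem L2_triFree4 (h : MinCE 4 G) (hω : Om3 G) (v : V) : TriFree G (L2 G v) := by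
  intro x hx y hy z hz h1 h2 h3
  obtain ⟨-, -, p, hp, hpx⟩ := mem_L2.1 hx
  obtain ⟨-, -, q, hq, hqy⟩ := mem_L2.1 hy
  obtain ⟨-, -, r, hr, hrz⟩ := mem_L2.1 hz
  have e1 := L2_parent4 h hx hy h1 hp hpx hq hqy
  have e2 := L2_parent4 h hx hz h3 hp hpx hr hrz
  subst e1; subst e2
  exact noK4 hω hpx hqy hrz h1 h3 h2

theorem L2_P4Free (h : MinCE 4 G) (v : V) : P4Free G (L2 G v) := by
  intro w hw x hx y hy z hz n1 n2 n3 h1 h2 h3
  obtain ⟨-, -, s, hs, hsw⟩ := mem_L2.1 hw
  obtain ⟨-, -, p, hp, hpx⟩ := mem_L2.1 hx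
  obtain ⟨-, -, q, hq, hqy⟩ := mem_L2.1 hy
  obtain ⟨-, -, r, hr, hrz⟩ := mem_L2.1 hz
  have e1 := L2_parent4 h hw hx h1 hs hsw hp hpx
  have e2 := L2_parent4 h hx hy h2 hp hpx hq hqy
  have e3 := L2_parent4 h hy hz h3 hq hqy hr hrz
  subst e1; subst e2; subst e3
  exact no5 h (a := s) (b := w) (c := x) (d := y) (e := z) hpx.ne hqy.ne n1 n2 n3 hsw h1 h2 h3
    hrz.symm

/-- for `k = 4` and `K_4`-free: all neighbourhoods induce perfect matchings -/
theorem nb_matching (h : MinCE 4 G) (hω : Om3 G) (v : V) : ∀ z ∈ nb G v,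
    (∃ x ∈ nb G v, G.Adj z x) ∧
      ∀ x ∈ nb G v, ∀ y ∈ nb G v, G.Adj z x → G.Adj z y → x = y := by
  apply matching_of_P4Free (nb_triFree hω v) (nb_P4Free h v)
  have h1 := card_le_of_P4Free (nb_triFree hω v) (nb_P4Free h v)
  have h2 := card_le_of_P4Free (L2_triFree4 h hω v) (L2_P4Free h v)
  have h3 := card_two_layers h v
  have h4 := alp_L2 (G := G) v
  have h5 := h.alp_le
  have h6 := h.le_card_nb v
  omega

theorem exists_out4 (h : MinCE 4 G) (hω : Om3 G) {v p : V} (hp : p ∈ nb G v) :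
    ∃ y, G.Adj p y ∧ y ≠ v ∧ ¬ G.Adj v y := by
  by_contra hcon
  push Not at hcon
  -- all neighbours of `p` are `v` or in `nb v`
  obtain ⟨⟨x, hx, hpx⟩, huniq⟩ := nb_matching h hω v p hp
  have h1 : nb G p ⊆ {v, x} := by
    intro y hy
    rw [mem_nb] at hy
    rw [Finset.mem_insert, Finset.mem_singleton]
    by_cases hyv : y = v
    · exact Or.inl hyv
    · exact Or.inr (huniq y (mem_nb.2 (hcon y hy hyv)) x hx hy hpx)
  have h2 := Finset.card_le_card h1
  have h3 : ({v, x} : Finset V).card ≤ 2 := Finset.card_le_two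
  have h4 := h.le_card_nb p
  omega

theorem no_minCE_four_aux (h : MinCE 4 G) (hω : Om3 G) : False := by
  classical
  have hV : 0 < Fintype.card V := by rw [h.card_eq]; omega
  obtain ⟨v⟩ := Fintype.card_pos_iff.1 hV
  choose! f hf using fun p (hp : p ∈ nb G v) => exists_out4 h hω hp
  have hfar : ∀ p ∈ nb G v, ∀ q ∈ nb G v, p ≠ q → f p ≠ f q ∧ ¬ G.Adj (f p) (f q) := by
    intro p hp q hq hpq
    obtain ⟨p1, p2, p3⟩ := hf p hp
    obtain ⟨q1, q2, q3⟩ := hf q hq
    have hp' := mem_nb.1 hp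
    have hq' := mem_nb.1 hq
    have hne : f p ≠ f q := by
      intro heq
      rw [← heq] at q1
      -- `y = f p` adjacent to both `p` and `q`
      obtain ⟨⟨y', hy', hyy'⟩, _⟩ := nb_matching h hω p (f p) (mem_nb.2 p1)
      have hpy' := mem_nb.1 hy'
      have hy'v : y' ≠ v := by
        rintro rfl; exact p3 hyy'.symm
      by_cases hy'q : y' = q
      · subst hy'q
        obtain ⟨_, huniq⟩ := nb_matching h hω p y' (mem_nb.2 hpy')
        exact p2 (huniq (f p) (mem_nb.2 p1) v (mem_nb.2 hp'.symm) q1 hq'.symm)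
      · exact no5 h (a := v) (b := p) (c := y') (d := f p) (e := q) (Ne.symm hy'v) (Ne.symm p2)
          p1.ne hpq hy'q hp' hpy' hyy'.symm q1.symm hq'.symm
    refine ⟨hne, fun hadj => ?_⟩
    have h1 : p ≠ f q := by
      rintro heq
      exact q3 (heq ▸ hp')
    have h2 : f p ≠ q := by
      rintro heq
      exact p3 (heq.symm ▸ hq')
    exact no5 h (a := v) (b := p) (c := f p) (d := f q) (e := q) (Ne.symm p2) (Ne.symm q2) h1 hpq
      h2 hp' p1 hadj q1.symm hq'.symm
  have hinj : Set.InjOn f (nb G v : Set V) := by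
    intro p hp q hq heq
    by_contra hpq
    exact (hfar p hp q hq hpq).1 heq
  have hI : Indep G (insert v ((nb G v).image f)) := by
    apply indep_insert
    · intro x hx y hy hxy
      rw [Finset.mem_image] at hx hy
      obtain ⟨p, hp, rfl⟩ := hx
      obtain ⟨q, hq, rfl⟩ := hy
      by_cases hpq : p = q
      · subst hpq; exact G.irrefl hxy
      · exact (hfar p hp q hq hpq).2 hxy
    · intro x hx
      rw [Finset.mem_image] at hx
      obtain ⟨p, hp, rfl⟩ := hx
      exact (hf p hp).2.2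
  have h1 := h.card_indep_le hI
  rw [Finset.card_insert_of_notMem, Finset.card_image_of_injOn hinj] at h1
  · have := h.le_card_nb v
    omega
  · rw [Finset.mem_image]
    rintro ⟨p, hp, hpv⟩
    exact (hf p hp).2.1 hpv

/-! ### `k = 5` -/

omit [DecidableEq V] in
theorem nb_P5Free (h : MinCE 5 G) (v : V) : P5Free G (nb G v) := by
  intro u hu w hw x hx y hy z hz n1 n2 n3 n4 n5 n6 h1 h2 h3 h4
  rw [mem_nb] at hu hw hx hy hz
  exact no6 h (a := v) (b := u) (c := w) (d := x) (e := y) (f := z) hw.ne hx.ne hy.ne n1 n2 n3 n4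
    n5 n6 hu h1 h2 h3 h4 hz.symm

/-- the two ends of a path with three vertices in the second layer have the same parents -/
theorem L2_parent5 (h : MinCE 5 G) {v x y z p q : V} (hx : x ∈ L2 G v) (hy : y ∈ L2 G v)
    (hz : z ∈ L2 G v) (hxz : x ≠ z)
    (hxy : G.Adj x y) (hyz : G.Adj y z) (hp : G.Adj v p) (hpx : G.Adj p x) (hq : G.Adj v q)
    (hqz : G.Adj q z) : p = q := by
  by_contra hpq
  rw [mem_L2] at hx hy hz
  have h1 : p ≠ y := by rintro rfl; exact hy.2.1 hp
  have h1' : p ≠ z := by rintro rfl; exact hz.2.1 hp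
  have h2 : x ≠ q := by rintro rfl; exact hx.2.1 hq
  have h2' : y ≠ q := by rintro rfl; exact hy.2.1 hq
  exact no6 h (a := v) (b := p) (c := x) (d := y) (e := z) (f := q) (Ne.symm hx.1) (Ne.symm hy.1)
    (Ne.symm hz.1) h1 h1' hpq hxz h2 h2' hp hpx hxy hyz hqz.symm hq.symm

theorem L2_card5 (h : MinCE 5 G) (hω : Om3 G) (v : V) : (L2 G v).card ≤ 2 * alp G (L2 G v) := by
  classical
  by_contra hcon
  push Not at hcon
  obtain ⟨T, hTZ, hT, hmin⟩ := exists_min2 _ hcon
  -- unique parents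
  have huniq : ∀ x ∈ T, ∀ p q, G.Adj v p → G.Adj v q → G.Adj p x → G.Adj q x → p = q := by
    intro x hx p q hp hq hpx hqx
    obtain ⟨y, hy, -, hxy⟩ := min2_other hT hmin hx x
    obtain ⟨z, hz, hzx, hyz⟩ := min2_other hT hmin hy x
    obtain ⟨-, -, r, hr, hrz⟩ := mem_L2.1 (hTZ hz)
    have e1 := L2_parent5 h (hTZ hx) (hTZ hy) (hTZ hz) (Ne.symm hzx) hxy hyz hp hpx hr hrz
    have e2 := L2_parent5 h (hTZ hx) (hTZ hy) (hTZ hz) (Ne.symm hzx) hxy hyz hq hqx hr hrz
    rw [e1, e2]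
  obtain ⟨x, hx⟩ := min2_nonempty hT
  obtain ⟨y, hy, -, hxy⟩ := min2_other hT hmin hx x
  obtain ⟨-, -, p, hp, hpx⟩ := mem_L2.1 (hTZ hx)
  obtain ⟨-, -, q, hq, hqy⟩ := mem_L2.1 (hTZ hy)
  -- neighbours of a vertex with a neighbour below `q` are all below `q`
  have hnb : ∀ a ∈ T, ∀ b ∈ T, ∀ c ∈ T, ∀ r, G.Adj v r → G.Adj a b → G.Adj a c → G.Adj r b →
      G.Adj r c := by
    intro a ha b hb c hc r hr hab hac hrb
    by_cases hbc : b = c
    · subst hbc; exact hrb
    · obtain ⟨-, -, r', hr', hrc⟩ := mem_L2.1 (hTZ hc)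
      have := L2_parent5 h (hTZ hb) (hTZ ha) (hTZ hc) hbc hab.symm hac hr hrb hr' hrc
      rw [this]; exact hrc
  let K : Finset V := T.filter (fun z => (G.Adj p z ∧ ∀ w ∈ T, G.Adj z w → G.Adj q w) ∨
    (G.Adj q z ∧ ∀ w ∈ T, G.Adj z w → G.Adj p w))
  have hxK : x ∈ K := by
    refine Finset.mem_filter.2 ⟨hx, Or.inl ⟨hpx, fun w hw hxw => ?_⟩⟩
    exact hnb x hx y hy w hw q hq hxy hxw hqy
  have hclosed : ∀ z ∈ K, ∀ w ∈ T, G.Adj z w → w ∈ K := by
    intro z hz w hw hzw
    obtain ⟨hzT, hz⟩ := Finset.mem_filter.1 hz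
    refine Finset.mem_filter.2 ⟨hw, ?_⟩
    rcases hz with ⟨hz1, hz2⟩ | ⟨hz1, hz2⟩
    · refine Or.inr ⟨hz2 w hw hzw, fun u hu hwu => ?_⟩
      exact hnb w hw z hzT u hu p hp hzw.symm hwu hz1
    · refine Or.inl ⟨hz2 w hw hzw, fun u hu hwu => ?_⟩
      exact hnb w hw z hzT u hu q hq hzw.symm hwu hz1
  -- `K = T`
  have hKT : K = T := by
    by_contra hne
    have hKs : K ⊂ T := (Finset.filter_subset _ _).ssubset_of_ne hne
    have hKs' : T \ K ⊂ T := by
      rw [Finset.ssubset_iff_subset_ne]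
      refine ⟨Finset.sdiff_subset, fun heq => ?_⟩
      have : x ∈ T \ K := by rw [heq]; exact hx
      exact (Finset.mem_sdiff.1 this).2 hxK
    have h1 := hmin _ hKs
    have h2 := hmin _ hKs'
    have h3 : alp G K + alp G (T \ K) ≤ alp G (K ∪ T \ K) := by
      apply alp_add_le Finset.disjoint_sdiff
      intro a ha b hb hab
      obtain ⟨hb1, hb2⟩ := Finset.mem_sdiff.1 hb
      exact hb2 (hclosed a ha b hb1 hab)
    have h4 : K ∪ T \ K = T := by
      rw [Finset.union_sdiff_of_subset hKs.1]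
    have h5 := Finset.card_sdiff_add_card_eq_card hKs.1
    rw [h4] at h3
    omega
  by_cases hpq : p = q
  · -- `T ⊆ N(p)`
    subst hpq
    have hTp : T ⊆ nb G p := by
      intro z hz
      rw [← hKT] at hz
      rw [mem_nb]
      rcases (Finset.mem_filter.1 hz).2 with h1 | h1 <;> exact h1.1
    have := card_le_of_P5Free ((nb_triFree hω p).mono hTp) ((nb_P5Free h p).mono hTp)
    omega
  · -- bipartite
    have hsub : T ⊆ T.filter (fun z => G.Adj p z) ∪ T.filter (fun z => G.Adj q z) := by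
      intro z hz
      have hz' := hz
      rw [← hKT] at hz'
      rw [Finset.mem_union, Finset.mem_filter, Finset.mem_filter]
      rcases (Finset.mem_filter.1 hz').2 with h1 | h1
      · exact Or.inl ⟨hz, h1.1⟩
      · exact Or.inr ⟨hz, h1.1⟩
    have hP : Indep G (T.filter (fun z => G.Adj p z)) := by
      intro a ha b hb hab
      rw [Finset.mem_filter] at ha hb
      have ha' := ha.1
      rw [← hKT] at ha'
      rcases (Finset.mem_filter.1 ha').2 with h1 | h1
      · exact hpq (huniq b hb.1 p q hp hq hb.2 (h1.2 b hb.1 hab))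
      · exact hpq (huniq a ha.1 p q hp hq ha.2 h1.1)
    have hQ : Indep G (T.filter (fun z => G.Adj q z)) := by
      intro a ha b hb hab
      rw [Finset.mem_filter] at ha hb
      have ha' := ha.1
      rw [← hKT] at ha'
      rcases (Finset.mem_filter.1 ha').2 with h1 | h1
      · exact hpq (huniq a ha.1 p q hp hq h1.1 ha.2)
      · exact hpq (huniq b hb.1 p q hp hq (h1.2 b hb.1 hab) hb.2)
    have c1 := hP.card_le_alp (Finset.filter_subset _ T)
    have c2 := hQ.card_le_alp (Finset.filter_subset _ T)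
    have c3 := Finset.card_le_card hsub
    have c4 := Finset.card_union_le (T.filter (fun z => G.Adj p z)) (T.filter (fun z => G.Adj q z))
    omega

theorem no_minCE_five_aux (h : MinCE 5 G) (hω : Om3 G) : False := by
  have hV : 0 < Fintype.card V := by rw [h.card_eq]; omega
  obtain ⟨v⟩ := Fintype.card_pos_iff.1 hV
  have h1 := card_le_of_P5Free (nb_triFree hω v) (nb_P5Free h v)
  have h2 := L2_card5 h hω v
  have h3 := card_two_layers h v
  have h4 := alp_L2 (G := G) v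
  have h5 := h.alp_le
  have h6 := h.le_card_nb v
  omega

end K45

/-- No minimal counterexample for `k = 4` with clique number at most `3`. -/
theorem no_minCE_four {V : Type u} [Fintype V] {G : SimpleGraph V} (h : MinCE 4 G)
    (hω : ∀ K : Finset V, (∀ a ∈ K, ∀ b ∈ K, a ≠ b → G.Adj a b) → K.card ≤ 3) : False := by
  classical
  exact K45.no_minCE_four_aux h hω

/-- No minimal counterexample for `k = 5` with clique number at most `3`. -/
theorem no_minCE_five {V : Type u} [Fintype V] {G : SimpleGraph V} (h : MinCE 5 G)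
    (hω : ∀ K : Finset V, (∀ a ∈ K, ∀ b ∈ K, a ≠ b → G.Adj a b) → K.card ≤ 3) : False := by
  classical
  exact K45.no_minCE_five_aux h hω

end Crest.Agent.R054
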