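import Crest.Agent.R054.Basic
import Crest.Agent.R054.Balls

/-!
# R054 / Small54 : the case `k = 5`, `ω = 4`
-/

set_option autoImplicit false

open Finset

set_option linter.unusedSectionVars false

namespace Crest.Agent.R054

universe u

variable {V : Type u} [Fintype V] [DecidableEq V] {G : SimpleGraph V}

/-- an explicit 6-cycle -/
theorem hasCyc_six {a b c d e f : V} (hnd : [a, b, c, d, e, f].Nodup) (h1 : G.Adj a b)
    (h2 : G.Adj b c) (h3 : G.Adj c d) (h4 : G.Adj d e) (h5 : G.Adj e f) (h6 : G.Adj f a) :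
    HasCyc G 6 := by
  refine IsCyc.hasCyc' (L := [a, b, c, d, e, f]) ⟨hnd, ?_, ?_⟩ rfl (by norm_num)
  · simp only [List.isChain_cons_cons, List.isChain_singleton, and_true]
    exact ⟨h1, h2, h3, h4, h5⟩
  · intro x hx y hy
    simp at hx hy
    subst hx; subst hy; exact h6

/-- an outside path between two vertices of a clique -/
theorem hasCyc_of_clique_path {M : Finset V} (hM : ∀ a ∈ M, ∀ b ∈ M, a ≠ b → G.Adj a b)
    {a b : V} (ha : a ∈ M) (hb : b ∈ M) (hab : a ≠ b) {Q : List V} (hQ : IsPth G Q) (hQn : Q ≠ [])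
    (hQM : ∀ y ∈ Q, y ∉ M) (h1 : G.Adj a (Q.head hQn)) (h2 : G.Adj (Q.getLast hQn) b) {n : ℕ}
    (hn1 : Q.length + 2 ≤ n) (hn2 : n ≤ Q.length + M.card) : HasCyc G n := by
  have hnd : ((a :: (Q ++ [b])) : List V).Nodup := by
    rw [List.nodup_cons, List.nodup_append']
    refine ⟨?_, hQ.1, List.nodup_singleton b, ?_⟩
    · intro h
      rcases List.mem_append.1 h with h | h
      · exact hQM a h ha
      · exact hab (List.mem_singleton.1 h)
    · intro y hy hy'
      rw [List.mem_singleton] at hy'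
      subst hy'
      exact hQM y hy hb
  have hlen : ((a :: (Q ++ [b])) : List V).length = Q.length + 2 := by simp
  have hQ0 : 0 < Q.length := List.length_pos_iff.2 hQn
  refine hasCyc_of_blocks hM [a :: (Q ++ [b])] ?_ ?_ (n := n) ?_ ?_ (by omega)
  · intro L hL
    rw [List.mem_singleton] at hL
    subst hL
    refine ⟨?_, ?_, ?_⟩
    · obtain ⟨q, Q', rfl⟩ := List.exists_cons_of_ne_nil hQn
      rw [List.cons_append, List.isChain_cons_cons, ← List.cons_append, List.isChain_append]
      refine ⟨h1, hQ.2, List.isChain_singleton b, ?_⟩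
      intro x hx y hy
      rw [List.getLast?_eq_getLast_of_ne_nil hQn] at hx
      simp only [Option.mem_def, Option.some.injEq, List.head?_cons] at hx hy
      subst hx; subst hy; exact h2
    · intro x hx
      simp only [List.head?_cons, Option.mem_def, Option.some.injEq] at hx
      subst hx; exact ha
    · intro x hx
      rw [List.getLast?_cons_of_ne_nil (by simp), List.getLast?_append_of_ne_nil _ (by simp)] at hx
      simp only [List.getLast?_singleton, Option.mem_def, Option.some.injEq] at hx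
      subst hx; exact hb
  · simpa using hnd
  · rw [List.flatten_singleton, hlen]; exact hn1
  · rw [List.flatten_singleton, hlen]
    have h3 : M \ (a :: (Q ++ [b])).toFinset = M \ {a, b} := by
      ext y
      simp only [mem_sdiff, List.mem_toFinset, List.mem_cons, List.mem_append, mem_insert,
        mem_singleton, List.not_mem_nil, or_false]
      constructor
      · rintro ⟨hy, hn⟩
        exact ⟨hy, fun h => hn (h.elim Or.inl (fun h => Or.inr (Or.inr h)))⟩
      · rintro ⟨hy, hn⟩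
        refine ⟨hy, ?_⟩
        rintro (h | h | h)
        · exact hn (Or.inl h)
        · exact hQM y h hy
        · exact hn (Or.inr h)
    rw [h3]
    have h4 : ({a, b} : Finset V) ⊆ M := by
      intro y hy
      rcases mem_insert.1 hy with rfl | hy
      · exact ha
      · rw [mem_singleton.1 hy]; exact hb
    have h5 := card_sdiff_add_card_eq_card h4
    rw [card_pair hab] at h5
    omega

/-- a nonadjacent pair in a set with more vertices than every clique -/
theorem exists_nonadj_pair {w : ℕ}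
    (hmax : ∀ K : Finset V, (∀ a ∈ K, ∀ b ∈ K, a ≠ b → G.Adj a b) → K.card ≤ w)
    {B : Finset V} (hB : w < B.card) : ∃ J ⊆ B, Indep G J ∧ J.card = 2 := by
  by_contra hcon
  push Not at hcon
  have : ∀ a ∈ B, ∀ b ∈ B, a ≠ b → G.Adj a b := by
    intro a ha b hb hab
    by_contra hadj
    refine hcon {a, b} ?_ (indep_pair hadj) (card_pair hab)
    intro y hy
    rcases mem_insert.1 hy with rfl | hy
    · exact ha
    · rw [mem_singleton.1 hy]; exact hb
  have := hmax B this
  omega

section Five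

variable {M : Finset V}

/-- outside paths with 2, 3 or 4 vertices between two vertices of a `K₄` give a 6-cycle -/
theorem five_path (h : MinCE 5 G) (hM : ∀ a ∈ M, ∀ b ∈ M, a ≠ b → G.Adj a b) (hc : M.card = 4)
    {a b : V} (ha : a ∈ M) (hb : b ∈ M) (hab : a ≠ b) {Q : List V} (hQ : IsPth G Q) (hQn : Q ≠ [])
    (hQM : ∀ y ∈ Q, y ∉ M) (h1 : G.Adj a (Q.head hQn)) (h2 : G.Adj (Q.getLast hQn) b)
    (hl1 : 2 ≤ Q.length) (hl2 : Q.length ≤ 4) : False :=
  h.free (hasCyc_of_clique_path hM ha hb hab hQ hQn hQM h1 h2 (by omega) (by omega))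

/-- touching balls at two vertices of `M` -/
theorem five_far (h : MinCE 5 G) (hM : ∀ a ∈ M, ∀ b ∈ M, a ≠ b → G.Adj a b) (hc : M.card = 4)
    {C : List V} (hMC : ∀ a ∈ M, a ∈ C) {I : Finset V} (hI : Indep G I) {a b x y : V}
    (ha : a ∈ M) (hb : b ∈ M) (hab : a ≠ b) (hx : x ∈ I) (hy : y ∈ I) (hxy : x ≠ y)
    (hxC : x ∉ C) (hyC : y ∉ C) (hax : G.Adj a x) (hby : G.Adj b y) {p q : V}
    (hp : p ∈ oball G C x) (hq : q ∈ oball G C y) : p ≠ q ∧ ¬ G.Adj p q := by
  rw [← not_or]
  intro hpq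
  obtain ⟨Q, hQn, hQ, hQC, hh, hl, hlen⟩ := touch_path hI hx hy hxy hxC hyC hp hq hpq
  refine five_path h hM hc ha hb hab hQ hQn (fun z hz hzM => hQC z hz (hMC z hzM)) ?_ ?_ (by omega)
    (by omega)
  · rw [hh]; exact hax
  · rw [hl]; exact hby.symm

/-- size of the ball when only one vertex of `C` is seen -/
theorem five_ball (h : MinCE 5 G)
    (hmax : ∀ K : Finset V, (∀ a ∈ K, ∀ b ∈ K, a ≠ b → G.Adj a b) → K.card ≤ 4)
    {C : List V} {c x : V} (hx : x ∉ C) (hcx : ∀ y ∈ C, G.Adj x y → y = c) :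
    ∃ J ⊆ oball G C x, Indep G J ∧ J.card = 2 := by
  apply exists_nonadj_pair hmax
  have h1 := h.card_nbC (indep_singleton x) (singleton_nonempty x)
  have h2 : nbC G {x} ⊆ insert c (oball G C x) := by
    intro y hy
    by_cases hyC : y ∈ C
    · rw [mem_nbC_singleton] at hy
      rcases hy with rfl | hy
      · exact absurd hyC hx
      · rw [hcx y hyC hy]; exact mem_insert_self _ _
    · apply mem_insert_of_mem
      rw [mem_oball]
      exact ⟨mem_nbC_singleton.1 hy, hyC⟩
  have h3 := (card_le_card h2).trans (card_insert_le _ _)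
  rw [card_singleton] at h1
  omega

theorem MinCE.five_aux (h : MinCE 5 G) (hM : ∀ a ∈ M, ∀ b ∈ M, a ≠ b → G.Adj a b)
    (hc : M.card = 4)
    (hmax : ∀ K : Finset V, (∀ a ∈ K, ∀ b ∈ K, a ≠ b → G.Adj a b) → K.card ≤ 4)
    {a b x : V} (ha : a ∈ M) (hb : b ∈ M) (hab : a ≠ b) (hxM : x ∉ M) (hax : G.Adj a x)
    (hbx : G.Adj b x) : False := by
  -- the other two vertices
  have hsub : ({a, b} : Finset V) ⊆ M := by
    intro y hy
    rcases mem_insert.1 hy with rfl | hy
    · exact ha
    · rw [mem_singleton.1 hy]; exact hb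
  have hcd : (M \ {a, b}).card = 2 := by
    have := card_sdiff_add_card_eq_card hsub
    rw [card_pair hab] at this
    omega
  obtain ⟨c, d, hcd', hMcd⟩ := card_eq_two.1 hcd
  have hcM : c ∈ M \ {a, b} := by rw [hMcd]; simp
  have hdM : d ∈ M \ {a, b} := by rw [hMcd]; simp
  simp only [mem_sdiff, mem_insert, mem_singleton, not_or] at hcM hdM
  obtain ⟨hcM, hca, hcb⟩ := hcM
  obtain ⟨hdM, hda, hdb⟩ := hdM
  have hMall : ∀ y ∈ M, y = a ∨ y = b ∨ y = c ∨ y = d := by
    intro y hy
    by_cases h1 : y = a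
    · exact Or.inl h1
    by_cases h2 : y = b
    · exact Or.inr (Or.inl h2)
    have : y ∈ M \ {a, b} := by simp [hy, h1, h2]
    rw [hMcd] at this
    simp only [mem_insert, mem_singleton] at this
    exact Or.inr (Or.inr this)
  have adj := fun u v hu hv huv => hM u hu v hv huv
  have hxa : x ≠ a := by rintro rfl; exact hxM ha
  have hxb : x ≠ b := by rintro rfl; exact hxM hb
  have hxc : x ≠ c := by rintro rfl; exact hxM hcM
  have hxd : x ≠ d := by rintro rfl; exact hxM hdM
  -- the cycle a x b c d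
  set C : List V := [a, x, b, c, d] with hC
  have hMC : ∀ y ∈ M, y ∈ C := by
    intro y hy
    rcases hMall y hy with rfl | rfl | rfl | rfl <;> simp [hC]
  have hCcard : C.toFinset.card ≤ 5 := by
    refine (List.toFinset_card_le _).trans ?_
    simp [hC]
  obtain ⟨I, hIS, hI, -, hdom⟩ := h.exists_indep_avoiding hCcard
  have hIC : ∀ y ∈ I, y ∉ C := by
    intro y hy hyC
    exact disjoint_left.1 hIS hy (List.mem_toFinset.2 hyC)
  have hnI : ∀ y ∈ C, y ∉ I := fun y hy hyI => hIC y hyI hy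
  obtain ⟨xa, hxaI, hxaA⟩ := hdom a (hnI a (by simp [hC]))
  obtain ⟨xc, hxcI, hxcA⟩ := hdom c (hnI c (by simp [hC]))
  obtain ⟨xd, hxdI, hxdA⟩ := hdom d (hnI d (by simp [hC]))
  obtain ⟨xx, hxxI, hxxA⟩ := hdom x (hnI x (by simp [hC]))
  -- forbidden common neighbours
  have key : ∀ y, y ∉ C → (G.Adj c y → G.Adj d y → False) ∧ (G.Adj a y → G.Adj c y → False) ∧
      (G.Adj a y → G.Adj d y → False) ∧ (G.Adj b y → G.Adj c y → False) ∧
      (G.Adj b y → G.Adj d y → False) ∧ (G.Adj x y → G.Adj c y → False) ∧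
      (G.Adj x y → G.Adj d y → False) ∧ (G.Adj x y → G.Adj a y → False) := by
    intro y hyC
    simp only [hC, List.mem_cons, List.not_mem_nil, or_false, not_or] at hyC
    obtain ⟨hya, hyx, hyb, hyc, hyd⟩ := hyC
    have hbase : [a, b, c, d, x, y].Nodup := by
      simp only [List.nodup_cons, List.mem_cons, List.not_mem_nil, or_false, not_or,
        not_false_eq_true, List.nodup_nil, and_true]
      exact ⟨⟨hab, Ne.symm hca, Ne.symm hda, Ne.symm hxa, Ne.symm hya⟩,
        ⟨Ne.symm hcb, Ne.symm hdb, Ne.symm hxb, Ne.symm hyb⟩,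
        ⟨hcd', Ne.symm hxc, Ne.symm hyc⟩, ⟨Ne.symm hxd, Ne.symm hyd⟩, Ne.symm hyx⟩
    have hN : ∀ P : List (Fin 6), P.Nodup → (P.map (fun i : Fin 6 => [a, b, c, d, x, y].get i)).Nodup :=
      fun P hP => hP.map (List.nodup_iff_injective_get.1 hbase)
    have ab := hM a ha b hb hab
    have ac := hM a ha c hcM (Ne.symm hca)
    have ad := hM a ha d hdM (Ne.symm hda)
    have bc := hM b hb c hcM (Ne.symm hcb)
    have bd := hM b hb d hdM (Ne.symm hdb)
    have cd := hM c hcM d hdM hcd'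
    refine ⟨fun h1 h2 => h.free ?_, fun h1 h2 => h.free ?_, fun h1 h2 => h.free ?_,
      fun h1 h2 => h.free ?_, fun h1 h2 => h.free ?_, fun h1 h2 => h.free ?_,
      fun h1 h2 => h.free ?_, fun h1 h2 => h.free ?_⟩
    · exact hasCyc_six (hN [0, 4, 1, 2, 5, 3] (by decide)) hax hbx.symm bc h1 h2.symm ad.symm
    · exact hasCyc_six (hN [0, 5, 2, 3, 1, 4] (by decide)) h1 h2.symm cd bd.symm hbx hax.symm
    · exact hasCyc_six (hN [0, 5, 3, 2, 1, 4] (by decide)) h1 h2.symm cd.symm bc.symm hbx hax.symm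
    · exact hasCyc_six (hN [1, 5, 2, 3, 0, 4] (by decide)) h1 h2.symm cd ad.symm hax hbx.symm
    · exact hasCyc_six (hN [1, 5, 3, 2, 0, 4] (by decide)) h1 h2.symm cd.symm ac.symm hax hbx.symm
    · exact hasCyc_six (hN [1, 4, 5, 2, 3, 0] (by decide)) hbx h1 h2.symm cd ad.symm ab
    · exact hasCyc_six (hN [1, 4, 5, 3, 2, 0] (by decide)) hbx h1 h2.symm cd.symm ac.symm ab
    · exact hasCyc_six (hN [1, 4, 5, 0, 2, 3] (by decide)) hbx h1 h2.symm ac cd bd.symm
  have hxaC := hIC xa hxaI
  have hxcC := hIC xc hxcI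
  have hxdC := hIC xd hxdI
  have hxxC := hIC xx hxxI
  have d1 : xc ≠ xd := by rintro rfl; exact (key _ hxcC).1 hxcA hxdA
  have d2 : xa ≠ xc := by rintro rfl; exact (key _ hxaC).2.1 hxaA hxcA
  have d3 : xa ≠ xd := by rintro rfl; exact (key _ hxaC).2.2.1 hxaA hxdA
  have d4 : xx ≠ xc := by rintro rfl; exact (key _ hxxC).2.2.2.2.2.1 hxxA hxcA
  have d5 : xx ≠ xd := by rintro rfl; exact (key _ hxxC).2.2.2.2.2.2.1 hxxA hxdA
  have d6 : xx ≠ xa := by rintro rfl; exact (key _ hxxC).2.2.2.2.2.2.2 hxxA hxaA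
  -- the two balls
  obtain ⟨Jc, hJc, hJcI, hJcc⟩ := five_ball h hmax (c := c) hxcC (by
    intro y hy hadj
    have hk := key _ hxcC
    simp only [hC, List.mem_cons, List.not_mem_nil, or_false] at hy
    rcases hy with rfl | rfl | rfl | rfl | rfl
    · exact absurd hxcA (fun h => hk.2.1 hadj.symm h)
    · exact absurd hxcA (fun h => hk.2.2.2.2.2.1 hadj.symm h)
    · exact absurd hxcA (fun h => hk.2.2.2.1 hadj.symm h)
    · rfl
    · exact absurd hxcA (fun h => hk.1 h hadj.symm))
  obtain ⟨Jd, hJd, hJdI, hJdc⟩ := five_ball h hmax (c := d) hxdC (by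
    intro y hy hadj
    have hk := key _ hxdC
    simp only [hC, List.mem_cons, List.not_mem_nil, or_false] at hy
    rcases hy with rfl | rfl | rfl | rfl | rfl
    · exact absurd hxdA (fun h => hk.2.2.1 hadj.symm h)
    · exact absurd hxdA (fun h => hk.2.2.2.2.2.2.1 hadj.symm h)
    · exact absurd hxdA (fun h => hk.2.2.2.2.1 hadj.symm h)
    · exact absurd hxdA (fun h => hk.1 hadj.symm h)
    · rfl)
  -- far facts
  have fcd : ∀ p ∈ Jc, ∀ q ∈ Jd, p ≠ q ∧ ¬ G.Adj p q := fun p hp q hq =>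
    five_far h hM hc hMC hI hcM hdM hcd' hxcI hxdI d1 hxcC hxdC hxcA hxdA (hJc hp) (hJd hq)
  have hxaB : xa ∈ oball G C xa := by rw [mem_oball]; exact ⟨Or.inl rfl, hxaC⟩
  have fca : ∀ p ∈ Jc, p ≠ xa ∧ ¬ G.Adj p xa := fun p hp =>
    five_far h hM hc hMC hI hcM ha hca hxcI hxaI d2.symm hxcC hxaC hxcA hxaA (hJc hp) hxaB
  have fda : ∀ p ∈ Jd, p ≠ xa ∧ ¬ G.Adj p xa := fun p hp =>
    five_far h hM hc hMC hI hdM ha hda hxdI hxaI d3.symm hxdC hxaC hxdA hxaA (hJd hp) hxaB
  -- the vertex xx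
  have fxx : ∀ (m xm : V), m ∈ M → m ≠ a → xm ∈ I → xm ∉ C → G.Adj m xm → xx ≠ xm →
      ∀ p ∈ oball G C xm, p ≠ xx ∧ ¬ G.Adj p xx := by
    intro m xm hm hma hxmI hxmC hmA hne p hp
    rw [mem_oball] at hp
    rcases hp.1 with rfl | hpA
    · exact ⟨hne.symm, hI _ hxmI _ hxxI⟩
    · have hpx : p ≠ xx := by
        rintro rfl
        exact hI _ hxmI _ hxxI hpA
      refine ⟨hpx, fun hadj => ?_⟩
      have hpC := hp.2
      have hQC : ∀ y ∈ [xm, p, xx, x], y ∉ M := by
        intro y hy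
        simp only [List.mem_cons, List.not_mem_nil, or_false] at hy
        rcases hy with rfl | rfl | rfl | rfl
        · exact fun h => hxmC (hMC _ h)
        · exact fun h => hpC (hMC _ h)
        · exact fun h => hxxC (hMC _ h)
        · exact hxM
      have hxC : ∀ y, y ∉ C → y ≠ x := by
        rintro y hy rfl
        exact hy (by simp [hC])
      refine five_path h hM hc (Q := [xm, p, xx, x]) hm ha hma ⟨?_, ?_⟩ (by simp) hQC
        (by simpa using hmA) (by simpa using hax.symm) (by simp) (by simp)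
      · simp only [List.nodup_cons, List.mem_cons, List.not_mem_nil, or_false, not_or,
          not_false_eq_true, List.nodup_nil, and_true]
        exact ⟨⟨hpA.ne, hne.symm, hxC _ hxmC⟩, ⟨hpx, hxC _ hpC⟩, hxC _ hxxC⟩
      · simp only [List.isChain_cons_cons, List.isChain_singleton, and_true]
        exact ⟨hpA, hadj, hxxA.symm⟩
  have fcx := fun p (hp : p ∈ Jc) => fxx c xc hcM hca hxcI hxcC hxcA d4 p (hJc hp)
  have fdx := fun p (hp : p ∈ Jd) => fxx d xd hdM hda hxdI hxdC hxdA d5 p (hJd hp)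
  -- the independent set
  have hI2 : Indep G ({xa, xx} : Finset V) := indep_pair (hI _ hxaI _ hxxI)
  have hI4 : Indep G (Jc ∪ Jd) := hJcI.union hJdI (fun p hp q hq => (fcd p hp q hq).2)
  have hI6 : Indep G ((Jc ∪ Jd) ∪ {xa, xx}) := by
    refine hI4.union hI2 ?_
    intro p hp q hq
    rcases mem_insert.1 hq with rfl | hq
    · rcases mem_union.1 hp with hp | hp
      · exact (fca p hp).2
      · exact (fda p hp).2
    · rw [mem_singleton] at hq
      subst hq
      rcases mem_union.1 hp with hp | hp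
      · exact (fcx p hp).2
      · exact (fdx p hp).2
  have hcard : ((Jc ∪ Jd) ∪ {xa, xx}).card = 6 := by
    rw [card_union_of_disjoint, card_union_of_disjoint, hJcc, hJdc, card_pair d6.symm]
    · rw [disjoint_left]
      intro p hp hq
      exact (fcd p hp p hq).1 rfl
    · rw [disjoint_left]
      intro p hp hq
      rcases mem_insert.1 hq with rfl | hq
      · rcases mem_union.1 hp with hp | hp
        · exact (fca p hp).1 rfl
        · exact (fda p hp).1 rfl
      · rw [mem_singleton] at hq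
        subst hq
        rcases mem_union.1 hp with hp | hp
        · exact (fcx p hp).1 rfl
        · exact (fdx p hp).1 rfl
  have := h.card_indep_le hI6
  omega

/-- `k = 5`, `ω = 4`. -/
theorem MinCE.no_five_four (h : MinCE 5 G) (hM : ∀ a ∈ M, ∀ b ∈ M, a ≠ b → G.Adj a b)
    (hc : M.card = 4)
    (hmax : ∀ K : Finset V, (∀ a ∈ K, ∀ b ∈ K, a ≠ b → G.Adj a b) → K.card ≤ 4) : False := by
  by_cases hex : ∃ a ∈ M, ∃ b ∈ M, a ≠ b ∧ ∃ x, x ∉ M ∧ G.Adj a x ∧ G.Adj b x
  · obtain ⟨a, ha, b, hb, hab, x, hx, hax, hbx⟩ := hex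
    exact h.five_aux hM hc hmax ha hb hab hx hax hbx
  · push Not at hex
    obtain ⟨I, hIS, hI, -, hdom⟩ := h.exists_indep_avoiding (S := M) (by omega)
    have hIM : ∀ y ∈ I, y ∉ M := fun y hy hyM => disjoint_left.1 hIS hy hyM
    have hnI : ∀ y ∈ M, y ∉ I := fun y hy hyI => hIM y hyI hy
    choose! f hfI hfA using fun y (hy : y ∈ M) => hdom y (hnI y hy)
    have hfM : ∀ y ∈ M, f y ∉ M.toList := fun y hy h => hIM _ (hfI y hy) (by simpa using h)
    have hMC : ∀ y ∈ M, y ∈ M.toList := fun y hy => by simpa using hy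
    have hne : ∀ y ∈ M, ∀ z ∈ M, y ≠ z → f y ≠ f z := by
      intro y hy z hz hyz hf
      refine hex y hy z hz hyz (f y) (hIM _ (hfI y hy)) (hfA y hy) ?_
      rw [hf]; exact hfA z hz
    have hball : ∀ y ∈ M, ∃ J ⊆ oball G M.toList (f y), Indep G J ∧ J.card = 2 := by
      intro y hy
      refine five_ball h hmax (c := y) (hfM y hy) ?_
      intro z hz hadj
      by_contra hzy
      have hz' : z ∈ M := by simpa using hz
      exact hex y hy z hz' (fun h => hzy h.symm) (f y) (hIM _ (hfI y hy)) (hfA y hy) hadj.symm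
    choose! J hJs hJI hJc using hball
    have := sum_card_le_alp (G := G) M J univ (fun _ _ => subset_univ _) hJI (by
      intro y hy z hz hyz p hp q hq
      exact five_far h hM hc hMC hI hy hz hyz (hfI y hy) (hfI z hz) (hne y hy z hz hyz)
        (hfM y hy) (hfM z hz) (hfA y hy) (hfA z hz) (hJs y hy hp) (hJs z hz hq))
    rw [sum_congr rfl hJc, sum_const, hc] at this
    have h2 := h.alp_le
    simp at this
    omega

end Five

end Crest.Agent.R054
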