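import Mathlib
import Crest.Agent.R054.Layers

/-!
R054, Theorem B: there is no minimal counterexample `G` (`MinCE k G`, `6 ≤ k`) in which every clique
has at most `k/2` vertices.
-/

set_option autoImplicit false

open Finset

namespace Crest.Agent.R054

universe u

variable {V : Type u} [Fintype V] {G : SimpleGraph V}

/-- Growth inequality: if `2|L_{j+1}| ≤ c j * alp L_{j+1}` for `j ≤ i` with `c j ≤ C`, then
`2 k a_i + 1·(gain) ≤ C (a_{i+1} + a_i - 1)`. -/
theorem MinCE.growth [DecidableEq V] {k : ℕ} (h : MinCE k G) (v : V) (C g : ℕ) (i : ℕ)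
    (hL : 2 * ∑ j ∈ range (i + 1), (lay G v (j + 1)).card + g ≤
      C * ∑ j ∈ range (i + 1), alp G (lay G v (j + 1))) :
    2 * k * alp G (ball G v i) + g + C ≤ C * (alp G (ball G v (i + 1)) + alp G (ball G v i)) := by
  have h1 := h.card_ball_succ v i
  have h2 := card_ball (G := G) v (i + 1)
  have h3 := alp_ball_add (G := G) v i
  have h4 : C * (1 + ∑ j ∈ range (i + 1), alp G (lay G v (j + 1))) ≤
      C * (alp G (ball G v (i + 1)) + alp G (ball G v i)) := Nat.mul_le_mul_left C h3
  rw [Nat.mul_add C 1] at h4
  have h5 : 2 * k * alp G (ball G v i) = 2 * (k * alp G (ball G v i)) := by ring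
  omega

theorem sum_layers_le {v : V} [DecidableEq V] {C : ℕ} {n : ℕ}
    (hL : ∀ j < n, 2 * (lay G v (j + 1)).card ≤ C * alp G (lay G v (j + 1))) :
    2 * ∑ j ∈ range n, (lay G v (j + 1)).card ≤ C * ∑ j ∈ range n, alp G (lay G v (j + 1)) := by
  rw [mul_sum, mul_sum]
  exact sum_le_sum fun j hj => hL j (mem_range.1 hj)

/-- A clique inside the neighbourhood of `v` extends by `v`. -/
theorem clique_lay_one [DecidableEq V] {v : V} {Q : Finset V} (hQ : Q ⊆ lay G v 1)
    (hcl : ∀ a ∈ Q, ∀ b ∈ Q, a ≠ b → G.Adj a b) :
    (∀ a ∈ insert v Q, ∀ b ∈ insert v Q, a ≠ b → G.Adj a b) ∧ (insert v Q).card = Q.card + 1 := by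
  have hv : v ∉ Q := fun hv => G.loopless.irrefl _ (mem_lay_one.1 (hQ hv))
  refine ⟨?_, card_insert_of_notMem hv⟩
  intro a ha b hb hab
  rcases mem_insert.1 ha with ha | ha <;> rcases mem_insert.1 hb with hb | hb
  · exact absurd (ha.trans hb.symm) hab
  · rw [ha]; exact mem_lay_one.1 (hQ hb)
  · rw [hb]; exact (mem_lay_one.1 (hQ ha)).symm
  · exact hcl a ha b hb hab

/-- Theorem B. -/
theorem MinCE.thmB {k : ℕ} (h : MinCE k G) (hk : 6 ≤ k)
    (hcl : ∀ Q : Finset V, (∀ a ∈ Q, ∀ b ∈ Q, a ≠ b → G.Adj a b) → 2 * Q.card ≤ k) : False := by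
  classical
  have hV : 0 < Fintype.card V := by rw [h.card_eq]; omega
  obtain ⟨v⟩ : Nonempty V := Fintype.card_pos_iff.1 hV
  have ha0 : alp G (ball G v 0) = 1 := by rw [ball_zero, alp_singleton]
  have htop : ∀ i, alp G (ball G v i) ≤ k := fun i => (alp_mono (subset_univ _)).trans h.alp_le
  -- first layer, threshold `k - 1`
  have hL1 : 2 * (lay G v 1).card ≤ (k - 1) * alp G (lay G v 1) := by
    refine layer1_bound (k := k) (c := k - 1) (by omega) (by omega) (by omega) h.free subset_rfl ?_
    intro Q hQ hQc
    obtain ⟨h1, h2⟩ := clique_lay_one hQ hQc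
    have h3 := hcl _ h1
    rw [h2] at h3
    omega
  rcases Nat.even_or_odd k with hev | hodd
  · -- `k` even
    obtain ⟨s, hs⟩ := hev
    have hl1 : 1 ≤ alp G (lay G v 1) := by
      apply alp_pos
      rw [← card_pos]
      have h1 := h.card_ball_succ v 0
      rw [ha0] at h1
      have h2 := card_ball (G := G) v 1
      simp only [zero_add, range_one, sum_singleton] at h1 h2
      omega
    have hstep : ∀ i, i + 1 ≤ s → alp G (ball G v i) + 2 ≤ alp G (ball G v (i + 1)) := by
      intro i hi
      have hsum : 2 * ∑ j ∈ range (i + 1), (lay G v (j + 1)).card + 1 ≤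
          k * ∑ j ∈ range (i + 1), alp G (lay G v (j + 1)) := by
        rw [sum_range_succ', sum_range_succ']
        have h1 : 2 * ∑ j ∈ range i, (lay G v (j + 1 + 1)).card ≤
            k * ∑ j ∈ range i, alp G (lay G v (j + 1 + 1)) := by
          rw [mul_sum, mul_sum]
          apply sum_le_sum
          intro j hj
          rw [mem_range] at hj
          exact layer_bound (k := k) hk (by omega) h.free (i := j + 1 + 1) (by omega) (by omega)
            subset_rfl (fun Q _ hQ => hcl Q hQ)
        have h2 : (k - 1) * alp G (lay G v 1) + alp G (lay G v 1) = k * alp G (lay G v 1) := by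
          obtain ⟨m, rfl⟩ : ∃ m, k = m + 1 := ⟨k - 1, by omega⟩
          simp; ring
        simp only [zero_add, mul_add]
        omega
      have hg := h.growth v k 1 i hsum
      have h3 : 2 * k * alp G (ball G v i) = k * alp G (ball G v i) + k * alp G (ball G v i) := by
        ring
      rw [h3, Nat.mul_add k] at hg
      have h4 : k * (alp G (ball G v i) + 1) < k * alp G (ball G v (i + 1)) := by
        rw [Nat.mul_add]; omega
      have := lt_of_mul_lt_mul_left h4 (Nat.zero_le k)
      omega
    have hind : ∀ i, i ≤ s → 2 * i + 1 ≤ alp G (ball G v i) := by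
      intro i
      induction i with
      | zero => intro _; omega
      | succ i ih =>
        intro hi
        have h1 := ih (by omega)
        have h2 := hstep i (by omega)
        omega
    have h1 := hind s le_rfl
    have h2 := htop s
    omega
  · -- `k` odd
    obtain ⟨s, hs⟩ := hodd
    have hs3 : 3 ≤ s := by omega
    have hstep : ∀ i, i + 1 ≤ s →
        (s + 1) * alp G (ball G v i) + s ≤ s * alp G (ball G v (i + 1)) := by
      intro i hi
      have hsum : 2 * ∑ j ∈ range (i + 1), (lay G v (j + 1)).card + 0 ≤
          (2 * s) * ∑ j ∈ range (i + 1), alp G (lay G v (j + 1)) := by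
        rw [add_zero]
        apply sum_layers_le
        intro j hj
        refine layer_bound (k := k) (by omega) (by omega) h.free (i := j + 1) (by omega) (by omega)
          subset_rfl (fun Q _ hQ => ?_)
        have := hcl Q hQ
        omega
      have hg := h.growth v (2 * s) 0 i hsum
      rw [hs] at hg
      have e1 : 2 * (2 * s + 1) * alp G (ball G v i) =
          2 * ((s + 1) * alp G (ball G v i)) + 2 * (s * alp G (ball G v i)) := by ring
      have e2 : 2 * s * (alp G (ball G v (i + 1)) + alp G (ball G v i)) =
          2 * (s * alp G (ball G v (i + 1))) + 2 * (s * alp G (ball G v i)) := by ring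
      rw [e1, e2] at hg
      omega
    have hind : ∀ i, i ≤ s → 2 * i + 1 ≤ alp G (ball G v i) := by
      intro i
      induction i with
      | zero => intro _; omega
      | succ i ih =>
        intro hi
        have h1 := ih (by omega)
        have h2 := hstep i (by omega)
        have h3 : s * (alp G (ball G v i) + 1) < s * alp G (ball G v (i + 1)) := by
          have : (s + 1) * alp G (ball G v i) = s * alp G (ball G v i) + alp G (ball G v i) := by
            ring
          rw [Nat.mul_add]
          omega
        have := lt_of_mul_lt_mul_left h3 (Nat.zero_le s)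
        omega
    -- last step gains three
    have h1 := hind (s - 1) (by omega)
    have h2 := hstep (s - 1) (by omega)
    rw [show s - 1 + 1 = s by omega] at h2
    have h3 : s * (alp G (ball G v (s - 1)) + 2) < s * alp G (ball G v s) := by
      have : (s + 1) * alp G (ball G v (s - 1)) =
          s * alp G (ball G v (s - 1)) + alp G (ball G v (s - 1)) := by ring
      rw [Nat.mul_add]
      omega
    have h4 := lt_of_mul_lt_mul_left h3 (Nat.zero_le s)
    have h5 := htop s
    omega

end Crest.Agent.R054
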