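import Mathlib
import Crest.Agent.R054.Layers
import Crest.Agent.R054.ThmB

/-!
R054: cliques in layers; the case `k = 6`, `omega ≤ 4`.
-/

set_option autoImplicit false
set_option linter.unusedSectionVars false

open Finset

namespace Crest.Agent.R054

universe u

variable {V : Type u} [Fintype V] [DecidableEq V] {G : SimpleGraph V}

/-- Paths of prescribed length between two vertices of a clique. -/
theorem clique_path {Q : Finset V} (hQ : ∀ a ∈ Q, ∀ b ∈ Q, a ≠ b → G.Adj a b) {x y : V}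
    (hx : x ∈ Q) (hy : y ∈ Q) (hxy : x ≠ y) {m : ℕ} (hm : 2 ≤ m) (hmQ : m ≤ Q.card) :
    ∃ P : List V, IsPth G P ∧ P.length = m ∧ (∀ z ∈ P, z ∈ Q) ∧ P.head? = some x ∧
      P.getLast? = some y := by
  have hcard : m - 2 ≤ ((Q.erase x).erase y).card := by
    rw [card_erase_of_mem (mem_erase.2 ⟨hxy.symm, hy⟩), card_erase_of_mem hx]
    omega
  obtain ⟨F, hF, hFc⟩ := exists_subset_card_eq hcard
  have hFx : x ∉ F := fun h => by simpa using hF h
  have hFy : y ∉ F := fun h => by simpa using hF h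
  have hFQ : ∀ z ∈ F, z ∈ Q := fun z hz => by
    have := hF hz
    simp only [mem_erase] at this
    exact this.2.2
  have hnd : (x :: (F.toList ++ [y])).Nodup := by
    rw [List.nodup_cons, List.nodup_append']
    refine ⟨?_, nodup_toList F, List.nodup_singleton y, ?_⟩
    · simp [hFx, hxy]
    · intro z hz hz'
      rw [List.mem_singleton] at hz'
      subst hz'
      exact hFy (mem_toList.1 hz)
  have hmem : ∀ z ∈ x :: (F.toList ++ [y]), z ∈ Q := by
    intro z hz
    rcases List.mem_cons.1 hz with rfl | hz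
    · exact hx
    · rcases List.mem_append.1 hz with hz | hz
      · exact hFQ z (mem_toList.1 hz)
      · rw [List.mem_singleton] at hz; subst hz; exact hy
  refine ⟨x :: (F.toList ++ [y]), ⟨hnd, ?_⟩, ?_, hmem, rfl, ?_⟩
  · rw [List.isChain_iff_getElem]
    intro i hi
    apply hQ _ (hmem _ (List.getElem_mem _)) _ (hmem _ (List.getElem_mem _))
    intro heq
    have := (List.Nodup.getElem_inj_iff hnd).1 heq
    omega
  · simp only [List.length_cons, List.length_append, length_toList, hFc, List.length_nil]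
    omega
  · rw [List.getLast?_cons_of_ne_nil (by simp), List.getLast?_append_of_ne_nil _ (by simp)]
    rfl

/-- The lowest common ancestor of a clique of a layer is one level up, or high. -/
theorem clique_lca {k : ℕ} (hfree : ¬ HasCyc G (k + 1)) {v : V} {par : V → V}
    (hpar : IsPar G v par) {i : ℕ} (hik : 2 * i ≤ k) {Q : Finset V} (hQ : Q ⊆ lay G v i)
    (hcl : ∀ a ∈ Q, ∀ b ∈ Q, a ≠ b → G.Adj a b) {x y : V} (hx : x ∈ Q) (hy : y ∈ Q) {s : ℕ}
    (hs1 : 1 ≤ s) (hsi : s ≤ i) (hs : par^[s] x = par^[s] y)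
    (hs' : par^[s - 1] x ≠ par^[s - 1] y) : Q.card < k + 2 - 2 * s := by
  by_contra hcon
  push Not at hcon
  have hxy : x ≠ y := by rintro rfl; exact hs' rfl
  obtain ⟨P, hP, hPl, hPQ, hPx, hPy⟩ := clique_path hcl hx hy hxy (m := k + 2 - 2 * s) (by omega) hcon
  exact hfree (hpar.close (hQ hx) (hQ hy) hs1 hsi hs hs' hP (fun z hz => hQ (hPQ z hz)) hPx hPy
    (by omega) (by omega))

/-- If a clique `Q` of a layer is maximum, its LCA is at least two levels up. -/
theorem clique_lca_two {v : V} {par : V → V}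
    (hpar : IsPar G v par) {i w : ℕ} (hi : 1 ≤ i) {Q : Finset V} (hQ : Q ⊆ lay G v i)
    (hcl : ∀ a ∈ Q, ∀ b ∈ Q, a ≠ b → G.Adj a b)
    (hw : ∀ Q : Finset V, (∀ a ∈ Q, ∀ b ∈ Q, a ≠ b → G.Adj a b) → Q.card ≤ w)
    (hQw : Q.card = w) (h2 : 2 ≤ w) :
    ∃ s, 2 ≤ s ∧ s ≤ i ∧ ∃ x ∈ Q, ∃ y ∈ Q, par^[s] x = par^[s] y ∧
      par^[s - 1] x ≠ par^[s - 1] y := by
  obtain ⟨x0, hx0, y0, hy0, hne⟩ := one_lt_card.1 (show 1 < Q.card by omega)
  obtain ⟨s, hs1, hsi, hs, x, hx, y, hy, hxy⟩ := hpar.exists_lca hQ hx0 hy0 hne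
  refine ⟨s, ?_, hsi, x, hx, y, hy, hs x hx y hy, hxy⟩
  by_contra hcon
  have hs1' : s = 1 := by omega
  subst hs1'
  have hpadj : ∀ z ∈ Q, G.Adj (par x0) z := by
    intro z hz
    have h1 := hs x0 hx0 z hz
    simp only [Function.iterate_one] at h1
    rw [h1]
    have := hpar.iter_adj (hQ hz) (t := 0) (by omega)
    simpa using this
  have hnot : par x0 ∉ Q := fun h => G.loopless.irrefl _ (hpadj _ h)
  have := hw (insert (par x0) Q) (by
    intro a ha b hb hab
    rcases mem_insert.1 ha with ha | ha <;> rcases mem_insert.1 hb with hb | hb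
    · exact absurd (ha.trans hb.symm) hab
    · rw [ha]; exact hpadj b hb
    · rw [hb]; exact (hpadj a ha).symm
    · exact hcl a ha b hb hab)
  rw [card_insert_of_notMem hnot] at this
  omega

/-- Longest path lemma. -/
theorem exists_long_path {K : Finset V} {n : ℕ}
    (hconn : ∀ A ⊆ K, A.Nonempty → A ≠ K → ∃ x ∈ A, ∃ y ∈ K, y ∉ A ∧ G.Adj x y)
    (hnb : ∀ y ∈ K, ∀ y' ∈ K, y ≠ y' → ¬ G.Adj y y' → n ≤ (nbZ G K {y, y'}).card)
    (hn : n ≤ K.card) :
    ∃ L : List V, IsPth G L ∧ (∀ x ∈ L, x ∈ K) ∧ n ≤ L.length := by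
  classical
  let P : ℕ → Prop := fun n => ∃ L : List V, IsPth G L ∧ (∀ x ∈ L, x ∈ K) ∧ L.length = n
  have hPbd : ∀ L : List V, IsPth G L → (∀ x ∈ L, x ∈ K) → L.length ≤ K.card := by
    intro L hL hLZ
    rw [← List.toFinset_card_of_nodup hL.1]
    apply card_le_card
    intro x hx
    exact hLZ x (List.mem_toFinset.1 hx)
  have hP0 : P 0 := ⟨[], isPth_nil, by simp, rfl⟩
  obtain ⟨n0, hn0, hn0max⟩ : ∃ n, P n ∧ ∀ m, P m → m ≤ n := by
    refine ⟨Nat.findGreatest P K.card, ?_, ?_⟩
    · exact Nat.findGreatest_spec (P := P) (Nat.zero_le _) hP0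
    · intro m hm
      apply Nat.le_findGreatest _ hm
      obtain ⟨L, hL, hLZ, hLm⟩ := hm
      rw [← hLm]; exact hPbd L hL hLZ
  obtain ⟨L, hL, hLK, hLn⟩ := hn0
  refine ⟨L, hL, hLK, ?_⟩
  by_contra hcon
  push Not at hcon
  -- extension at the head is impossible
  have hext : ∀ L : List V, IsPth G L → (∀ x ∈ L, x ∈ K) → L.length = n0 → ∀ a, L.head? = some a →
      ∀ z ∈ K, G.Adj a z → z ∈ L := by
    intro L hL hLZ hLn a ha z hz haz
    by_contra hzL
    have hpath : IsPth G (z :: L) := by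
      refine ⟨List.nodup_cons.2 ⟨hzL, hL.1⟩, ?_⟩
      match L, hL, ha with
      | b :: L, hL, ha =>
        simp only [List.head?_cons, Option.some.injEq] at ha
        subst ha
        exact List.isChain_cons_cons.2 ⟨haz.symm, hL.2⟩
    have := hn0max (n0 + 1) ⟨z :: L, hpath, by
      intro x hx
      rcases List.mem_cons.1 hx with rfl | hx
      · exact hz
      · exact hLZ x hx, by simp [hLn]⟩
    omega
  have hKne : K.Nonempty := by rw [← card_pos]; omega
  have hn01 : 1 ≤ n0 := by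
    obtain ⟨z, hz⟩ := hKne
    exact hn0max 1 ⟨[z], isPth_singleton z, by simpa using hz, rfl⟩
  have hLne : L ≠ [] := by rintro rfl; simp at hLn; omega
  have hLcard : L.toFinset.card = n0 := by
    rw [List.toFinset_card_of_nodup hL.1, hLn]
  have hLsub : L.toFinset ⊆ K := fun x hx => hLK x (List.mem_toFinset.1 hx)
  have hha : L.head? = some (L.head hLne) := List.head?_eq_some_head hLne
  have hlb : L.getLast? = some (L.getLast hLne) := List.getLast?_eq_getLast_of_ne_nil hLne
  have hrb : L.reverse.head? = some (L.getLast hLne) := by rw [List.head?_reverse, hlb]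
  have haK : L.head hLne ∈ K := hLK _ (List.head_mem hLne)
  have hbK : L.getLast hLne ∈ K := hLK _ (List.getLast_mem hLne)
  have hcl_a : ∀ z ∈ K, G.Adj (L.head hLne) z → z ∈ L := hext L hL hLK hLn _ hha
  have hcl_b : ∀ z ∈ K, G.Adj (L.getLast hLne) z → z ∈ L := fun z hz hbz =>
    List.mem_reverse.1 (hext L.reverse hL.reverse (fun x hx => hLK x (List.mem_reverse.1 hx))
      (by rw [List.length_reverse, hLn]) _ hrb z hz hbz)
  obtain ⟨x, hx, y, hyK, hyL, hxy⟩ := hconn L.toFinset hLsub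
    ⟨_, List.mem_toFinset.2 (List.head_mem hLne)⟩ (by
      intro heq; rw [heq] at hLcard; omega)
  rw [List.mem_toFinset] at hx hyL
  by_cases hab : L.head hLne = L.getLast hLne
  · -- single vertex path
    have hlen1 : n0 = 1 := by
      match L, hLne, hL, hab with
      | [a], _, _, _ => simpa using hLn.symm
      | a :: b :: l, h1, h2, hab =>
        exfalso
        rw [List.head_cons, List.getLast_cons (by simp)] at hab
        have := (List.nodup_cons.1 h2.1).1
        exact this (by rw [hab]; exact List.getLast_mem _)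
    have hxa : x = L.head hLne := by
      match L, hLne, hLn, hx with
      | [a], _, _, hx => simpa using hx
      | a :: b :: l, _, hLn, _ => simp at hLn; omega
    subst hxa
    exact hyL (hcl_a y hyK hxy)
  · by_cases hadj : G.Adj (L.head hLne) (L.getLast hLne)
    · -- the path closes to a cycle; rotate
      have hcyc : IsCyc G L := by
        refine ⟨hL.1, hL.2, ?_⟩
        intro p hp q hq
        rw [hlb] at hp
        rw [hha] at hq
        simp only [Option.mem_def, Option.some.injEq] at hp hq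
        subst hp; subst hq; exact hadj.symm
      obtain ⟨L1, L2, rfl⟩ := List.append_of_mem hx
      have hr : IsCyc G ((x :: L2) ++ L1) := hcyc.rotate_append
      have hmem : ∀ z, z ∈ (x :: L2) ++ L1 ↔ z ∈ L1 ++ x :: L2 := by
        intro z; simp only [List.mem_append, List.mem_cons]; tauto
      have := hext ((x :: L2) ++ L1) hr.isPth (fun z hz => hLK z ((hmem z).1 hz)) (by
        rw [List.length_append, add_comm, ← List.length_append]; exact hLn) x rfl y hyK hxy
      exact hyL ((hmem y).1 this)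
    · have h1 := hnb _ haK _ hbK hab hadj
      have h2 : nbZ G K {L.head hLne, L.getLast hLne} ⊆ L.toFinset := by
        intro z hz
        rw [List.mem_toFinset]
        rw [mem_nbZ] at hz
        obtain ⟨hzK, hz | ⟨w, hw, hwz⟩⟩ := hz
        · rcases mem_insert.1 hz with rfl | hz
          · exact List.head_mem hLne
          · rw [mem_singleton] at hz; rw [hz]; exact List.getLast_mem hLne
        · rcases mem_insert.1 hw with rfl | hw
          · exact hcl_a z hzK hwz
          · rw [mem_singleton] at hw; subst hw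
            exact hcl_b z hzK hwz
      have h3 := card_le_card h2
      omega

/-- A path with `k` vertices in the neighbourhood of `v` gives a `C_{k+1}`. -/
theorem hasCyc_of_path_lay_one {k : ℕ} (hk : 2 ≤ k) {v : V} {L : List V} (hL : IsPth G L)
    (hLv : ∀ x ∈ L, G.Adj v x) (hk' : k ≤ L.length) : HasCyc G (k + 1) := by
  have hp : IsPth G (L.take k) := hL.take k
  have hlen : (L.take k).length = k := by rw [List.length_take]; omega
  have hpn : L.take k ≠ [] := by
    intro h0; rw [h0] at hlen; simp at hlen; omega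
  have hadj : ∀ x ∈ L.take k, G.Adj v x := fun x hx => hLv x (List.mem_of_mem_take hx)
  refine (hp.close (isPth_singleton v) hpn (by simp) ?_ ?_ ?_).hasCyc' (by simp [hlen]) (by omega)
  · intro x hx hx'
    rw [List.mem_singleton] at hx'
    subst hx'
    exact G.loopless.irrefl _ (hadj _ hx)
  · simpa using (hadj _ (List.getLast_mem hpn)).symm
  · simpa using hadj _ (List.head_mem hpn)

/-- If all subsets of `Z ⊆ N(v)` satisfy `|Y| ≤ s·alp Y` with equality for `Z`, and `2 s ≥ k`, then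
`Z` is a disjoint union of cliques of size `s`. -/
theorem extremal_nbhd {k s : ℕ} (hk : 2 ≤ k) (hks : k ≤ 2 * s) (hfree : ¬ HasCyc G (k + 1)) {v : V}
    {Z : Finset V} (hZ : ∀ x ∈ Z, G.Adj v x)
    (hall : ∀ Y ⊆ Z, Y.card ≤ s * alp G Y) (heq : s * alp G Z ≤ Z.card) {x : V} (hx : x ∈ Z) :
    ∃ K ⊆ Z, x ∈ K ∧ K.card = s ∧ (∀ a ∈ K, ∀ b ∈ K, a ≠ b → G.Adj a b) ∧ NoAdj G K (Z \ K) := by
  classical
  -- component of `x`
  obtain ⟨K, ⟨hKZ, hxK, hKno⟩, hKmin⟩ : ∃ K, (K ⊆ Z ∧ x ∈ K ∧ NoAdj G K (Z \ K)) ∧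
      ∀ K', (K' ⊆ Z ∧ x ∈ K' ∧ NoAdj G K' (Z \ K')) → K.card ≤ K'.card := by
    have hne : ((Z.powerset).filter (fun K => x ∈ K ∧ NoAdj G K (Z \ K))).Nonempty := by
      refine ⟨Z, mem_filter.2 ⟨mem_powerset.2 subset_rfl, hx, ?_⟩⟩
      intro a _ b hb
      simp at hb
    obtain ⟨K, hK, hmin⟩ := exists_min_image _ card hne
    rw [mem_filter, mem_powerset] at hK
    refine ⟨K, hK, fun K' hK' => hmin K' (mem_filter.2 ⟨mem_powerset.2 hK'.1, hK'.2⟩)⟩
  have hconn : ∀ A ⊆ K, A.Nonempty → A ≠ K → ∃ x ∈ A, ∃ y ∈ K, y ∉ A ∧ G.Adj x y := by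
    intro A hA hne hAK
    by_contra hcon
    push Not at hcon
    by_cases hxA : x ∈ A
    · have := hKmin A ⟨hA.trans hKZ, hxA, by
        intro a ha b hb
        rw [mem_sdiff] at hb
        by_cases hbK : b ∈ K
        · exact hcon a ha b hbK hb.2
        · exact hKno a (hA ha) b (mem_sdiff.2 ⟨hb.1, hbK⟩)⟩
      exact hAK (eq_of_subset_of_card_le hA this)
    · have := hKmin (K \ A) ⟨sdiff_subset.trans hKZ, mem_sdiff.2 ⟨hxK, hxA⟩, by
        intro a ha b hb
        rw [mem_sdiff] at ha hb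
        by_cases hbK : b ∈ K
        · have hbA : b ∈ A := by
            by_contra hbA
            exact hb.2 (mem_sdiff.2 ⟨hbK, hbA⟩)
          exact fun hab => hcon b hbA a ha.1 ha.2 hab.symm
        · exact hKno a ha.1 b (mem_sdiff.2 ⟨hb.1, hbK⟩)⟩
      have h2 := card_sdiff_add_card_eq_card hA
      have h3 := card_pos.2 hne
      omega
  -- `|K| = s · alp K`
  have hKeq : s * alp G K ≤ K.card := by
    have h1 := hall K hKZ
    have h2 := hall (Z \ K) sdiff_subset
    have h3 : alp G K + alp G (Z \ K) ≤ alp G Z := by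
      have := alp_add_le (G := G) (A := K) (B := Z \ K) disjoint_sdiff hKno
      rwa [union_sdiff_of_subset hKZ] at this
    have h4 := card_sdiff_add_card_eq_card hKZ
    have h5 : s * alp G K + s * alp G (Z \ K) ≤ s * alp G Z := by
      rw [← mul_add]; exact Nat.mul_le_mul_left s h3
    omega
  have hal1 : 1 ≤ alp G K := alp_pos ⟨x, hxK⟩
  rcases Nat.lt_or_ge 1 (alp G K) with h2 | h2
  · exfalso
    obtain ⟨L, hL, hLK, hLl⟩ := exists_long_path (G := G) (K := K) (n := 2 * s) hconn (by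
      intro y hy y' hy' hne hnadj
      have h3 := alp_sdiff_nbZ (Z := K) (indep_pair hnadj) (by
        intro z hz
        rcases mem_insert.1 hz with rfl | hz
        · exact hy
        · rw [mem_singleton] at hz; subst hz; exact hy')
      rw [card_pair hne] at h3
      have h4 := hall (K \ nbZ G K {y, y'}) (sdiff_subset.trans hKZ)
      have h5 : s * alp G (K \ nbZ G K {y, y'}) + s * 2 ≤ s * alp G K := by
        rw [← mul_add]; exact Nat.mul_le_mul_left s h3
      have h6 : (K \ nbZ G K {y, y'}).card + (nbZ G K {y, y'}).card = K.card :=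
        card_sdiff_add_card_eq_card (fun z hz => (mem_nbZ.1 hz).1)
      omega) (by
      have : s * 2 ≤ s * alp G K := Nat.mul_le_mul_left s h2
      omega)
    exact hfree (hasCyc_of_path_lay_one hk hL (fun x hx => hZ x (hKZ (hLK x hx))) (by omega))
  · refine ⟨K, hKZ, hxK, ?_, fun a ha b hb hab => adj_of_alp_le_one h2 ha hb hab, hKno⟩
    have h3 := hall K hKZ
    have h4 : alp G K = 1 := by omega
    rw [h4] at h3 hKeq
    omega

/-- The case `k = 6`, `omega ≤ 4`. -/
theorem no_minCE_six (h : MinCE 6 G)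
    (hcl : ∀ Q : Finset V, (∀ a ∈ Q, ∀ b ∈ Q, a ≠ b → G.Adj a b) → Q.card ≤ 4) : False := by
  classical
  have htop : ∀ v i, alp G (ball G v i) ≤ 6 := fun v i => (alp_mono (subset_univ _)).trans h.alp_le
  -- no `K_4` in a layer
  have hlay : ∀ (v : V) (i : ℕ), 1 ≤ i → i ≤ 3 → ∀ Q ⊆ lay G v i,
      (∀ a ∈ Q, ∀ b ∈ Q, a ≠ b → G.Adj a b) → Q.card ≤ 3 := by
    intro v i hi1 hi3 Q hQ hQc
    by_contra hcon
    have h4 : Q.card = 4 := by have := hcl Q hQc; omega
    obtain ⟨par, hpar⟩ := exists_isPar (G := G) v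
    obtain ⟨s, hs2, hsi, x, hx, y, hy, hs, hs'⟩ := clique_lca_two hpar hi1 hQ hQc hcl h4 (by omega)
    have := clique_lca h.free hpar (by omega) hQ hQc hx hy (by omega) hsi hs hs'
    omega
  have hbd : ∀ (v : V) (i : ℕ), 1 ≤ i → i ≤ 3 → ∀ Z ⊆ lay G v i, 2 * Z.card ≤ 6 * alp G Z := by
    intro v i hi1 hi3 Z hZ
    refine layer_bound (k := 6) le_rfl (by omega) h.free hi1 (by omega) hZ ?_
    intro Q hQ hQc
    have := hlay v i hi1 hi3 Q (hQ.trans hZ) hQc
    omega
  -- all neighbourhoods are extremal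
  have hext : ∀ v : V, 3 * alp G (lay G v 1) ≤ (lay G v 1).card := by
    intro v
    by_contra hcon
    push Not at hcon
    have ha0 : alp G (ball G v 0) = 1 := by rw [ball_zero, alp_singleton]
    have hstep : ∀ i, i + 1 ≤ 3 → alp G (ball G v i) + 2 ≤ alp G (ball G v (i + 1)) := by
      intro i hi
      have hsum : 2 * ∑ j ∈ range (i + 1), (lay G v (j + 1)).card + 1 ≤
          6 * ∑ j ∈ range (i + 1), alp G (lay G v (j + 1)) := by
        rw [sum_range_succ', sum_range_succ']
        have h1 : 2 * ∑ j ∈ range i, (lay G v (j + 1 + 1)).card ≤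
            6 * ∑ j ∈ range i, alp G (lay G v (j + 1 + 1)) := by
          rw [mul_sum, mul_sum]
          apply sum_le_sum
          intro j hj
          rw [mem_range] at hj
          exact hbd v (j + 1 + 1) (by omega) (by omega) _ subset_rfl
        simp only [zero_add, mul_add]
        omega
      have hg := h.growth v 6 1 i hsum
      omega
    have h1 := hstep 0 (by omega)
    have h2 := hstep 1 (by omega)
    have h3 := hstep 2 (by omega)
    have h4 := htop v 3
    simp only [zero_add, Nat.reduceAdd] at h1 h2 h3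
    omega
  have hK : ∀ v x : V, G.Adj v x → ∃ K : Finset V, (∀ y ∈ K, G.Adj v y) ∧ x ∈ K ∧ K.card = 3 ∧
      (∀ a ∈ K, ∀ b ∈ K, a ≠ b → G.Adj a b) ∧ ∀ a ∈ K, ∀ b, G.Adj v b → b ∉ K → ¬ G.Adj a b := by
    intro v x hvx
    obtain ⟨K, hKZ, hxK, hKc, hKcl, hKno⟩ := extremal_nbhd (G := G) (k := 6) (s := 3) (by omega)
      (by omega) h.free (v := v) (Z := lay G v 1) (fun y hy => mem_lay_one.1 hy)
      (fun Y hY => by have := hbd v 1 le_rfl (by omega) Y hY; omega) (hext v)
      (mem_lay_one.2 hvx)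
    refine ⟨K, fun y hy => mem_lay_one.1 (hKZ hy), hxK, hKc, hKcl, ?_⟩
    intro a ha b hb hbK
    exact hKno a ha b (mem_sdiff.2 ⟨mem_lay_one.2 hb, hbK⟩)
  -- transitivity of adjacency in neighbourhoods
  have htrans : ∀ v x y z : V, G.Adj v x → G.Adj v y → G.Adj v z → G.Adj x y → G.Adj y z →
      x ≠ z → G.Adj x z := by
    intro v x y z hx hy hz hxy hyz hxz
    obtain ⟨K, hKv, hyK, hKc, hKcl, hKno⟩ := hK v y hy
    have hxK : x ∈ K := by
      by_contra hcon
      exact hKno y hyK x hx hcon hxy.symm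
    have hzK : z ∈ K := by
      by_contra hcon
      exact hKno y hyK z hz hcon hyz
    exact hKcl x hxK z hzK hxz
  obtain ⟨v⟩ : Nonempty V := Fintype.card_pos_iff.1 (by rw [h.card_eq]; omega)
  -- for `p ∈ N(v)`, a triangle `T p ⊆ N(p)` away from `N[v]`
  have hT : ∀ p, G.Adj v p → ∃ a b c : V, G.Adj p a ∧ G.Adj p b ∧ G.Adj p c ∧ G.Adj a b ∧
      G.Adj b c ∧ G.Adj a c ∧ ¬ G.Adj v a ∧ ¬ G.Adj v b ∧ ¬ G.Adj v c ∧ a ≠ v ∧ b ≠ v ∧ c ≠ v := by
    intro p hvp
    obtain ⟨K, hKp, hvK, hKc, hKcl, hKno⟩ := hK p v hvp.symm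
    have hdeg := h.le_card_nb p
    obtain ⟨w, hw, hwK⟩ : ∃ w ∈ nb G p, w ∉ K := by
      by_contra hcon
      push Not at hcon
      have := card_le_card (show nb G p ⊆ K from hcon)
      omega
    rw [mem_nb] at hw
    obtain ⟨K', hKp', hwK', hKc', hKcl', hKno'⟩ := hK p w hw
    have hdis : ∀ z ∈ K', z ∉ K := by
      intro z hz hzK
      by_cases hzw : z = w
      · subst hzw; exact hwK hzK
      · exact hKno z hzK w hw hwK (hKcl' z hz w hwK' hzw)
    obtain ⟨a, b, c, hab, hac, hbc, rfl⟩ := card_eq_three.1 hKc'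
    have haK := hdis a (by simp)
    have hbK := hdis b (by simp)
    have hcK := hdis c (by simp)
    have nv : ∀ z, G.Adj p z → z ∉ K → ¬ G.Adj v z ∧ z ≠ v := by
      intro z hz hzK
      exact ⟨hKno v hvK z hz hzK, fun hzv => hzK (hzv ▸ hvK)⟩
    have pa := hKp' a (by simp)
    have pb := hKp' b (by simp)
    have pc := hKp' c (by simp)
    exact ⟨a, b, c, pa, pb, pc, hKcl' a (by simp) b (by simp) hab, hKcl' b (by simp) c (by simp) hbc,
      hKcl' a (by simp) c (by simp) hac, (nv a pa haK).1, (nv b pb hbK).1, (nv c pc hcK).1,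
      (nv a pa haK).2, (nv b pb hbK).2, (nv c pc hcK).2⟩
  choose! ta tb tc h1 h2 h3 h4 h5 h6 h7 h8 h9 h10 h11 h12 using hT
  -- partner of `p` in `N(v)`
  have hpart : ∀ p, G.Adj v p → ∃ q, G.Adj v q ∧ G.Adj p q := by
    intro p hvp
    obtain ⟨K, hKv, hpK, hKc, hKcl, hKno⟩ := hK v p hvp
    obtain ⟨q, hq, hqp⟩ := exists_mem_ne (show 1 < K.card by omega) p
    exact ⟨q, hKv q hq, hKcl p hpK q hq hqp.symm⟩
  have h3' : ∀ L : List V, IsCyc G L → L.length = 7 → False := fun L hL hl =>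
    h.free (hL.hasCyc' hl (by omega))
  -- `T p` and `T q` have no common vertices
  have hcommon : ∀ p q z, G.Adj v p → G.Adj v q → p ≠ q → G.Adj p z → G.Adj q z → ¬ G.Adj v z →
      z ≠ v → (∃ t t', t ≠ t' ∧ G.Adj p t ∧ G.Adj p t' ∧ G.Adj t t' ∧ G.Adj t' z ∧ t ≠ z ∧
        ¬ G.Adj v t ∧ ¬ G.Adj v t' ∧ t ≠ v ∧ t' ≠ v) → False := by
    rintro p q z hvp hvq hpq hpz hqz hvz hzv ⟨t, t', htt, hpt, hpt', htt', htz, htz', hvt, hvt',
      htv, htv'⟩
    by_cases hadj : G.Adj p q
    · exact hvz (htrans p v q z hvp.symm hadj hpz hvq hqz hzv.symm)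
    · obtain ⟨p', hvp', hpp'⟩ := hpart p hvp
      have hp'q : p' ≠ q := by rintro rfl; exact hadj hpp'
      refine h3' [v, p', p, t, t', z, q] ⟨?_, ?_, ?_⟩ rfl
      · simp only [List.nodup_cons, List.mem_cons, List.not_mem_nil, or_false, not_or,
          List.nodup_nil, and_true, not_false_eq_true]
        refine ⟨⟨hvp'.ne, hvp.ne, htv.symm, htv'.symm, hzv.symm, hvq.ne⟩,
          ⟨hpp'.ne', ?_, ?_, ?_, hp'q⟩, ⟨hpt.ne, hpt'.ne, hpz.ne, hpq⟩, ⟨htt, htz', ?_⟩,
          ⟨htz.ne, ?_⟩, hqz.ne'⟩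
        · rintro rfl; exact hvt hvp'
        · rintro rfl; exact hvt' hvp'
        · rintro rfl; exact hvz hvp'
        · rintro rfl; exact hvt hvq
        · rintro rfl; exact hvt' hvq
      · simp only [List.isChain_cons_cons, List.isChain_singleton, and_true]
        exact ⟨hvp', hpp'.symm, hpt, htt', htz, hqz.symm⟩
      · intro a ha b hb
        simp only [List.getLast?_cons_cons, List.getLast?_singleton, List.head?_cons,
          Option.mem_def, Option.some.injEq] at ha hb
        subst ha; subst hb; exact hvq.symm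
  have hdist : ∀ p q, G.Adj v p → G.Adj v q → p ≠ q → tc p ≠ tc q ∧ ¬ G.Adj (tc p) (tc q) := by
    intro p q hvp hvq hpq
    have hnc : ∀ z, (z = ta p ∨ z = tb p ∨ z = tc p) → ¬ G.Adj q z := by
      rintro z (rfl | rfl | rfl) hqz
      · exact hcommon p q (ta p) hvp hvq hpq (h1 p hvp) hqz (h7 p hvp) (h10 p hvp)
          ⟨tb p, tc p, (h5 p hvp).ne, h2 p hvp, h3 p hvp, h5 p hvp, (h6 p hvp).symm,
            (h4 p hvp).ne', h8 p hvp, h9 p hvp, h11 p hvp, h12 p hvp⟩
      · exact hcommon p q (tb p) hvp hvq hpq (h2 p hvp) hqz (h8 p hvp) (h11 p hvp)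
          ⟨ta p, tc p, (h6 p hvp).ne, h1 p hvp, h3 p hvp, h6 p hvp, (h5 p hvp).symm,
            (h4 p hvp).ne, h7 p hvp, h9 p hvp, h10 p hvp, h12 p hvp⟩
      · exact hcommon p q (tc p) hvp hvq hpq (h3 p hvp) hqz (h9 p hvp) (h12 p hvp)
          ⟨ta p, tb p, (h4 p hvp).ne, h1 p hvp, h2 p hvp, h4 p hvp, h5 p hvp,
            (h6 p hvp).ne, h7 p hvp, h8 p hvp, h10 p hvp, h11 p hvp⟩
    have hqc := h3 q hvq
    have e1 : tc p ≠ tc q := fun he => hnc (tc p) (Or.inr (Or.inr rfl)) (he ▸ hqc)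
    refine ⟨e1, fun hadj => ?_⟩
    have e2 : ta p ≠ tc q := fun he => hnc (ta p) (Or.inl rfl) (he ▸ hqc)
    have e3 : tb p ≠ tc q := fun he => hnc (tb p) (Or.inr (Or.inl rfl)) (he ▸ hqc)
    refine h3' [v, p, ta p, tb p, tc p, tc q, q] ⟨?_, ?_, ?_⟩ rfl
    · simp only [List.nodup_cons, List.mem_cons, List.not_mem_nil, or_false, not_or,
        List.nodup_nil, and_true, not_false_eq_true]
      refine ⟨⟨hvp.ne, (h10 p hvp).symm, (h11 p hvp).symm, (h12 p hvp).symm, (h12 q hvq).symm, hvq.ne⟩,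
        ⟨(h1 p hvp).ne, (h2 p hvp).ne, (h3 p hvp).ne, ?_, hpq⟩,
        ⟨(h4 p hvp).ne, (h6 p hvp).ne, e2, ?_⟩, ⟨(h5 p hvp).ne, e3, ?_⟩, ⟨e1, ?_⟩, (h3 q hvq).ne'⟩
      · intro he; exact h9 q hvq (he ▸ hvp)
      · intro he; exact h7 p hvp (by rw [he]; exact hvq)
      · intro he; exact h8 p hvp (by rw [he]; exact hvq)
      · intro he; exact h9 p hvp (by rw [he]; exact hvq)
    · simp only [List.isChain_cons_cons, List.isChain_singleton, and_true]
      exact ⟨hvp, h1 p hvp, h4 p hvp, h5 p hvp, hadj, (h3 q hvq).symm⟩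
    · intro a ha b hb
      simp only [List.getLast?_cons_cons, List.getLast?_singleton, List.head?_cons,
        Option.mem_def, Option.some.injEq] at ha hb
      subst ha; subst hb; exact hvq.symm
  have hI : Indep G (insert v ((nb G v).image tc)) := by
    apply indep_insert
    · intro a ha b hb hab
      obtain ⟨p, hp, rfl⟩ := mem_image.1 ha
      obtain ⟨q, hq, rfl⟩ := mem_image.1 hb
      rw [mem_nb] at hp hq
      by_cases hpq : p = q
      · subst hpq; exact G.loopless.irrefl _ hab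
      · exact (hdist p q hp hq hpq).2 hab
    · intro a ha
      obtain ⟨p, hp, rfl⟩ := mem_image.1 ha
      exact h9 p (mem_nb.1 hp)
  have hcardI := h.card_indep_le hI
  rw [card_insert_of_notMem, card_image_of_injOn] at hcardI
  · have := h.le_card_nb v
    omega
  · intro p hp q hq heq
    by_contra hpq
    have hp' : G.Adj v p := by simpa using hp
    have hq' : G.Adj v q := by simpa using hq
    exact (hdist p q hp' hq' hpq).1 heq
  · intro hmem
    obtain ⟨p, hp, he⟩ := mem_image.1 hmem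
    exact h12 p (mem_nb.1 hp) he

end Crest.Agent.R054
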