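import Mathlib
import Crest.Agent.R054.ThmB

/-!
R054, the case `k = 7`, clique number at most four, by breadth first layers:
`|L_i| + N_{i+1} ≤ 3 alp L_i + N_i`, where `N_i` is the number of 4-cliques of the layer `L_i`.
-/

set_option autoImplicit false
set_option linter.unusedSectionVars false
set_option linter.unusedVariables false

open Finset

namespace Crest.Agent.R054

universe u

namespace K74

variable {V : Type u} [Fintype V] [DecidableEq V] {G : SimpleGraph V}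

/-- No explicit 8-cycle. -/
theorem no8 (h : ¬ HasCyc G 8) {a b c d e f g i : V} (h1 : G.Adj a b)
    (h2 : G.Adj b c) (h3 : G.Adj c d) (h4 : G.Adj d e) (h5 : G.Adj e f) (h6 : G.Adj f g)
    (h7 : G.Adj g i) (h8 : G.Adj i a) (hnd : [a, b, c, d, e, f, g, i].Nodup) : False := by
  refine h (IsCyc.hasCyc' (L := [a, b, c, d, e, f, g, i]) ⟨hnd, ?_, ?_⟩ rfl (by norm_num))
  · simp [h1, h2, h3, h4, h5, h6, h7]
  · simpa using h8

variable (G) in
/-- `K` is a clique with four vertices. -/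
def Cl4 (K : Finset V) : Prop := (∀ a ∈ K, ∀ b ∈ K, a ≠ b → G.Adj a b) ∧ K.card = 4

theorem Cl4.exists_not_adj {K : Finset V} (hK : Cl4 G K)
    (hcl : ∀ Q : Finset V, (∀ a ∈ Q, ∀ b ∈ Q, a ≠ b → G.Adj a b) → Q.card ≤ 4) (p : V) :
    ∃ y ∈ K, ¬ G.Adj p y := by
  by_contra hcon
  push Not at hcon
  have hp : p ∉ K := fun hp => G.loopless.irrefl _ (hcon p hp)
  have h1 := hcl (insert p K) (by
    intro a ha b hb hab
    rcases mem_insert.1 ha with ha | ha <;> rcases mem_insert.1 hb with hb | hb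
    · exact absurd (ha.trans hb.symm) hab
    · rw [ha]; exact hcon b hb
    · rw [hb]; exact (hcon a ha).symm
    · exact hK.1 a ha b hb hab)
  rw [card_insert_of_notMem hp, hK.2] at h1
  omega

theorem Cl4.exists_third {K : Finset V} (hK : Cl4 G K) (x y : V) : ∃ z ∈ K, z ≠ x ∧ z ≠ y := by
  have h1 : ({x, y} : Finset V).card < K.card := by
    rw [hK.2]; exact (card_le_two).trans_lt (by norm_num)
  obtain ⟨z, hz, hz'⟩ := exists_mem_notMem_of_card_lt_card h1
  simp only [mem_insert, mem_singleton, not_or] at hz'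
  exact ⟨z, hz, hz'⟩

theorem Cl4.exists_two {K : Finset V} (hK : Cl4 G K) (x y : V) :
    ∃ z ∈ K, ∃ z' ∈ K, z ≠ x ∧ z ≠ y ∧ z' ≠ x ∧ z' ≠ y ∧ z ≠ z' := by
  obtain ⟨z, hz, h1, h2⟩ := hK.exists_third x y
  have h3 : ({x, y, z} : Finset V).card < K.card := by
    rw [hK.2]; exact (card_le_three).trans_lt (by norm_num)
  obtain ⟨z', hz', h4⟩ := exists_mem_notMem_of_card_lt_card h3
  simp only [mem_insert, mem_singleton, not_or] at h4
  exact ⟨z, hz, z', hz', h1, h2, h4.1, h4.2.1, fun h => h4.2.2 h.symm⟩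

theorem lay_ne {v x y : V} {i j : ℕ} (hx : x ∈ lay G v i) (hy : y ∈ lay G v j) (hij : i ≠ j) :
    x ≠ y := by
  rintro rfl
  exact hij (lay_index_unique hx hy)

section Fix

variable (hfree : ¬ HasCyc G 8)
  (hcl : ∀ Q : Finset V, (∀ a ∈ Q, ∀ b ∈ Q, a ≠ b → G.Adj a b) → Q.card ≤ 4)
  {v : V} {j : ℕ} (hj : j ≤ 1)

include hfree hj in
/-- Two parents of different vertices of a 4-clique have the same parents. -/
theorem grand_eq {K : Finset V} (hK : Cl4 G K) (hKl : K ⊆ lay G v (j + 2)) {p q x y g h : V}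
    (hx : x ∈ K) (hy : y ∈ K) (hxy : x ≠ y) (hp : p ∈ lay G v (j + 1)) (hq : q ∈ lay G v (j + 1))
    (hpq : p ≠ q) (hpx : G.Adj p x) (hqy : G.Adj q y) (hg : g ∈ lay G v j) (hh : h ∈ lay G v j)
    (hgp : G.Adj g p) (hhq : G.Adj h q) : g = h := by
  by_contra hgh
  rcases Nat.eq_zero_or_pos j with h0 | h0
  · subst h0
    rw [lay_zero, mem_singleton] at hg hh
    exact hgh (hg.trans hh.symm)
  · have h1 : j = 1 := by omega
    subst h1
    obtain ⟨z, hz, hzx, hzy⟩ := hK.exists_third x y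
    have hv : v ∈ lay G v 0 := by simp [lay_zero]
    have Lx := hKl hx
    have Ly := hKl hy
    have Lz := hKl hz
    refine no8 hfree (a := v) (b := g) (c := p) (d := x) (e := z) (f := y) (g := q) (i := h)
      (mem_lay_one.1 hg) hgp hpx (hK.1 _ hx _ hz hzx.symm) (hK.1 _ hz _ hy hzy) hqy.symm hhq.symm
      (mem_lay_one.1 hh).symm ?_
    simp only [List.nodup_cons, List.mem_cons, List.not_mem_nil, not_or, or_false, not_false_eq_true,
      List.nodup_nil, and_true]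
    refine ⟨⟨?_, ?_, ?_, ?_, ?_, ?_, ?_⟩, ⟨?_, ?_, ?_, ?_, ?_, hgh⟩, ⟨?_, ?_, ?_, hpq, ?_⟩,
      ⟨hzx.symm, hxy, ?_, ?_⟩, ⟨hzy, ?_, ?_⟩, ⟨?_, ?_⟩, ?_⟩
    · exact lay_ne hv hg (by omega)
    · exact lay_ne hv hp (by omega)
    · exact lay_ne hv Lx (by omega)
    · exact lay_ne hv Lz (by omega)
    · exact lay_ne hv Ly (by omega)
    · exact lay_ne hv hq (by omega)
    · exact lay_ne hv hh (by omega)
    · exact lay_ne hg hp (by omega)
    · exact lay_ne hg Lx (by omega)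
    · exact lay_ne hg Lz (by omega)
    · exact lay_ne hg Ly (by omega)
    · exact lay_ne hg hq (by omega)
    · exact lay_ne hp Lx (by omega)
    · exact lay_ne hp Lz (by omega)
    · exact lay_ne hp Ly (by omega)
    · exact lay_ne hp hh (by omega)
    · exact lay_ne Lx hq (by omega)
    · exact lay_ne Lx hh (by omega)
    · exact lay_ne Lz hq (by omega)
    · exact lay_ne Lz hh (by omega)
    · exact lay_ne Ly hq (by omega)
    · exact lay_ne Ly hh (by omega)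
    · exact lay_ne hq hh (by omega)

include hfree hcl hj in
/-- The common grandparent of a 4-clique. -/
theorem exists_grand {K : Finset V} (hK : Cl4 G K) (hKl : K ⊆ lay G v (j + 2)) :
    ∃ w ∈ lay G v j, ∀ p ∈ lay G v (j + 1), ∀ x ∈ K, G.Adj p x → ∀ g ∈ lay G v j, G.Adj g p →
      g = w := by
  have hne : K.Nonempty := by rw [← card_pos, hK.2]; norm_num
  obtain ⟨x0, hx0⟩ := hne
  obtain ⟨p0, hp0, hpx0⟩ := exists_parent (hKl hx0)
  obtain ⟨w, hw, hwp0⟩ := exists_parent hp0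
  obtain ⟨y0, hy0, hny0⟩ := hK.exists_not_adj hcl p0
  obtain ⟨q0, hq0, hqy0⟩ := exists_parent (hKl hy0)
  obtain ⟨h0, hh0, hhq0⟩ := exists_parent hq0
  have hxy0 : x0 ≠ y0 := by rintro rfl; exact hny0 hpx0
  have hpq0 : p0 ≠ q0 := by rintro rfl; exact hny0 hqy0
  have hwh : w = h0 := grand_eq hfree hj hK hKl hx0 hy0 hxy0 hp0 hq0 hpq0 hpx0 hqy0 hw hh0 hwp0 hhq0
  refine ⟨w, hw, ?_⟩
  intro p hp x hx hpx g hg hgp
  by_cases h1 : p = p0
  · subst h1
    rw [hwh]
    exact grand_eq hfree hj hK hKl hx0 hy0 hxy0 hp hq0 hpq0 hpx0 hqy0 hg hh0 hgp hhq0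
  · by_cases h2 : x = x0
    · subst h2
      by_cases h3 : p = q0
      · subst h3
        exact grand_eq hfree hj hK hKl hy0 hx0 hxy0.symm hp hp0 h1 hqy0 hpx0 hg hw hgp hwp0
      · rw [hwh]
        exact grand_eq hfree hj hK hKl hx0 hy0 hxy0 hp hq0 h3 hpx hqy0 hg hh0 hgp hhq0
    · exact grand_eq hfree hj hK hKl hx hx0 h2 hp hp0 h1 hpx hpx0 hg hw hgp hwp0

/-- A path with five vertices in the layer `j+2` whose ends have parents with a common parent:
the parents are equal. -/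
theorem rel5 (hfree : ¬ HasCyc G 8) {v : V} {j : ℕ} {x a b c y p q w : V}
    (hx : x ∈ lay G v (j + 2)) (ha : a ∈ lay G v (j + 2)) (hb : b ∈ lay G v (j + 2))
    (hc : c ∈ lay G v (j + 2)) (hy : y ∈ lay G v (j + 2)) (hp : p ∈ lay G v (j + 1))
    (hq : q ∈ lay G v (j + 1)) (hw : w ∈ lay G v j) (hwp : G.Adj w p) (hwq : G.Adj w q)
    (hpx : G.Adj p x) (hqy : G.Adj q y) (h1 : G.Adj x a) (h2 : G.Adj a b) (h3 : G.Adj b c)
    (h4 : G.Adj c y) (hnd : [x, a, b, c, y].Nodup) : p = q := by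
  by_contra hpq
  simp only [List.nodup_cons, List.mem_cons, List.not_mem_nil, not_or, or_false, not_false_eq_true,
      List.nodup_nil, and_true] at hnd
  obtain ⟨⟨n1, n2, n3, n4⟩, ⟨n5, n6, n7⟩, ⟨n8, n9⟩, n10⟩ := hnd
  refine no8 hfree (a := w) (b := p) (c := x) (d := a) (e := b) (f := c) (g := y) (i := q)
    hwp hpx h1 h2 h3 h4 hqy.symm hwq.symm ?_
  simp only [List.nodup_cons, List.mem_cons, List.not_mem_nil, not_or, or_false, not_false_eq_true,
      List.nodup_nil, and_true]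
  refine ⟨⟨?_, ?_, ?_, ?_, ?_, ?_, ?_⟩, ⟨?_, ?_, ?_, ?_, ?_, hpq⟩, ⟨n1, n2, n3, n4, ?_⟩,
      ⟨n5, n6, n7, ?_⟩, ⟨n8, n9, ?_⟩, ⟨n10, ?_⟩, ?_⟩
  · exact lay_ne hw hp (by omega)
  · exact lay_ne hw hx (by omega)
  · exact lay_ne hw ha (by omega)
  · exact lay_ne hw hb (by omega)
  · exact lay_ne hw hc (by omega)
  · exact lay_ne hw hy (by omega)
  · exact lay_ne hw hq (by omega)
  · exact lay_ne hp hx (by omega)
  · exact lay_ne hp ha (by omega)
  · exact lay_ne hp hb (by omega)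
  · exact lay_ne hp hc (by omega)
  · exact lay_ne hp hy (by omega)
  · exact lay_ne hx hq (by omega)
  · exact lay_ne ha hq (by omega)
  · exact lay_ne hb hq (by omega)
  · exact lay_ne hc hq (by omega)
  · exact lay_ne hy hq (by omega)

include hfree hcl hj in
/-- Different 4-cliques of a layer are disjoint. -/
theorem cl4_disjoint {K K' : Finset V} (hK : Cl4 G K) (hKl : K ⊆ lay G v (j + 2))
    (hK' : Cl4 G K') (hKl' : K' ⊆ lay G v (j + 2)) (hne : K ≠ K') : Disjoint K K' := by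
  rw [disjoint_iff_inter_eq_empty]
  by_contra hI
  have hI' : (K ∩ K').Nonempty := nonempty_iff_ne_empty.2 hI
  obtain ⟨w, hw, hwu⟩ := exists_grand hfree hcl hj hK hKl
  obtain ⟨w', hw', hwu'⟩ := exists_grand hfree hcl hj hK' hKl'
  obtain ⟨a0, ha0⟩ := hI'
  rw [mem_inter] at ha0
  obtain ⟨p0, hp0, hpa0⟩ := exists_parent (hKl ha0.1)
  obtain ⟨g0, hg0, hgp0⟩ := exists_parent hp0
  have e1 := hwu p0 hp0 a0 ha0.1 hpa0 g0 hg0 hgp0
  have e2 := hwu' p0 hp0 a0 ha0.2 hpa0 g0 hg0 hgp0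
  have hww : w' = w := e2.symm.trans e1
  subst hww
  -- every parent is adjacent to `w'`
  have hpar : ∀ x ∈ K ∪ K', ∀ p ∈ lay G v (j + 1), G.Adj p x → G.Adj w' p := by
    intro x hx p hp hpx
    obtain ⟨g, hg, hgp⟩ := exists_parent hp
    rcases mem_union.1 hx with hx | hx
    · rw [← hwu p hp x hx hpx g hg hgp]; exact hgp
    · rw [← hwu' p hp x hx hpx g hg hgp]; exact hgp
  have hlay : ∀ x ∈ K ∪ K', x ∈ lay G v (j + 2) := by
    intro x hx
    rcases mem_union.1 hx with hx | hx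
    · exact hKl hx
    · exact hKl' hx
  -- relation
  have hrel : ∀ {x a b c y : V}, x ∈ K ∪ K' → a ∈ K ∪ K' → b ∈ K ∪ K' → c ∈ K ∪ K' → y ∈ K ∪ K' →
      G.Adj x a → G.Adj a b → G.Adj b c → G.Adj c y → [x, a, b, c, y].Nodup →
      ∀ p ∈ lay G v (j + 1), G.Adj p x → G.Adj p y := by
    intro x a b c y hx ha hb hc hy h1 h2 h3 h4 hnd p hp hpx
    obtain ⟨q, hq, hqy⟩ := exists_parent (hlay y hy)
    have := rel5 hfree (hlay x hx) (hlay a ha) (hlay b hb) (hlay c hc) (hlay y hy) hp hq hw'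
      (hpar x hx p hp hpx) (hpar y hy q hq hqy) hpx hqy h1 h2 h3 h4 hnd
    rw [this]; exact hqy
  have c1 : (K ∩ K').card + (K \ K').card = 4 := by
    rw [← hK.2]; exact card_inter_add_card_sdiff K K'
  have c2 : (K ∩ K').card + (K' \ K).card = 4 := by
    rw [← hK'.2, inter_comm]; exact card_inter_add_card_sdiff K' K
  have c3 : 1 ≤ (K ∩ K').card := card_pos.2 ⟨a0, mem_inter.2 ha0⟩
  have c4 : (K ∩ K').card ≤ 3 := by
    by_contra hcon
    have h1 : (K ∩ K').card = 4 := by omega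
    have h2 : K ∩ K' = K := eq_of_subset_of_card_le inter_subset_left (by rw [h1, hK.2])
    have h3 : K ∩ K' = K' := eq_of_subset_of_card_le inter_subset_right (by rw [h1, hK'.2])
    exact hne (h2.symm.trans h3)
  have hnadj : ∀ p, ∃ y ∈ K, ¬ G.Adj p y := hK.exists_not_adj hcl
  have c5 : (K ∩ K').card = 1 ∨ (K ∩ K').card = 2 ∨ (K ∩ K').card = 3 := by omega
  rcases c5 with c5 | c5 | c5
  · -- one common vertex
    obtain ⟨a, ha⟩ := card_eq_one.1 c5
    obtain ⟨b, c, d, hbc, hbd, hcd, hs⟩ := card_eq_three.1 (show (K \ K').card = 3 by omega)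
    obtain ⟨e, f, g, hef, heg, hfg, hs'⟩ := card_eq_three.1 (show (K' \ K).card = 3 by omega)
    have ma : a ∈ K ∧ a ∈ K' := mem_inter.1 (by rw [ha]; simp)
    have mb : b ∈ K ∧ b ∉ K' := mem_sdiff.1 (by rw [hs]; simp)
    have mc : c ∈ K ∧ c ∉ K' := mem_sdiff.1 (by rw [hs]; simp)
    have md : d ∈ K ∧ d ∉ K' := mem_sdiff.1 (by rw [hs]; simp)
    have me : e ∈ K' ∧ e ∉ K := mem_sdiff.1 (by rw [hs']; simp)
    have mf : f ∈ K' ∧ f ∉ K := mem_sdiff.1 (by rw [hs']; simp)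
    have mg : g ∈ K' ∧ g ∉ K := mem_sdiff.1 (by rw [hs']; simp)
    have nn : ∀ {x y : V}, x ∈ K → y ∉ K → x ≠ y := by rintro x y h1 h2 rfl; exact h2 h1
    have nn' : ∀ {x y : V}, x ∈ K' → y ∉ K' → x ≠ y := by rintro x y h1 h2 rfl; exact h2 h1
    have ab : a ≠ b := nn' ma.2 mb.2
    have ac : a ≠ c := nn' ma.2 mc.2
    have ad : a ≠ d := nn' ma.2 md.2
    have ae : a ≠ e := nn ma.1 me.2
    have af : a ≠ f := nn ma.1 mf.2
    have ag : a ≠ g := nn ma.1 mg.2
    have be : b ≠ e := nn mb.1 me.2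
    have bf : b ≠ f := nn mb.1 mf.2
    have bg : b ≠ g := nn mb.1 mg.2
    have ce : c ≠ e := nn mc.1 me.2
    have cf : c ≠ f := nn mc.1 mf.2
    have cg : c ≠ g := nn mc.1 mg.2
    have de : d ≠ e := nn md.1 me.2
    have df : d ≠ f := nn md.1 mf.2
    have dg : d ≠ g := nn md.1 mg.2
    obtain ⟨p, hp, hpb⟩ := exists_parent (hKl mb.1)
    have hpg : G.Adj p g := hrel (x := b) (a := c) (b := a) (c := f) (y := g)
      (mem_union_left _ mb.1) (mem_union_left _ mc.1) (mem_union_left _ ma.1)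
      (mem_union_right _ mf.1) (mem_union_right _ mg.1) (hK.1 _ mb.1 _ mc.1 hbc)
      (hK.1 _ mc.1 _ ma.1 ac.symm) (hK'.1 _ ma.2 _ mf.1 af) (hK'.1 _ mf.1 _ mg.1 hfg)
      (by simp [hbc, ab.symm, bf, bg, ac.symm, cf, cg, af, ag, hfg]) p hp hpb
    have L := hlay
    have np : ∀ x ∈ K ∪ K', p ≠ x := fun x hx => lay_ne hp (hlay x hx) (by omega)
    refine no8 hfree (a := p) (b := b) (c := c) (d := d) (e := a) (f := e) (g := f) (i := g)
      hpb (hK.1 _ mb.1 _ mc.1 hbc) (hK.1 _ mc.1 _ md.1 hcd) (hK.1 _ md.1 _ ma.1 ad.symm)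
      (hK'.1 _ ma.2 _ me.1 ae) (hK'.1 _ me.1 _ mf.1 hef) (hK'.1 _ mf.1 _ mg.1 hfg) hpg.symm ?_
    simp [np b (mem_union_left _ mb.1), np c (mem_union_left _ mc.1), np d (mem_union_left _ md.1),
      np a (mem_union_left _ ma.1), np e (mem_union_right _ me.1), np f (mem_union_right _ mf.1),
      np g (mem_union_right _ mg.1), hbc, hbd, hcd, hef, heg, hfg, ab.symm, ac.symm, ad.symm,
      ae, af, ag, be, bf, bg, ce, cf, cg, de, df, dg]
  · -- two common vertices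
    obtain ⟨a, b, hab, hs0⟩ := card_eq_two.1 c5
    obtain ⟨c, d, hcd, hs⟩ := card_eq_two.1 (show (K \ K').card = 2 by omega)
    obtain ⟨e, f, hef, hs'⟩ := card_eq_two.1 (show (K' \ K).card = 2 by omega)
    have ma : a ∈ K ∧ a ∈ K' := mem_inter.1 (by rw [hs0]; simp)
    have mb : b ∈ K ∧ b ∈ K' := mem_inter.1 (by rw [hs0]; simp)
    have mc : c ∈ K ∧ c ∉ K' := mem_sdiff.1 (by rw [hs]; simp)
    have md : d ∈ K ∧ d ∉ K' := mem_sdiff.1 (by rw [hs]; simp)
    have me : e ∈ K' ∧ e ∉ K := mem_sdiff.1 (by rw [hs']; simp)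
    have mf : f ∈ K' ∧ f ∉ K := mem_sdiff.1 (by rw [hs']; simp)
    have nn : ∀ {x y : V}, x ∈ K → y ∉ K → x ≠ y := by rintro x y h1 h2 rfl; exact h2 h1
    have nn' : ∀ {x y : V}, x ∈ K' → y ∉ K' → x ≠ y := by rintro x y h1 h2 rfl; exact h2 h1
    have ac : a ≠ c := nn' ma.2 mc.2
    have ad : a ≠ d := nn' ma.2 md.2
    have ae : a ≠ e := nn ma.1 me.2
    have af : a ≠ f := nn ma.1 mf.2
    have bc : b ≠ c := nn' mb.2 mc.2
    have bd : b ≠ d := nn' mb.2 md.2
    have be : b ≠ e := nn mb.1 me.2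
    have bf : b ≠ f := nn mb.1 mf.2
    have ce : c ≠ e := nn mc.1 me.2
    have cf : c ≠ f := nn mc.1 mf.2
    have de : d ≠ e := nn md.1 me.2
    have df : d ≠ f := nn md.1 mf.2
    obtain ⟨p, hp, hpc⟩ := exists_parent (hKl mc.1)
    have ua := mem_union_left K' ma.1
    have ub := mem_union_left K' mb.1
    have uc := mem_union_left K' mc.1
    have ud := mem_union_left K' md.1
    have ue := mem_union_right K me.1
    have uf := mem_union_right K mf.1
    have hpe : G.Adj p e := hrel (x := c) (a := d) (b := a) (c := f) (y := e) uc ud ua uf ue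
      (hK.1 _ mc.1 _ md.1 hcd) (hK.1 _ md.1 _ ma.1 ad.symm) (hK'.1 _ ma.2 _ mf.1 af)
      (hK'.1 _ mf.1 _ me.1 hef.symm)
      (by simp [hcd, ac.symm, cf, ce, ad.symm, df, de, af, ae, hef.symm]) p hp hpc
    have hpd : G.Adj p d := hrel (x := e) (a := f) (b := a) (c := c) (y := d) ue uf ua uc ud
      (hK'.1 _ me.1 _ mf.1 hef) (hK'.1 _ mf.1 _ ma.2 af.symm) (hK.1 _ ma.1 _ mc.1 ac)
      (hK.1 _ mc.1 _ md.1 hcd)
      (by simp [hef, ae.symm, ce.symm, de.symm, af.symm, cf.symm, df.symm, ac, ad, hcd]) p hp hpe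
    have hpa : G.Adj p a := hrel (x := c) (a := b) (b := f) (c := e) (y := a) uc ub uf ue ua
      (hK.1 _ mc.1 _ mb.1 bc.symm) (hK'.1 _ mb.2 _ mf.1 bf) (hK'.1 _ mf.1 _ me.1 hef.symm)
      (hK'.1 _ me.1 _ ma.2 ae.symm)
      (by simp [bc.symm, cf, ce, ac.symm, bf, be, hab.symm, hef.symm, af.symm, ae.symm]) p hp hpc
    have hpb : G.Adj p b := hrel (x := c) (a := a) (b := f) (c := e) (y := b) uc ua uf ue ub
      (hK.1 _ mc.1 _ ma.1 ac.symm) (hK'.1 _ ma.2 _ mf.1 af) (hK'.1 _ mf.1 _ me.1 hef.symm)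
      (hK'.1 _ me.1 _ mb.2 be.symm)
      (by simp [bc.symm, cf, ce, ac.symm, af, ae, hab, hef.symm, bf.symm, be.symm]) p hp hpc
    obtain ⟨y, hy, hny⟩ := hnadj p
    have hy' : y ∈ (K ∩ K') ∪ (K \ K') := by
      rw [mem_union, mem_inter, mem_sdiff]
      by_cases h : y ∈ K'
      · exact Or.inl ⟨hy, h⟩
      · exact Or.inr ⟨hy, h⟩
    rw [hs0, hs] at hy'
    simp only [mem_union, mem_insert, mem_singleton] at hy'
    rcases hy' with (rfl | rfl) | (rfl | rfl)
    · exact hny hpa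
    · exact hny hpb
    · exact hny hpc
    · exact hny hpd
  · -- three common vertices
    obtain ⟨a, b, c, hab, hac, hbc, hs0⟩ := card_eq_three.1 c5
    obtain ⟨d, hs⟩ := card_eq_one.1 (show (K \ K').card = 1 by omega)
    obtain ⟨e, hs'⟩ := card_eq_one.1 (show (K' \ K).card = 1 by omega)
    have ma : a ∈ K ∧ a ∈ K' := mem_inter.1 (by rw [hs0]; simp)
    have mb : b ∈ K ∧ b ∈ K' := mem_inter.1 (by rw [hs0]; simp)
    have mc : c ∈ K ∧ c ∈ K' := mem_inter.1 (by rw [hs0]; simp)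
    have md : d ∈ K ∧ d ∉ K' := mem_sdiff.1 (by rw [hs]; simp)
    have me : e ∈ K' ∧ e ∉ K := mem_sdiff.1 (by rw [hs']; simp)
    have nn : ∀ {x y : V}, x ∈ K → y ∉ K → x ≠ y := by rintro x y h1 h2 rfl; exact h2 h1
    have nn' : ∀ {x y : V}, x ∈ K' → y ∉ K' → x ≠ y := by rintro x y h1 h2 rfl; exact h2 h1
    have ad : a ≠ d := nn' ma.2 md.2
    have bd : b ≠ d := nn' mb.2 md.2
    have cd : c ≠ d := nn' mc.2 md.2
    have ae : a ≠ e := nn ma.1 me.2
    have be : b ≠ e := nn mb.1 me.2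
    have ce : c ≠ e := nn mc.1 me.2
    have de : d ≠ e := nn md.1 me.2
    obtain ⟨p, hp, hpd⟩ := exists_parent (hKl md.1)
    have ua := mem_union_left K' ma.1
    have ub := mem_union_left K' mb.1
    have uc := mem_union_left K' mc.1
    have ud := mem_union_left K' md.1
    have ue := mem_union_right K me.1
    have hpa : G.Adj p a := hrel (x := d) (a := b) (b := e) (c := c) (y := a) ud ub ue uc ua
      (hK.1 _ md.1 _ mb.1 bd.symm) (hK'.1 _ mb.2 _ me.1 be) (hK'.1 _ me.1 _ mc.2 ce.symm)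
      (hK.1 _ mc.1 _ ma.1 hac.symm)
      (by simp [bd.symm, de, cd.symm, ad.symm, be, hbc, hab.symm, ce.symm, ae.symm, hac.symm])
      p hp hpd
    have hpb : G.Adj p b := hrel (x := d) (a := a) (b := e) (c := c) (y := b) ud ua ue uc ub
      (hK.1 _ md.1 _ ma.1 ad.symm) (hK'.1 _ ma.2 _ me.1 ae) (hK'.1 _ me.1 _ mc.2 ce.symm)
      (hK.1 _ mc.1 _ mb.1 hbc.symm)
      (by simp [ad.symm, de, cd.symm, bd.symm, ae, hac, hab, ce.symm, be.symm, hbc.symm])
      p hp hpd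
    have hpc : G.Adj p c := hrel (x := d) (a := a) (b := e) (c := b) (y := c) ud ua ue ub uc
      (hK.1 _ md.1 _ ma.1 ad.symm) (hK'.1 _ ma.2 _ me.1 ae) (hK'.1 _ me.1 _ mb.2 be.symm)
      (hK.1 _ mb.1 _ mc.1 hbc)
      (by simp [ad.symm, de, cd.symm, bd.symm, ae, hac, hab, ce.symm, be.symm, hbc])
      p hp hpd
    obtain ⟨y, hy, hny⟩ := hnadj p
    have hy' : y ∈ (K ∩ K') ∪ (K \ K') := by
      rw [mem_union, mem_inter, mem_sdiff]
      by_cases h : y ∈ K'
      · exact Or.inl ⟨hy, h⟩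
      · exact Or.inr ⟨hy, h⟩
    rw [hs0, hs] at hy'
    simp only [mem_union, mem_insert, mem_singleton] at hy'
    rcases hy' with (rfl | rfl | rfl) | rfl
    · exact hny hpa
    · exact hny hpb
    · exact hny hpc
    · exact hny hpd

include hfree hcl hj in
/-- Different 4-cliques of a layer have no common parent. -/
theorem no_common_parent {K K' : Finset V} (hK : Cl4 G K) (hKl : K ⊆ lay G v (j + 2))
    (hK' : Cl4 G K') (hKl' : K' ⊆ lay G v (j + 2)) (hne : K ≠ K') {p a e : V}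
    (hp : p ∈ lay G v (j + 1)) (ha : a ∈ K) (he : e ∈ K') (hpa : G.Adj p a) (hpe : G.Adj p e) :
    False := by
  have hdis := cl4_disjoint hfree hcl hj hK hKl hK' hKl' hne
  have nn : ∀ {x y : V}, x ∈ K → y ∈ K' → x ≠ y := by
    rintro x y h1 h2 rfl
    exact (disjoint_left.1 hdis) h1 h2
  obtain ⟨b, hb, hpb⟩ := hK.exists_not_adj hcl p
  obtain ⟨b', hb', hpb'⟩ := hK'.exists_not_adj hcl p
  obtain ⟨q, hq, hqb⟩ := exists_parent (hKl hb)
  obtain ⟨q', hq', hqb'⟩ := exists_parent (hKl' hb')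
  have hab : a ≠ b := by rintro rfl; exact hpb hpa
  have heb : b' ≠ e := by rintro rfl; exact hpb' hpe
  have hpq : p ≠ q := by rintro rfl; exact hpb hqb
  have hpq' : p ≠ q' := by rintro rfl; exact hpb' hqb'
  by_cases hqq : q = q'
  · subst hqq
    obtain ⟨x, hx, hxa, hxb⟩ := hK.exists_third a b
    obtain ⟨x', hx', hxe, hxb'⟩ := hK'.exists_third e b'
    refine no8 hfree (a := p) (b := a) (c := x) (d := b) (e := q) (f := b') (g := x') (i := e)
      hpa (hK.1 _ ha _ hx hxa.symm) (hK.1 _ hx _ hb hxb) hqb.symm hqb' (hK'.1 _ hb' _ hx' hxb'.symm)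
      (hK'.1 _ hx' _ he hxe) hpe.symm ?_
    have L1 : ∀ x ∈ K, p ≠ x := fun x hx => lay_ne hp (hKl hx) (by omega)
    have L2 : ∀ x ∈ K', p ≠ x := fun x hx => lay_ne hp (hKl' hx) (by omega)
    have L3 : ∀ x ∈ K, x ≠ q := fun x hx => lay_ne (hKl hx) hq (by omega)
    have L4 : ∀ x ∈ K', q ≠ x := fun x hx => lay_ne hq (hKl' hx) (by omega)
    simp [L1 a ha, L1 x hx, L1 b hb, hpq, L2 b' hb', L2 x' hx', L2 e he, hxa.symm, hab, L3 a ha,
      nn ha hb', nn ha hx', nn ha he, hxb, L3 x hx, nn hx hb', nn hx hx', nn hx he, L3 b hb,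
      nn hb hb', nn hb hx', nn hb he, L4 b' hb', L4 x' hx', L4 e he, hxb'.symm, heb, hxe]
  · obtain ⟨w, hw, hwu⟩ := exists_grand hfree hcl hj hK hKl
    obtain ⟨w', hw', hwu'⟩ := exists_grand hfree hcl hj hK' hKl'
    obtain ⟨g, hg, hgp⟩ := exists_parent hp
    have e1 := hwu p hp a ha hpa g hg hgp
    have e2 := hwu' p hp e he hpe g hg hgp
    have hww : w' = w := e2.symm.trans e1
    subst hww
    obtain ⟨g1, hg1, hgq⟩ := exists_parent hq
    have e3 := hwu q hq b hb hqb g1 hg1 hgq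
    subst e3
    obtain ⟨g2, hg2, hgq'⟩ := exists_parent hq'
    have e4 := hwu' q' hq' b' hb' hqb' g2 hg2 hgq'
    subst e4
    refine no8 hfree (a := p) (b := a) (c := b) (d := q) (e := g2) (f := q') (g := b') (i := e)
      hpa (hK.1 _ ha _ hb hab) hqb.symm hgq.symm hgq' hqb' (hK'.1 _ hb' _ he heb) hpe.symm ?_
    have L1 : ∀ x ∈ K, p ≠ x := fun x hx => lay_ne hp (hKl hx) (by omega)
    have L2 : ∀ x ∈ K', p ≠ x := fun x hx => lay_ne hp (hKl' hx) (by omega)
    have L3 : ∀ x ∈ K, x ≠ q := fun x hx => lay_ne (hKl hx) hq (by omega)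
    have L4 : ∀ x ∈ K', q ≠ x := fun x hx => lay_ne hq (hKl' hx) (by omega)
    have L5 : ∀ x ∈ K, x ≠ q' := fun x hx => lay_ne (hKl hx) hq' (by omega)
    have L6 : ∀ x ∈ K', q' ≠ x := fun x hx => lay_ne hq' (hKl' hx) (by omega)
    have L7 : ∀ x ∈ K, x ≠ g2 := fun x hx => lay_ne (hKl hx) hg2 (by omega)
    have L8 : ∀ x ∈ K', g2 ≠ x := fun x hx => lay_ne hg2 (hKl' hx) (by omega)
    have L9 : ∀ x ∈ lay G v (j + 1), x ≠ g2 := fun x hx => lay_ne hx hg2 (by omega)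
    simp [L1 a ha, L1 b hb, hpq, L9 p hp, hpq', L2 b' hb', L2 e he, hab, L3 a ha, L7 a ha,
      L5 a ha, nn ha hb', nn ha he, L3 b hb, L7 b hb, L5 b hb, nn hb hb', nn hb he, L9 q hq, hqq,
      L4 b' hb', L4 e he, (L9 q' hq').symm, L8 b' hb', L8 e he, L6 b' hb', L6 e he, heb]

include hfree hcl hj in
/-- A parent of a 4-clique has at most one neighbour in its layer, and this is a parent as well. -/
theorem parent_nb {K : Finset V} (hK : Cl4 G K) (hKl : K ⊆ lay G v (j + 2)) {p a : V}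
    (hp : p ∈ lay G v (j + 1)) (ha : a ∈ K) (hpa : G.Adj p a) :
    ∃ q, (∃ b ∈ K, G.Adj q b) ∧ ∀ r ∈ lay G v (j + 1), G.Adj p r → r = q := by
  obtain ⟨b, hb, hpb⟩ := hK.exists_not_adj hcl p
  obtain ⟨q, hq, hqb⟩ := exists_parent (hKl hb)
  refine ⟨q, ⟨b, hb, hqb⟩, ?_⟩
  intro r hr hpr
  by_contra hrq
  have hab : a ≠ b := by rintro rfl; exact hpb hpa
  have hpq : p ≠ q := by rintro rfl; exact hpb hqb
  obtain ⟨w, hw, hwu⟩ := exists_grand hfree hcl hj hK hKl
  obtain ⟨g1, hg1, hgq⟩ := exists_parent hq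
  have e3 := hwu q hq b hb hqb g1 hg1 hgq
  subst e3
  obtain ⟨g, hg, hgr⟩ := exists_parent hr
  obtain ⟨x, hx, y, hy, hxa, hxb, hya, hyb, hxy⟩ := hK.exists_two a b
  have L1 : ∀ z ∈ lay G v (j + 1), ∀ x ∈ K, z ≠ x := fun z hz x hx => lay_ne hz (hKl hx) (by omega)
  have L2 : ∀ z ∈ lay G v (j + 1), z ≠ g1 := fun z hz => lay_ne hz hg1 (by omega)
  have L3 : ∀ x ∈ K, x ≠ g1 := fun x hx => lay_ne (hKl hx) hg1 (by omega)
  by_cases hgg : g = g1
  · subst hgg
    refine no8 hfree (a := r) (b := p) (c := a) (d := x) (e := y) (f := b) (g := q) (i := g)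
      hpr.symm hpa (hK.1 _ ha _ hx hxa.symm) (hK.1 _ hx _ hy hxy) (hK.1 _ hy _ hb hyb) hqb.symm
      hgq.symm hgr ?_
    simp [hpr.ne.symm, L1 r hr a ha, L1 r hr x hx, L1 r hr y hy, L1 r hr b hb, hrq, L2 r hr,
      L1 p hp a ha, L1 p hp x hx, L1 p hp y hy, L1 p hp b hb, hpq, L2 p hp, hxa.symm, hya.symm,
      hab, (L1 q hq a ha).symm, L3 a ha, hxy, hxb, (L1 q hq x hx).symm, L3 x hx, hyb,
      (L1 q hq y hy).symm, L3 y hy, (L1 q hq b hb).symm, L3 b hb, L2 q hq]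
  · have hj1 : j = 1 := by
      rcases Nat.eq_zero_or_pos j with h0 | h0
      · subst h0
        rw [lay_zero, mem_singleton] at hg hg1
        exact absurd (hg.trans hg1.symm) hgg
      · omega
    subst hj1
    have hv : v ∈ lay G v 0 := by simp [lay_zero]
    have L4 : ∀ z ∈ lay G v (1 + 1), z ≠ g := fun z hz => lay_ne hz hg (by omega)
    have L5 : ∀ x ∈ K, x ≠ g := fun x hx => lay_ne (hKl hx) hg (by omega)
    have L6 : ∀ z ∈ lay G v (1 + 1), z ≠ v := fun z hz => lay_ne hz hv (by omega)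
    have L7 : ∀ x ∈ K, x ≠ v := fun x hx => lay_ne (hKl hx) hv (by omega)
    have L8 : ∀ x ∈ lay G v 1, x ≠ v := fun x hx => lay_ne hx hv (by omega)
    refine no8 hfree (a := r) (b := p) (c := a) (d := b) (e := q) (f := g1) (g := v) (i := g)
      hpr.symm hpa (hK.1 _ ha _ hb hab) hqb.symm hgq.symm (mem_lay_one.1 hg1).symm
      (mem_lay_one.1 hg) hgr ?_
    simp [hpr.ne.symm, L1 r hr a ha, L1 r hr b hb, hrq, L2 r hr, L6 r hr, L4 r hr, L1 p hp a ha,
      L1 p hp b hb, hpq, L2 p hp, L6 p hp, L4 p hp, hab, (L1 q hq a ha).symm, L3 a ha, L7 a ha,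
      L5 a ha, (L1 q hq b hb).symm, L3 b hb, L7 b hb, L5 b hb, L2 q hq, L6 q hq, L4 q hq,
      L8 g1 hg1, (Ne.symm hgg), (L8 g hg).symm]

end Fix

/-! ### Counting -/

open Classical in
variable (G) in
/-- The 4-cliques of a layer. -/
noncomputable def KK (v : V) (i : ℕ) : Finset (Finset V) :=
  (lay G v i).powerset.filter (fun K => Cl4 G K)

theorem mem_KK {v : V} {i : ℕ} {K : Finset V} : K ∈ KK G v i ↔ K ⊆ lay G v i ∧ Cl4 G K := by
  classical
  simp [KK]

/-- Subsets of a layer. -/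
theorem card_le_add_KK (hfree : ¬ HasCyc G 8) {v : V} {i : ℕ} (hi : 1 ≤ i) (hi3 : i ≤ 3)
    {Y : Finset V} (hY : Y ⊆ lay G v i) : Y.card ≤ 3 * alp G Y + (KK G v i).card := by
  classical
  have hch : ∀ K : Finset V, ∃ r, K ∈ KK G v i → r ∈ K := by
    intro K
    by_cases hK : K ∈ KK G v i
    · have : K.Nonempty := by rw [← card_pos, (mem_KK.1 hK).2.2]; norm_num
      obtain ⟨r, hr⟩ := this
      exact ⟨r, fun _ => hr⟩
    · exact ⟨v, fun h => absurd h hK⟩
  choose r hr using hch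
  have h1 := layer_bound (k := 7) (c := 6) le_rfl le_rfl hfree (v := v) (i := i) hi (by omega)
    (Z := Y \ (KK G v i).image r) (sdiff_subset.trans hY) (by
      intro Q hQ hQc
      by_contra hcon
      obtain ⟨Q', hQ', hQ4⟩ := exists_subset_card_eq (show 4 ≤ Q.card by omega)
      have hmem : Q' ∈ KK G v i := mem_KK.2 ⟨hQ'.trans (hQ.trans (sdiff_subset.trans hY)),
        fun a ha b hb hab => hQc a (hQ' ha) b (hQ' hb) hab, hQ4⟩
      have h2 := hQ (hQ' (hr Q' hmem))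
      exact (mem_sdiff.1 h2).2 (mem_image_of_mem r hmem))
  have h2 : alp G (Y \ (KK G v i).image r) ≤ alp G Y := alp_mono sdiff_subset
  have h3 : ((KK G v i).image r).card ≤ (KK G v i).card := card_image_le
  have h4 : Y.card ≤ (Y \ (KK G v i).image r).card + ((KK G v i).image r).card := by
    have := card_le_card (show Y ⊆ (Y \ (KK G v i).image r) ∪ (KK G v i).image r by
      intro x hx
      rw [mem_union, mem_sdiff]
      by_cases h : x ∈ (KK G v i).image r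
      · exact Or.inr h
      · exact Or.inl ⟨hx, h⟩)
    exact this.trans (card_union_le _ _)
  omega

/-- The main inequality for a layer. -/
theorem card_layer (hfree : ¬ HasCyc G 8)
    (hcl : ∀ Q : Finset V, (∀ a ∈ Q, ∀ b ∈ Q, a ≠ b → G.Adj a b) → Q.card ≤ 4)
    {v : V} {j : ℕ} (hj : j ≤ 1) :
    (lay G v (j + 1)).card + (KK G v (j + 2)).card ≤
      3 * alp G (lay G v (j + 1)) + (KK G v (j + 1)).card := by
  classical
  have hch : ∀ K : Finset V, ∃ p, K ∈ KK G v (j + 2) →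
      p ∈ lay G v (j + 1) ∧ ∃ x ∈ K, G.Adj p x := by
    intro K
    by_cases hK : K ∈ KK G v (j + 2)
    · have : K.Nonempty := by rw [← card_pos, (mem_KK.1 hK).2.2]; norm_num
      obtain ⟨x, hx⟩ := this
      obtain ⟨p, hp, hpx⟩ := exists_parent ((mem_KK.1 hK).1 hx)
      exact ⟨p, fun _ => ⟨hp, x, hx, hpx⟩⟩
    · exact ⟨v, fun h => absurd h hK⟩
  choose p hp using hch
  have hinj : Set.InjOn p (KK G v (j + 2) : Set (Finset V)) := by
    intro K hK K' hK' heq
    have hK1 := mem_KK.1 (mem_coe.1 hK)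
    have hK1' := mem_KK.1 (mem_coe.1 hK')
    by_contra hne
    obtain ⟨h1, x, hx, h2⟩ := hp K (mem_coe.1 hK)
    obtain ⟨h1', x', hx', h2'⟩ := hp K' (mem_coe.1 hK')
    rw [← heq] at h2'
    exact no_common_parent hfree hcl hj hK1.2 hK1.1 hK1'.2 hK1'.1 hne h1 hx hx' h2 h2'
  set D := (KK G v (j + 2)).image p with hD
  have hDc : D.card = (KK G v (j + 2)).card := card_image_of_injOn hinj
  have hDL : D ⊆ lay G v (j + 1) := by
    intro x hx
    obtain ⟨K, hK, rfl⟩ := mem_image.1 hx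
    exact (hp K hK).1
  have hDI : Indep G D := by
    intro x hx y hy hxy
    obtain ⟨K, hK, rfl⟩ := mem_image.1 hx
    obtain ⟨K', hK', rfl⟩ := mem_image.1 hy
    obtain ⟨h1, a, ha, h2⟩ := hp K hK
    obtain ⟨h1', a', ha', h2'⟩ := hp K' hK'
    obtain ⟨q, ⟨b, hb, hqb⟩, hq⟩ := parent_nb hfree hcl hj (mem_KK.1 hK).2 (mem_KK.1 hK).1 h1 ha h2
    have h3 := hq _ h1' hxy
    rw [← h3] at hqb
    by_cases hKK : K = K'
    · subst hKK
      exact G.loopless.irrefl _ hxy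
    · exact no_common_parent hfree hcl hj (mem_KK.1 hK).2 (mem_KK.1 hK).1 (mem_KK.1 hK').2
        (mem_KK.1 hK').1 hKK h1' hb ha' hqb h2'
  have h1 := alp_sdiff_nbC hDI hDL
  have h2 := card_le_add_KK hfree (v := v) (i := j + 1) (by omega) (by omega)
    (Y := lay G v (j + 1) \ nbC G D) sdiff_subset
  have h3 : (lay G v (j + 1) ∩ nbC G D).card ≤ 2 * (KK G v (j + 2)).card := by
    have hsub : lay G v (j + 1) ∩ nbC G D ⊆
        (KK G v (j + 2)).biUnion (fun K => (lay G v (j + 1)).filter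
          (fun x => x = p K ∨ G.Adj (p K) x)) := by
      intro x hx
      rw [mem_inter, mem_nbC] at hx
      rw [mem_biUnion]
      rcases hx with ⟨hx, hx' | ⟨y, hy, hyx⟩⟩
      · obtain ⟨K, hK, rfl⟩ := mem_image.1 hx'
        exact ⟨K, hK, mem_filter.2 ⟨hx, Or.inl rfl⟩⟩
      · obtain ⟨K, hK, rfl⟩ := mem_image.1 hy
        exact ⟨K, hK, mem_filter.2 ⟨hx, Or.inr hyx⟩⟩
    refine (card_le_card hsub).trans ?_
    refine (card_biUnion_le_card_mul _ _ 2 ?_).trans (by rw [mul_comm])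
    intro K hK
    obtain ⟨h1, a, ha, h2⟩ := hp K hK
    obtain ⟨q, -, hq⟩ := parent_nb hfree hcl hj (mem_KK.1 hK).2 (mem_KK.1 hK).1 h1 ha h2
    have : (lay G v (j + 1)).filter (fun x => x = p K ∨ G.Adj (p K) x) ⊆ {p K, q} := by
      intro x hx
      obtain ⟨hx, hx' | hx'⟩ := mem_filter.1 hx
      · simp [hx']
      · simp [hq x hx hx']
    exact (card_le_card this).trans card_le_two
  have h4 := card_inter_add_card_sdiff (lay G v (j + 1)) (nbC G D)
  omega

end K74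

/-- There is no minimal counterexample for `k = 7` with clique number at most four. -/
theorem MinCE.no74 {V : Type u} [Fintype V] {G : SimpleGraph V} (h : MinCE 7 G)
    (hcl : ∀ Q : Finset V, (∀ a ∈ Q, ∀ b ∈ Q, a ≠ b → G.Adj a b) → Q.card ≤ 4) : False := by
  classical
  have hV : 0 < Fintype.card V := by rw [h.card_eq]; omega
  obtain ⟨v⟩ : Nonempty V := Fintype.card_pos_iff.1 hV
  have ha0 : alp G (ball G v 0) = 1 := by rw [ball_zero, alp_singleton]
  have htop : ∀ i, alp G (ball G v i) ≤ 7 := fun i => (alp_mono (subset_univ _)).trans h.alp_le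
  have hN1 : (K74.KK G v 1).card = 0 := by
    rw [card_eq_zero, eq_empty_iff_forall_notMem]
    intro K hK
    obtain ⟨hK1, hK2, hK3⟩ := K74.mem_KK.1 hK
    obtain ⟨h1, h2⟩ := clique_lay_one hK1 hK2
    have := hcl _ h1
    omega
  have f1 := K74.card_layer h.free hcl (v := v) (j := 0) (by omega)
  have f2 := K74.card_layer h.free hcl (v := v) (j := 1) (by omega)
  have f3 := K74.card_le_add_KK h.free (v := v) (i := 3) (by omega) (by omega) (Y := lay G v 3)
    subset_rfl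
  simp only [zero_add, Nat.reduceAdd] at f1 f2 f3
  have g1 := h.growth v 6 0 0 (by simp; omega)
  have g2 := h.growth v 6 0 1 (by simp [sum_range_succ]; omega)
  have g3 := h.growth v 6 0 2 (by simp [sum_range_succ]; omega)
  have t3 := htop 3
  simp only [zero_add, Nat.reduceAdd] at g1 g2 g3
  omega

end Crest.Agent.R054
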