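import Crest.Agent.R054.ThmA
import Crest.Agent.R054.ThmB
import Crest.Agent.R054.Small3
import Crest.Agent.R054.Small45
import Crest.Agent.R054.Small54
import Crest.Agent.R054.Small6
import Crest.Agent.R054.Small74
import Crest.Agent.R054.ClassifyDone

/-!
# R054 / Main : there is no minimal counterexample
-/

set_option autoImplicit false

open Finset

namespace Crest.Agent.R054

universe u

theorem noMinCE_of (hcls : ClassifyStmt.{u}) (k : ℕ) (V : Type u) [Fintype V]
    (G : SimpleGraph V) (h : MinCE k G) : False := by
  classical
  obtain ⟨M, hM, hmaxM⟩ := exists_max_clique G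
  have hk3 := h.hk
  have hMk := h.card_clique_le hM
  by_cases hk : k = 3
  · subst hk; exact no_minCE_three h
  rcases Nat.lt_or_ge M.card k with hlt | hge
  · by_cases h4 : k = 4
    · subst h4
      exact no_minCE_four h (fun K hK => (hmaxM K hK).trans (by omega))
    by_cases h5 : k = 5
    · subst h5
      by_cases h54 : M.card = 4
      · exact h.no_five_four hM h54 (fun K hK => (hmaxM K hK).trans (by omega))
      · exact no_minCE_five h (fun K hK => (hmaxM K hK).trans (by omega))
    rcases Nat.lt_or_ge k (2 * M.card) with h2 | h2
    · rcases Nat.lt_or_ge 4 M.card with h5' | h5'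
      · exact h.thmA hcls hM hmaxM h5' h2
      · have hk67 : k = 6 ∨ k = 7 := by omega
        rcases hk67 with rfl | rfl
        · exact no_minCE_six h (fun K hK => (hmaxM K hK).trans h5')
        · exact h.no74 (fun K hK => (hmaxM K hK).trans h5')
    · exact h.thmB (by omega) (fun Q hQ => by have := hmaxM Q hQ; omega)
  · exact h.no_clique_k (by omega) hM (by omega)

/-- There is no minimal counterexample. -/
theorem noMinCE (k : ℕ) (V : Type u) [Fintype V] (G : SimpleGraph V) : ¬ MinCE k G :=
  fun h => noMinCE_of classifyStmt k V G h

end Crest.Agent.R054
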