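import Crest.Agent.R054.Cyc
import Crest.Agent.R054.Alpha

/-!
# R054 / PatCore : certificates in pattern graphs (cyclic list + clique positions + outside path)
and the port-level far lemma.
-/

set_option autoImplicit false

namespace Crest.Agent.R054.Pat

open Crest.Agent.R054

/-! ### Boolean checkers -/

def nodupB : List ℕ → Bool
  | [] => true
  | a :: l => !(l.any (fun b => a == b)) && nodupB l

def chainB (r : ℕ → ℕ → Bool) : List ℕ → Bool
  | [] => true
  | a :: l => (match l with
    | [] => true
    | b :: _ => r a b) && chainB r l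

def certB (n : ℕ) (r : ℕ → ℕ → Bool) (W : List ℕ) : Bool :=
  W.all (fun x => Nat.blt x n) && nodupB W && chainB r (W ++ W.take 1)

def pidx (L u v p t : ℕ) : ℕ := if t == 0 then u else if t == p + 1 then v else L + t - 1

def badj (L : ℕ) (X : List Bool) (i j : ℕ) : Bool :=
  Nat.blt i L && Nat.blt j L &&
    ((i + 1) % L == j || (j + 1) % L == i || (X.getD i false && X.getD j false && !(i == j)))

def pdir (L u v p i j : ℕ) : Bool :=
  (List.range (p + 1)).any (fun t => i == pidx L u v p t && j == pidx L u v p (t + 1))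

def padj (L : ℕ) (X : List Bool) (u v p i j : ℕ) : Bool :=
  badj L X i j || pdir L u v p i j || pdir L u v p j i

/-- certificate `(u, v, p, W)` -/
abbrev Cert := ℕ × ℕ × ℕ × List ℕ

def certOK (k : ℕ) (X : List Bool) (e : Cert) : Bool :=
  Nat.blt e.1 X.length && Nat.blt e.2.1 X.length && e.2.2.2.length == k + 1 &&
    certB (X.length + e.2.2.1) (padj X.length X e.1 e.2.1 e.2.2.1) e.2.2.2

def has (certs : List Cert) (u v p : ℕ) : Bool :=
  certs.any (fun e => ((e.1 == u && e.2.1 == v) || (e.1 == v && e.2.1 == u)) && e.2.2.1 == p)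

/-! ### Soundness -/

theorem nodupB_iff {l : List ℕ} : nodupB l = true ↔ l.Nodup := by
  induction l with
  | nil => simp [nodupB]
  | cons a l ih =>
    simp only [nodupB, Bool.and_eq_true, ih, List.nodup_cons, Bool.not_eq_true',
      List.any_eq_false, beq_iff_eq]
    constructor
    · rintro ⟨h1, h2⟩
      exact ⟨fun ha => h1 a ha rfl, h2⟩
    · rintro ⟨h1, h2⟩
      exact ⟨fun x hx hax => h1 (hax ▸ hx), h2⟩

variable {V : Type*} {G : SimpleGraph V}

theorem chainB_map {n : ℕ} {r : ℕ → ℕ → Bool} {g : ℕ → V}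
    (hadj : ∀ i < n, ∀ j < n, r i j = true → G.Adj (g i) (g j)) :
    ∀ {l : List ℕ}, (∀ x ∈ l, x < n) → chainB r l = true → (l.map g).IsChain G.Adj := by
  intro l
  induction l with
  | nil => intro _ _; simp
  | cons a l ih =>
    intro hl h
    match l, ih, hl, h with
    | [], _, _, _ => simp
    | b :: l, ih, hl, h =>
      rw [chainB, Bool.and_eq_true] at h
      rw [List.map_cons, List.map_cons, List.isChain_cons_cons]
      exact ⟨hadj a (hl a (by simp)) b (hl b (by simp)) h.1,
        ih (fun x hx => hl x (List.mem_cons_of_mem _ hx)) h.2⟩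

theorem cert_isCyc {n : ℕ} {r : ℕ → ℕ → Bool} {g : ℕ → V}
    (hinj : ∀ i < n, ∀ j < n, g i = g j → i = j)
    (hadj : ∀ i < n, ∀ j < n, r i j = true → G.Adj (g i) (g j))
    {W : List ℕ} (h : certB n r W = true) : IsCyc G (W.map g) := by
  simp only [certB, Bool.and_eq_true, List.all_eq_true, nodupB_iff] at h
  obtain ⟨⟨h1, h2⟩, h3⟩ := h
  have h1' : ∀ x ∈ W, x < n := fun x hx => by simpa [Nat.blt_eq] using h1 x hx
  have h4 := chainB_map (G := G) (g := g) hadj (l := W ++ W.take 1) (by
    intro x hx
    rcases List.mem_append.1 hx with hx | hx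
    · exact h1' x hx
    · exact h1' x (List.mem_of_mem_take hx)) h3
  rw [List.map_append, List.isChain_append] at h4
  refine ⟨?_, h4.1, ?_⟩
  · exact List.Nodup.map_on (fun x hx y hy hxy => hinj x (h1' x hx) y (h1' y hy) hxy) h2
  · intro a ha b hb
    refine h4.2.2 a ha b ?_
    cases W with
    | nil => simp at hb
    | cons w W => simpa using hb

/-- Hypotheses: `cs` is a cyclic list, `X` marks (some) clique positions. -/
structure PatHyp (G : SimpleGraph V) (cs : List V) (X : List Bool) : Prop where
  cyc : IsCyc G cs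
  len : cs.length = X.length
  three : 3 ≤ cs.length
  clique : ∀ i (hi : i < cs.length), ∀ j (hj : j < cs.length), X.getD i false = true →
    X.getD j false = true → i ≠ j → G.Adj cs[i] cs[j]

theorem adj_succ {cs : List V} (h : cs.IsChain G.Adj) {i : ℕ} (hi : i + 1 < cs.length) :
    G.Adj cs[i] cs[i + 1] := by
  rw [List.isChain_iff_getElem] at h
  exact h i hi

theorem adj_mod {cs : List V} (h : IsCyc G cs) {i j : ℕ} (hi : i < cs.length)
    (hj : j < cs.length) (hij : (i + 1) % cs.length = j) : G.Adj cs[i] cs[j] := by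
  rcases Nat.lt_or_ge (i + 1) cs.length with h1 | h1
  · rw [Nat.mod_eq_of_lt h1] at hij
    subst hij
    exact adj_succ h.2.1 h1
  · have h2 : i + 1 = cs.length := by omega
    have h3 : i = cs.length - 1 := by omega
    rw [h2, Nat.mod_self] at hij
    subst hij
    refine h.2.2 _ ?_ _ ?_
    · rw [List.getLast?_eq_getElem?]
      simp [h3]
    · rw [List.head?_eq_getElem?]
      simp

theorem padj_sound {cs Q : List V} {X : List Bool} (h : PatHyp G cs X) {u v : ℕ}
    (hu : u < cs.length) (hv : v < cs.length)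
    (hch : (cs[u] :: (Q ++ [cs[v]])).IsChain G.Adj) (v0 : V) {i j : ℕ}
    (hi : i < cs.length + Q.length) (hj : j < cs.length + Q.length)
    (hr : padj X.length X u v Q.length i j = true) :
    G.Adj ((cs ++ Q).getD i v0) ((cs ++ Q).getD j v0) := by
  have key : ∀ i j, pdir X.length u v Q.length i j = true →
      G.Adj ((cs ++ Q).getD i v0) ((cs ++ Q).getD j v0) := by
    intro i j hij
    simp only [pdir, List.any_eq_true, List.mem_range, Bool.and_eq_true, beq_iff_eq] at hij
    obtain ⟨t, ht, rfl, rfl⟩ := hij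
    have hE : ∀ t, (ht : t < Q.length + 2) → (cs ++ Q).getD (pidx X.length u v Q.length t) v0 =
        (cs[u] :: (Q ++ [cs[v]]))[t]'(by simp; omega) := by
      intro t ht
      unfold pidx
      rw [← h.len]
      rcases Nat.eq_zero_or_pos t with rfl | h0
      · simp [List.getD_eq_getElem?_getD, List.getElem?_append_left hu, hu]
      · obtain ⟨t, rfl⟩ : ∃ s, t = s + 1 := ⟨t - 1, by omega⟩
        rcases Nat.lt_or_ge t Q.length with h1 | h1
        · have h2 : ¬ (t + 1 = Q.length + 1) := by omega
          simp only [beq_iff_eq, Nat.add_eq_zero_iff, one_ne_zero, and_false, if_false, h2,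
            List.getElem_cons_succ]
          rw [List.getElem_append_left h1, List.getD_eq_getElem?_getD,
            List.getElem?_append_right (by omega)]
          have : cs.length + (t + 1) - 1 - cs.length = t := by omega
          rw [this]
          simp [h1]
        · have h2 : t = Q.length := by omega
          subst h2
          simp [List.getD_eq_getElem?_getD, List.getElem?_append_left hv, hv]
    rw [hE t (by omega), hE (t + 1) (by omega)]
    exact adj_succ hch (by simp; omega)
  simp only [padj, Bool.or_eq_true] at hr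
  rcases hr with (hr | hr) | hr
  · simp only [badj, Bool.and_eq_true, Nat.blt_eq, Bool.or_eq_true, beq_iff_eq, Bool.not_eq_true',
      beq_eq_false_iff_ne] at hr
    obtain ⟨⟨h1, h2⟩, h3⟩ := hr
    rw [← h.len] at h1 h2 h3
    have e1 : (cs ++ Q).getD i v0 = cs[i] := by
      simp [List.getD_eq_getElem?_getD, List.getElem?_append_left h1, h1]
    have e2 : (cs ++ Q).getD j v0 = cs[j] := by
      simp [List.getD_eq_getElem?_getD, List.getElem?_append_left h2, h2]
    rw [e1, e2]
    rcases h3 with (h3 | h3) | h3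
    · exact adj_mod h.cyc h1 h2 h3
    · exact (adj_mod h.cyc h2 h1 h3).symm
    · exact h.clique i h1 j h2 h3.1.1 h3.1.2 h3.2
  · exact key i j hr
  · exact (key j i hr).symm

theorem cert_sound {k : ℕ} {cs Q : List V} {X : List Bool} (h : PatHyp G cs X) {e : Cert}
    (he : certOK k X e = true) (hu : e.1 < cs.length) (hv : e.2.1 < cs.length)
    (hp : Q.length = e.2.2.1) (hQ : Q.Nodup) (hd : ∀ x ∈ Q, x ∉ cs)
    (hch : (cs[e.1] :: (Q ++ [cs[e.2.1]])).IsChain G.Adj) (hk : 2 ≤ k) : HasCyc G (k + 1) := by
  simp only [certOK, Bool.and_eq_true, beq_iff_eq] at he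
  obtain ⟨⟨⟨-, -⟩, hW⟩, hc⟩ := he
  have v0 : V := cs[e.1]
  have := cert_isCyc (G := G) (g := fun i => (cs ++ Q).getD i v0) (n := X.length + e.2.2.1)
    (r := padj X.length X e.1 e.2.1 e.2.2.1) ?_ ?_ hc
  · exact this.hasCyc' (by simpa using hW) (by omega)
  · intro i hi j hj hij
    have hnd : (cs ++ Q).Nodup := by
      rw [List.nodup_append']
      exact ⟨h.cyc.1, hQ, fun x hx hx' => hd x hx' hx⟩
    have hl : (cs ++ Q).length = X.length + e.2.2.1 := by
      rw [List.length_append, h.len, hp]
    have hi' : i < (cs ++ Q).length := by omega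
    have hj' : j < (cs ++ Q).length := by omega
    simp only [List.getD_eq_getElem?_getD, List.getElem?_eq_getElem hi',
      List.getElem?_eq_getElem hj', Option.getD_some] at hij
    exact (hnd.getElem_inj_iff).1 hij
  · intro i hi j hj hr
    have hl := h.len
    rw [← hp] at hr
    exact padj_sound h hu hv hch v0 (by omega) (by omega) hr

theorem has_symm {certs : List Cert} {u v p : ℕ} (h : has certs u v p = true) :
    has certs v u p = true := by
  simp only [has, List.any_eq_true, Bool.and_eq_true, Bool.or_eq_true, beq_iff_eq] at h ⊢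
  obtain ⟨e, he, h1, h2⟩ := h
  exact ⟨e, he, h1.symm, h2⟩

theorem has_sound {k : ℕ} {cs Q : List V} {X : List Bool} (h : PatHyp G cs X)
    {certs : List Cert} (hc : certs.all (certOK k X) = true) {u v : ℕ}
    (hu : u < cs.length) (hv : v < cs.length) (hh : has certs u v Q.length = true)
    (hQ : Q.Nodup) (hd : ∀ x ∈ Q, x ∉ cs)
    (hch : (cs[u] :: (Q ++ [cs[v]])).IsChain G.Adj) (hk : 2 ≤ k) : HasCyc G (k + 1) := by
  simp only [has, List.any_eq_true, Bool.and_eq_true, Bool.or_eq_true, beq_iff_eq] at hh
  obtain ⟨e, he, h1, h2⟩ := hh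
  rw [List.all_eq_true] at hc
  rcases h1 with ⟨rfl, rfl⟩ | ⟨rfl, rfl⟩
  · exact cert_sound h (hc e he) hu hv h2.symm hQ hd hch hk
  · refine cert_sound (Q := Q.reverse) h (hc e he) hv hu (by simpa using h2.symm)
      (List.nodup_reverse.2 hQ) (fun x hx => hd x (List.mem_reverse.1 hx)) ?_ hk
    have := List.isChain_reverse.2 (hch.imp (fun a b hab => hab.symm))
    simpa using this

end Crest.Agent.R054.Pat
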