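import Crest.Agent.R054.PatCore

/-!
# R054 / PatFar : the port-level far lemma
-/

set_option autoImplicit false

namespace Crest.Agent.R054.Pat

open Crest.Agent.R054 Finset

/-- port with groups -/
abbrev Port := ℕ × List (List ℕ)

def pairB {α : Type} (r : α → α → Bool) : List α → Bool
  | [] => true
  | a :: l => l.all (r a) && pairB r l

def portOK (k w L : ℕ) (certs : List Cert) (a : Port) : Bool :=
  Nat.blt a.1 L && Nat.ble (a.2.length + 1 + w) k &&
  (List.range L).all
    (fun v => v == a.1 || has certs a.1 v 1 || a.2.any (fun g => g.any (fun z => z == v))) &&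
  a.2.all (fun g => pairB (fun v v' => has certs v v' 1) g) &&
  a.2.all (fun g => g.all (fun v => Nat.blt v L))

def chooseB (k L : ℕ) (certs : List Cert) : List Port → Bool
  | [] => true
  | a :: rest =>
    Nat.blt ((List.range L).countP (fun v => !(v == a.1) && !(has certs a.1 v 0)) +
      rest.countP (fun b => !(has certs a.1 b.1 1))) k && chooseB k L certs rest

def farOK (k w : ℕ) (X : List Bool) (certs : List Cert) (ports : List Port) : Bool :=
  Nat.ble 2 k && certs.all (certOK k X) && Nat.ble (k + 1) (2 * ports.length) &&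
  ports.all (portOK k w X.length certs) &&
  pairB (fun a b => has certs a.1 b.1 2 && has certs a.1 b.1 3 && has certs a.1 b.1 4) ports &&
  chooseB k X.length certs ports

theorem pairB_pairwise {α : Type} {r : α → α → Bool} {l : List α} (h : pairB r l = true) :
    l.Pairwise (fun a b => r a b = true) := by
  induction l with
  | nil => exact List.Pairwise.nil
  | cons a l ih =>
    rw [pairB, Bool.and_eq_true, List.all_eq_true] at h
    exact List.Pairwise.cons h.1 (ih h.2)

set_option linter.unusedSectionVars false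

variable {V : Type*} {G : SimpleGraph V} [DecidableEq V] [Fintype V]

variable (G) in
noncomputable def nbs (v : V) : Finset V := (nbC G {v}).erase v

theorem mem_nbs {v x : V} : x ∈ nbs G v ↔ G.Adj v x := by
  rw [nbs, mem_erase, mem_nbC]
  simp only [mem_singleton, exists_eq_left]
  constructor
  · rintro ⟨h1, h2 | h2⟩
    · exact absurd h2 h1
    · exact h2
  · intro h
    exact ⟨h.ne', Or.inr h⟩

theorem card_nbs {k : ℕ} {v : V} (h : k + 1 ≤ (nbC G {v}).card) : k ≤ (nbs G v).card := by
  rw [nbs, card_erase_of_mem (subset_nbC _ (mem_singleton_self v))]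
  omega

section

variable {k : ℕ} {cs : List V} {X : List Bool} {certs : List Cert}

theorem no0 (h : PatHyp G cs X) (hc : certs.all (certOK k X) = true) (hk : 2 ≤ k)
    (hno : ¬ HasCyc G (k + 1)) {u v : ℕ} (hu : u < cs.length) (hv : v < cs.length)
    (hadj : G.Adj cs[u] cs[v]) : has certs u v 0 = false := by
  by_contra hh
  rw [Bool.not_eq_false] at hh
  exact hno (has_sound (Q := []) h hc hu hv hh List.nodup_nil (by simp) (by simpa using hadj) hk)

theorem no1 (h : PatHyp G cs X) (hc : certs.all (certOK k X) = true) (hk : 2 ≤ k)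
    (hno : ¬ HasCyc G (k + 1)) {u v : ℕ} (hu : u < cs.length) (hv : v < cs.length)
    {x : V} (hx : x ∉ cs) (h1 : G.Adj cs[u] x) (h2 : G.Adj cs[v] x) :
    has certs u v 1 = false := by
  by_contra hh
  rw [Bool.not_eq_false] at hh
  exact hno (has_sound (Q := [x]) h hc hu hv hh (by simp) (by simpa using hx)
    (by simpa using ⟨h1, h2.symm⟩) hk)

theorem exists_xs (h : PatHyp G cs X) (hc : certs.all (certOK k X) = true) (hk : 2 ≤ k)
    (hno : ¬ HasCyc G (k + 1)) (hdeg : ∀ v : V, k + 1 ≤ (nbC G {v}).card) :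
    ∀ ports : List Port, (∀ a ∈ ports, a.1 < cs.length) →
      chooseB k X.length certs ports = true →
      ∃ xs : List V, List.Forall₂ (fun (a : Port) x => x ∉ cs ∧
        ∀ hu : a.1 < cs.length, G.Adj cs[a.1] x) ports xs ∧ xs.Nodup := by
  intro ports
  induction ports with
  | nil => intro _ _; exact ⟨[], List.Forall₂.nil, List.nodup_nil⟩
  | cons a rest ih =>
    intro hl hch
    rw [chooseB, Bool.and_eq_true, Nat.blt_eq] at hch
    obtain ⟨xs, hxs, hnd⟩ := ih (fun b hb => hl b (List.mem_cons_of_mem _ hb)) hch.2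
    have hu : a.1 < cs.length := hl a (by simp)
    suffices hx : ∃ x, G.Adj cs[a.1] x ∧ x ∉ cs ∧ x ∉ xs by
      obtain ⟨x, h1, h2, h3⟩ := hx
      exact ⟨x :: xs, List.Forall₂.cons ⟨h2, fun _ => h1⟩ hxs, List.nodup_cons.2 ⟨h3, hnd⟩⟩
    by_contra hcon
    push Not at hcon
    set A : List ℕ := (List.range X.length).filter (fun v => !(v == a.1) && !(has certs a.1 v 0))
      with hA
    classical
    set B : List V := xs.filter (fun x => decide (x ∉ cs ∧ G.Adj cs[a.1] x)) with hB
    have hsub : nbs G cs[a.1] ⊆ (A.map (fun v => cs.getD v cs[a.1])).toFinset ∪ B.toFinset := by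
      intro x hx
      rw [mem_nbs] at hx
      rw [mem_union, List.mem_toFinset, List.mem_toFinset]
      by_cases hxc : x ∈ cs
      · left
        obtain ⟨v, hv, rfl⟩ := List.mem_iff_getElem.1 hxc
        rw [List.mem_map]
        refine ⟨v, ?_, ?_⟩
        · rw [hA, List.mem_filter]
          refine ⟨List.mem_range.2 (by rw [← h.len]; exact hv), ?_⟩
          have := no0 h hc hk hno hu hv hx
          have hne : v ≠ a.1 := by
            rintro rfl
            exact G.loopless.irrefl _ hx
          simp [this, hne]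
        · simp [List.getD_eq_getElem?_getD, hv]
      · right
        rw [hB, List.mem_filter]
        exact ⟨hcon x hx hxc, by simp [hxc, hx]⟩
    have hBl : B.length ≤ rest.countP (fun b => !(has certs a.1 b.1 1)) := by
      rw [hB]
      clear hnd hcon hsub hB B hA A ih hch
      have hl' : ∀ b ∈ rest, b.1 < cs.length := fun b hb => hl b (List.mem_cons_of_mem _ hb)
      clear hl
      induction hxs with
      | nil => simp
      | @cons b x rest xs h1 h2 ih =>
        have hb : b.1 < cs.length := hl' b (by simp)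
        have ih' := ih (fun b hb => hl' b (List.mem_cons_of_mem _ hb))
        rw [List.filter_cons, List.countP_cons]
        by_cases hq : x ∉ cs ∧ G.Adj cs[a.1] x
        · have hf := no1 h hc hk hno hu hb h1.1 hq.2 (h1.2 hb)
          rw [if_pos (by simpa using hq), if_pos (by simp [hf])]
          rw [List.length_cons]
          omega
        · rw [if_neg (by simpa using hq)]
          omega
    have hcard := card_nbs (hdeg cs[a.1])
    have h1 := card_le_card hsub
    have h2 := card_union_le (A.map (fun v => cs.getD v cs[a.1])).toFinset B.toFinset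
    have h3 := List.toFinset_card_le (A.map (fun v => cs.getD v cs[a.1]))
    have h4 := List.toFinset_card_le B
    rw [List.length_map] at h3
    have h5 : A.length = (List.range X.length).countP
        (fun v => !(v == a.1) && !(has certs a.1 v 0)) := by
      rw [hA, List.countP_eq_length_filter]
    omega

theorem card_foldr_le (A : List ℕ → Finset V) :
    ∀ gs : List (List ℕ), (∀ g ∈ gs, (A g).card ≤ 1) →
      (gs.foldr (fun g S => A g ∪ S) ∅).card ≤ gs.length := by
  intro gs
  induction gs with
  | nil => intro _; simp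
  | cons g gs ih =>
    intro hg
    have h1 := hg g (by simp)
    have h2 := ih (fun g hg' => hg g (List.mem_cons_of_mem _ hg'))
    rw [List.foldr_cons, List.length_cons]
    have := card_union_le (A g) (gs.foldr (fun g S => A g ∪ S) ∅)
    omega

theorem mem_foldr (A : List ℕ → Finset V) {x : V} :
    ∀ gs : List (List ℕ), x ∈ gs.foldr (fun g S => A g ∪ S) ∅ ↔ ∃ g ∈ gs, x ∈ A g := by
  intro gs
  induction gs with
  | nil => simp
  | cons g gs ih => simp [ih]

theorem ball (h : PatHyp G cs X) (hc : certs.all (certOK k X) = true) (hk : 2 ≤ k)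
    (hno : ¬ HasCyc G (k + 1)) (hdeg : ∀ v : V, k + 1 ≤ (nbC G {v}).card) {w : ℕ}
    (hcl : ∀ S : Finset V, (∀ x ∈ S, ∀ y ∈ S, x ≠ y → G.Adj x y) → S.card ≤ w)
    {a : Port} (ha : portOK k w X.length certs a = true) {x : V} (hx : x ∉ cs)
    (hu : a.1 < cs.length) (hux : G.Adj cs[a.1] x) :
    ∃ y y' : V, y ≠ y' ∧ ¬ G.Adj y y' ∧ G.Adj x y ∧ G.Adj x y' ∧ y ∉ cs ∧ y' ∉ cs := by
  classical
  simp only [portOK, Bool.and_eq_true, Nat.blt_eq, Nat.ble_eq, List.all_eq_true, List.mem_range,
    Bool.or_eq_true, beq_iff_eq, List.any_eq_true] at ha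
  obtain ⟨⟨⟨⟨-, hkw⟩, hcov⟩, hgr⟩, hgl⟩ := ha
  have hgr' : ∀ g ∈ a.2, g.Pairwise (fun v v' => has certs v v' 1 = true) :=
    fun g hg => pairB_pairwise (hgr g hg)
  -- neighbours of `x` on the cycle
  set A : List ℕ → Finset V := fun g => (nbs G x).filter (fun y => ∃ v ∈ g, cs[v]? = some y)
    with hA
  have hA1 : ∀ g ∈ a.2, (A g).card ≤ 1 := by
    intro g hg
    rw [card_le_one]
    intro y hy y' hy'
    simp only [hA, mem_filter, mem_nbs] at hy hy'
    obtain ⟨hy1, v, hv, hy2⟩ := hy
    obtain ⟨hy1', v', hv', hy2'⟩ := hy'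
    by_contra hne
    have hvv : v ≠ v' := by
      rintro rfl
      rw [hy2] at hy2'
      exact hne (by simpa using hy2')
    obtain ⟨hvl, hy3⟩ := List.getElem?_eq_some_iff.1 hy2
    obtain ⟨hvl', hy3'⟩ := List.getElem?_eq_some_iff.1 hy2'
    have hsym : Std.Symm (fun v v' => has certs v v' 1 = true) := ⟨fun _ _ h => has_symm h⟩
    have hh : has certs v v' 1 = true := List.Pairwise.forall (hgr' g hg) hv hv' hvv
    have := no1 h hc hk hno hvl hvl' hx (by rw [hy3]; exact hy1.symm) (by rw [hy3']; exact hy1'.symm)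
    rw [hh] at this
    exact absurd this (by simp)
  have hsub : (nbs G x).filter (fun y => y ∈ cs) ⊆
      insert cs[a.1] (a.2.foldr (fun g S => A g ∪ S) ∅) := by
    intro y hy
    rw [mem_filter, mem_nbs] at hy
    obtain ⟨hy1, hy2⟩ := hy
    obtain ⟨v, hv, rfl⟩ := List.mem_iff_getElem.1 hy2
    rw [mem_insert, mem_foldr]
    have hf := no1 h hc hk hno hu hv hx hux hy1.symm
    rcases hcov v (by rw [← h.len]; exact hv) with (h1 | h1) | h1
    · left; subst h1; rfl
    · rw [hf] at h1; exact absurd h1 (by simp)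
    · right
      obtain ⟨g, hg, z, hz, rfl⟩ := h1
      refine ⟨g, hg, ?_⟩
      simp only [hA, mem_filter, mem_nbs]
      exact ⟨hy1, z, hz, List.getElem?_eq_getElem hv⟩
  have hcard1 := (card_le_card hsub).trans (card_insert_le _ _)
  have hcard2 := card_foldr_le A a.2 hA1
  have hcard3 := card_nbs (hdeg x)
  have hcard4 := card_filter_add_card_filter_not (s := nbs G x) (fun y => y ∈ cs)
  have hlarge : w + 1 ≤ (insert x ((nbs G x).filter (fun y => ¬ y ∈ cs))).card := by
    rw [card_insert_of_notMem]
    · omega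
    · simp [mem_nbs]
  have hnc : ∃ y ∈ insert x ((nbs G x).filter (fun y => ¬ y ∈ cs)),
      ∃ y' ∈ insert x ((nbs G x).filter (fun y => ¬ y ∈ cs)), y ≠ y' ∧ ¬ G.Adj y y' := by
    by_contra hcon
    push Not at hcon
    have := hcl _ hcon
    omega
  obtain ⟨y, hy, y', hy', hne, hnadj⟩ := hnc
  rw [mem_insert, mem_filter, mem_nbs] at hy hy'
  have hyx : y ≠ x := by
    rintro rfl
    rcases hy' with h1 | h1
    · exact hne h1.symm
    · exact hnadj h1.1
  have hyx' : y' ≠ x := by
    rintro rfl
    rcases hy with h1 | h1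
    · exact hne h1
    · exact hnadj h1.1.symm
  rcases hy with hy | hy
  · exact absurd hy hyx
  rcases hy' with hy' | hy'
  · exact absurd hy' hyx'
  exact ⟨y, y', hne, hnadj, hy.1, hy'.1, hy.2, hy'.2⟩

end

theorem far {k w : ℕ} {cs : List V} {X : List Bool} {certs : List Cert} {ports : List Port}
    (hOK : farOK k w X certs ports = true) (h : PatHyp G cs X)
    (hno : ¬ HasCyc G (k + 1)) (hdeg : ∀ v : V, k + 1 ≤ (nbC G {v}).card)
    (hcl : ∀ S : Finset V, (∀ x ∈ S, ∀ y ∈ S, x ≠ y → G.Adj x y) → S.card ≤ w)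
    (hal : alp G univ ≤ k) : False := by
  classical
  simp only [farOK, Bool.and_eq_true, Nat.ble_eq] at hOK
  obtain ⟨⟨⟨⟨⟨hk, hc⟩, hr⟩, hports⟩, hpair⟩, hch⟩ := hOK
  rw [List.all_eq_true] at hports
  have hpl : ∀ a ∈ ports, a.1 < cs.length := by
    intro a ha
    have := hports a ha
    simp only [portOK, Bool.and_eq_true, Nat.blt_eq] at this
    rw [h.len]
    exact this.1.1.1.1
  obtain ⟨xs, hxs, hnd⟩ := exists_xs h hc hk hno hdeg ports hpl hch
  have hlen := hxs.length_eq
  have hx : ∀ i : Fin ports.length, xs[i.1]'(by have := i.2; omega) ∉ cs ∧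
      G.Adj (cs[(ports[i.1]).1]'(hpl _ (List.getElem_mem _))) (xs[i.1]'(by have := i.2; omega)) := by
    intro i
    have := (List.forall₂_iff_get.1 hxs).2 i.1 i.2 (by have := i.2; omega)
    exact ⟨this.1, this.2 (hpl _ (List.getElem_mem _))⟩
  set u : Fin ports.length → ℕ := fun i => (ports[i.1]).1 with hu
  have hul : ∀ i, u i < cs.length := fun i => hpl _ (List.getElem_mem _)
  set x : Fin ports.length → V := fun i => xs[i.1]'(by have := i.2; omega) with hxdef
  have hxc : ∀ i, x i ∉ cs := fun i => (hx i).1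
  have hux : ∀ i, G.Adj (cs[u i]'(hul i)) (x i) := fun i => (hx i).2
  have hxinj : ∀ i j, i ≠ j → x i ≠ x j := by
    intro i j hij hxx
    have := (hnd.getElem_inj_iff).1 hxx
    exact hij (Fin.ext this)
  have hpp := pairB_pairwise hpair
  have hhas : ∀ i j, i ≠ j → has certs (u i) (u j) 2 = true ∧ has certs (u i) (u j) 3 = true ∧
      has certs (u i) (u j) 4 = true := by
    have hlt : ∀ i j : Fin ports.length, i < j → has certs (u i) (u j) 2 = true ∧
        has certs (u i) (u j) 3 = true ∧ has certs (u i) (u j) 4 = true := by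
      intro i j hij
      have := List.pairwise_iff_getElem.1 hpp i.1 j.1 i.2 j.2 hij
      simp only [Bool.and_eq_true] at this
      exact ⟨this.1.1, this.1.2, this.2⟩
    intro i j hij
    rcases lt_or_gt_of_ne hij with h1 | h1
    · exact hlt i j h1
    · have := hlt j i h1
      exact ⟨has_symm this.1, has_symm this.2.1, has_symm this.2.2⟩
  have hb : ∀ i : Fin ports.length, ∃ y y' : V, y ≠ y' ∧ ¬ G.Adj y y' ∧ G.Adj (x i) y ∧
      G.Adj (x i) y' ∧ y ∉ cs ∧ y' ∉ cs := fun i =>
    ball h hc hk hno hdeg hcl (hports _ (List.getElem_mem i.2)) (hxc i) (hul i) (hux i)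
  choose y y' hyne hynadj hxy hxy' hyc hyc' using hb
  set P : Fin ports.length → Finset V := fun i => {y i, y' i} with hP
  have hPmem : ∀ i, ∀ z ∈ P i, G.Adj (x i) z ∧ z ∉ cs := by
    intro i z hz
    simp only [hP, mem_insert, mem_singleton] at hz
    rcases hz with rfl | rfl
    · exact ⟨hxy i, hyc i⟩
    · exact ⟨hxy' i, hyc' i⟩
  have hxx : ∀ i j, i ≠ j → ¬ G.Adj (x i) (x j) := by
    intro i j hij hadj
    refine hno (has_sound (Q := [x i, x j]) h hc (hul i) (hul j) (hhas i j hij).1
      (by simp [hxinj i j hij]) (by simp [hxc]) ?_ hk)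
    simpa using ⟨hux i, hadj, (hux j).symm⟩
  have hfar : ∀ i j, i ≠ j → ∀ z ∈ P i, ∀ z' ∈ P j, z ≠ z' ∧ ¬ G.Adj z z' := by
    intro i j hij z hz z' hz'
    obtain ⟨hz1, hz2⟩ := hPmem i z hz
    obtain ⟨hz1', hz2'⟩ := hPmem j z' hz'
    have hne : z ≠ z' := by
      rintro rfl
      refine hno (has_sound (Q := [x i, z, x j]) h hc (hul i) (hul j) (hhas i j hij).2.1
        (by simp [hxinj i j hij, hz1.ne, hz1'.ne']) (by simp [hxc, hz2]) ?_ hk)
      simpa using ⟨hux i, hz1, hz1'.symm, (hux j).symm⟩
    refine ⟨hne, fun hadj => ?_⟩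
    have h1 : x i ≠ z' := by
      rintro rfl
      exact hxx i j hij hz1'.symm
    have h2 : z ≠ x j := by
      rintro rfl
      exact hxx i j hij hz1
    refine hno (has_sound (Q := [x i, z, z', x j]) h hc (hul i) (hul j) (hhas i j hij).2.2
      (by simp [hxinj i j hij, hz1.ne, hz1'.ne', h1, h2, hne]) (by simp [hxc, hz2, hz2']) ?_ hk)
    simpa using ⟨hux i, hz1, hadj, hz1'.symm, (hux j).symm⟩
  have hind : Indep G (univ.biUnion P) := by
    intro z hz z' hz'
    rw [mem_biUnion] at hz hz'
    obtain ⟨i, -, hi⟩ := hz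
    obtain ⟨j, -, hj⟩ := hz'
    by_cases hij : i = j
    · subst hij
      simp only [hP, mem_insert, mem_singleton] at hi hj
      rcases hi with rfl | rfl <;> rcases hj with rfl | rfl
      · exact G.loopless.irrefl _
      · exact hynadj i
      · exact fun h => hynadj i h.symm
      · exact G.loopless.irrefl _
    · exact (hfar i j hij z hi z' hj).2
  have hcard : (univ.biUnion P).card = 2 * ports.length := by
    rw [card_biUnion]
    · have : ∀ i ∈ (univ : Finset (Fin ports.length)), (P i).card = 2 := by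
        intro i _
        simp only [hP]
        rw [card_pair (hyne i)]
      rw [sum_congr rfl this]
      simp [mul_comm]
    · intro i _ j _ hij
      show Disjoint (P i) (P j)
      rw [disjoint_left]
      intro z hz hz'
      exact (hfar i j hij z hz z hz').1 rfl
  have := hind.card_le_alp (S := univ) (subset_univ _)
  omega

end Crest.Agent.R054.Pat
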