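import Crest.Agent.R054.PatData
import Crest.Agent.R054.Basic

/-!
# R054 / PatMain : a cyclic list whose clique positions form one of the small patterns gives a
contradiction in a minimal counterexample
-/

set_option autoImplicit false
set_option linter.unusedSectionVars false

namespace Crest.Agent.R054.Pat

open Crest.Agent.R054 Finset

variable {V : Type*} {G : SimpleGraph V} [DecidableEq V] [Fintype V]

theorem patHyp_of_map {M : Finset V} (hM : ∀ a ∈ M, ∀ b ∈ M, a ≠ b → G.Adj a b)
    {cs : List V} {X : List Bool} (hC : IsCyc G cs) (h3 : 3 ≤ X.length)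
    (hmap : cs.map (fun x => decide (x ∈ M)) = X) : PatHyp G cs X := by
  have hlen : cs.length = X.length := by rw [← hmap, List.length_map]
  have hmem : ∀ i (hi : i < cs.length), X.getD i false = true → cs[i] ∈ M := by
    intro i hi hX
    rw [← hmap, List.getD_eq_getElem?_getD, List.getElem?_map, List.getElem?_eq_getElem hi] at hX
    simpa using hX
  refine ⟨hC, hlen, by omega, ?_⟩
  intro i hi j hj h1 h2 hij
  refine hM _ (hmem i hi h1) _ (hmem j hj h2) ?_
  intro heq
  exact hij ((hC.nodup.getElem_inj_iff).1 heq)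

/-- All templates (clique positions on the long cycle). -/
def templates (k w L : ℕ) : List (List Bool) :=
  match k, w, L with
  | 7, 4, 10 => [X1, X2]
  | 8, 5, 11 => [X3]
  | 9, 5, 12 => [X4]
  | 9, 5, 13 => [X5, X6]
  | 10, 6, 14 => [X7, X8]
  | 11, 6, 15 => [X9, X10]
  | 13, 7, 16 => [X11]
  | _, _, _ => []

theorem exists_farOK {k w L : ℕ} {X : List Bool} (hX : X ∈ templates k w L) :
    3 ≤ X.length ∧ ∃ certs ports, farOK k w X certs ports = true := by
  unfold templates at hX
  split at hX
  · simp only [List.mem_cons, List.not_mem_nil, or_false] at hX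
    rcases hX with rfl | rfl
    · exact ⟨by decide, _, _, ok1⟩
    · exact ⟨by decide, _, _, ok2⟩
  · simp only [List.mem_cons, List.not_mem_nil, or_false] at hX
    subst hX
    exact ⟨by decide, _, _, ok3⟩
  · simp only [List.mem_cons, List.not_mem_nil, or_false] at hX
    subst hX
    exact ⟨by decide, _, _, ok4⟩
  · simp only [List.mem_cons, List.not_mem_nil, or_false] at hX
    rcases hX with rfl | rfl
    · exact ⟨by decide, _, _, ok5⟩
    · exact ⟨by decide, _, _, ok6⟩
  · simp only [List.mem_cons, List.not_mem_nil, or_false] at hX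
    rcases hX with rfl | rfl
    · exact ⟨by decide, _, _, ok7⟩
    · exact ⟨by decide, _, _, ok8⟩
  · simp only [List.mem_cons, List.not_mem_nil, or_false] at hX
    rcases hX with rfl | rfl
    · exact ⟨by decide, _, _, ok9⟩
    · exact ⟨by decide, _, _, ok10⟩
  · simp only [List.mem_cons, List.not_mem_nil, or_false] at hX
    subst hX
    exact ⟨by decide, _, _, ok11⟩
  · simp at hX

theorem no_template {k w L : ℕ} {X : List Bool} (hX : X ∈ templates k w L) (h : MinCE k G)
    (hmax : ∀ S : Finset V, (∀ x ∈ S, ∀ y ∈ S, x ≠ y → G.Adj x y) → S.card ≤ w)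
    {M : Finset V} (hM : ∀ a ∈ M, ∀ b ∈ M, a ≠ b → G.Adj a b)
    {cs : List V} (hC : IsCyc G cs) (hmap : cs.map (fun x => decide (x ∈ M)) = X) : False := by
  obtain ⟨h3, certs, ports, hOK⟩ := exists_farOK hX
  refine far hOK (patHyp_of_map hM hC h3 hmap) h.free (fun v => ?_) hmax h.alp_le
  have := h.card_nbC (indep_singleton v) (Finset.singleton_nonempty v)
  simpa using this

end Crest.Agent.R054.Pat
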