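import Crest.Agent.R054.Cyc
import Crest.Agent.R054.Alpha

/-!
# R054 / Ports : successor relation of a cyclic list, ports of a clique on a cycle, linking
-/

set_option autoImplicit false

namespace Crest.Agent.R054

open List

section Rot

variable {α : Type*}

/-- Two rotations of a nodup list with the same head are equal. -/
theorem rot_unique {L L' : List α} (h : L ~r L') (hnd : L.Nodup) {a : α}
    (h1 : L.head? = some a) (h2 : L'.head? = some a) : L = L' := by
  obtain ⟨n, rfl⟩ := h
  have hne : L ≠ [] := by rintro rfl; simp at h1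
  have hlen : 0 < L.length := List.length_pos_iff.2 hne
  rw [← List.rotate_mod] at h2 ⊢
  have hlt : n % L.length < L.length := Nat.mod_lt _ hlen
  rw [List.head?_rotate hlt] at h2
  have h1' : L[0]? = some a := by rw [← List.head?_eq_getElem?]; exact h1
  have : n % L.length = 0 := by
    have e1 : L[n % L.length] = a := by
      rw [List.getElem?_eq_getElem hlt] at h2
      exact Option.some.inj h2
    have e2 : L[0] = a := by
      rw [List.getElem?_eq_getElem hlen] at h1'
      exact Option.some.inj h1'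
    exact (List.Nodup.getElem_inj_iff hnd).1 (e1.trans e2.symm)
  rw [this, List.rotate_zero]

/-- Two rotations of a nodup list with the same last element are equal. -/
theorem rot_unique_last {L L' : List α} (h : L ~r L') (hnd : L.Nodup) {a : α}
    (h1 : L.getLast? = some a) (h2 : L'.getLast? = some a) : L = L' := by
  have := rot_unique h.reverse (List.nodup_reverse.2 hnd) (a := a)
    (by rw [List.head?_reverse]; exact h1) (by rw [List.head?_reverse]; exact h2)
  exact List.reverse_injective this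

/-- `b` is the successor of `a` on the cyclic list `C`. -/
def Sc (C : List α) (a b : α) : Prop :=
  ∃ P, P ~r C ∧ P.getLast? = some a ∧ P.head? = some b

theorem Sc.right_unique {C : List α} (hC : C.Nodup) {a b b' : α} (h : Sc C a b) (h' : Sc C a b') :
    b = b' := by
  obtain ⟨P, hP, hl, hh⟩ := h
  obtain ⟨P', hP', hl', hh'⟩ := h'
  have : P = P' := rot_unique_last (hP.trans hP'.symm) (hP.nodup_iff.2 hC) hl hl'
  subst this
  rw [hh] at hh'
  exact Option.some.inj hh'

theorem Sc.left_unique {C : List α} (hC : C.Nodup) {a a' b : α} (h : Sc C a b) (h' : Sc C a' b) :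
    a = a' := by
  obtain ⟨P, hP, hl, hh⟩ := h
  obtain ⟨P', hP', hl', hh'⟩ := h'
  have : P = P' := rot_unique (hP.trans hP'.symm) (hP.nodup_iff.2 hC) hh hh'
  subst this
  rw [hl] at hl'
  exact Option.some.inj hl'

theorem Sc.left_mem {C : List α} {a b : α} (h : Sc C a b) : a ∈ C := by
  obtain ⟨P, hP, hl, hh⟩ := h
  exact hP.mem_iff.1 (List.mem_of_getLast? hl)

theorem Sc.right_mem {C : List α} {a b : α} (h : Sc C a b) : b ∈ C := by
  obtain ⟨P, hP, hl, hh⟩ := h
  exact hP.mem_iff.1 (List.mem_of_head? hh)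

theorem exists_rot_head {C : List α} {b : α} (hb : b ∈ C) : ∃ P, P ~r C ∧ P.head? = some b := by
  obtain ⟨A, B, rfl⟩ := List.append_of_mem hb
  exact ⟨(b :: B) ++ A, List.isRotated_append, by simp⟩

theorem exists_rot_last {C : List α} {a : α} (ha : a ∈ C) : ∃ P, P ~r C ∧ P.getLast? = some a := by
  obtain ⟨A, B, rfl⟩ := List.append_of_mem ha
  refine ⟨B ++ (A ++ [a]), ?_, by simp⟩
  have : A ++ a :: B = (A ++ [a]) ++ B := by simp
  rw [this]
  exact List.isRotated_append

theorem exists_Sc_of_left {C : List α} {a : α} (ha : a ∈ C) : ∃ b, Sc C a b := by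
  obtain ⟨P, hP, hl⟩ := exists_rot_last ha
  have hne : P ≠ [] := by rintro rfl; simp at hl
  exact ⟨P.head hne, P, hP, hl, List.head?_eq_some_head hne⟩

theorem exists_Sc_of_right {C : List α} {b : α} (hb : b ∈ C) : ∃ a, Sc C a b := by
  obtain ⟨P, hP, hh⟩ := exists_rot_head hb
  have hne : P ≠ [] := by rintro rfl; simp at hh
  exact ⟨P.getLast hne, P, hP, List.getLast?_eq_getLast_of_ne_nil hne, hh⟩

theorem Sc.of_isRotated {C C' : List α} (h : C ~r C') {a b : α} (hs : Sc C a b) : Sc C' a b := by
  obtain ⟨P, hP, hl, hh⟩ := hs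
  exact ⟨P, hP.trans h, hl, hh⟩

/-- consecutive elements of a list are successors -/
theorem Sc.of_append {A B : List α} {a b : α} (hA : A.getLast? = some a) (hB : B.head? = some b) :
    Sc (A ++ B) a b := by
  refine ⟨B ++ A, List.isRotated_append, ?_, ?_⟩
  · rw [List.getLast?_append]; simp [hA]
  · rw [List.head?_append]; simp [hB]

/-- A nonempty set of elements of `C` closed under successors contains all of `C`. -/
theorem forall_of_Sc_closed {C : List α} (p : α → Prop) {a : α} (ha : a ∈ C) (hpa : p a)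
    (hp : ∀ x y, Sc C x y → p x → p y) : ∀ x ∈ C, p x := by
  obtain ⟨P, hP, hh⟩ := exists_rot_head ha
  have key : ∀ (B A : List α), A ++ B ~r C → (∀ x ∈ A, p x) → A ≠ [] → ∀ x ∈ A ++ B, p x := by
    intro B
    induction B with
    | nil => intro A _ hA _ x hx; simpa using hA x (by simpa using hx)
    | cons b B ih =>
      intro A hr hA hne x hx
      have hpb : p b := by
        refine hp (A.getLast hne) b ?_ (hA _ (List.getLast_mem hne))
        exact (Sc.of_append (List.getLast?_eq_getLast_of_ne_nil hne) (by simp)).of_isRotated hr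
      have h2 : A ++ b :: B = (A ++ [b]) ++ B := by simp
      rw [h2] at hr hx
      refine ih (A ++ [b]) hr ?_ (by simp) x hx
      intro y hy
      rcases List.mem_append.1 hy with hy | hy
      · exact hA y hy
      · rw [List.mem_singleton] at hy; subst hy; exact hpb
  match P, hh with
  | c :: P', hh =>
    simp only [List.head?_cons, Option.some.injEq] at hh
    subst hh
    intro x hx
    exact key P' [c] hP (by simpa using hpa) (by simp) x (hP.mem_iff.2 hx)

end Rot

variable {V : Type*} {G : SimpleGraph V}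

theorem IsCyc.isRotated {L L' : List V} (h : IsCyc G L) (hr : L ~r L') : IsCyc G L' := by
  obtain ⟨n, rfl⟩ := hr
  rw [List.rotate_eq_drop_append_take_mod]
  apply IsCyc.rotate_append
  rw [List.take_append_drop]
  exact h

theorem IsCyc.adj_of_Sc {C : List V} (hC : IsCyc G C) {a b : V} (h : Sc C a b) : G.Adj a b := by
  obtain ⟨P, hP, hl, hh⟩ := h
  exact (hC.isRotated hP.symm).2.2 a hl b hh

/-- Insert an outside path between two consecutive vertices. -/
theorem IsCyc.insert_path {C Q : List V} (hC : IsCyc G C) {a b : V} (h : Sc C a b) (hQ : IsPth G Q)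
    (hQn : Q ≠ []) (hd : ∀ x ∈ Q, x ∉ C) (h1 : G.Adj a (Q.head hQn))
    (h2 : G.Adj (Q.getLast hQn) b) :
    ∃ C', IsCyc G C' ∧ C'.length = C.length + Q.length ∧ (∀ y, y ∈ C' ↔ y ∈ C ∨ y ∈ Q) := by
  obtain ⟨P, hP, hl, hh⟩ := h
  have hPc := hC.isRotated hP.symm
  have hPn : P ≠ [] := by rintro rfl; simp at hl
  have e1 : P.getLast hPn = a := by
    rw [List.getLast?_eq_getLast_of_ne_nil hPn] at hl; exact Option.some.inj hl
  have e2 : P.head hPn = b := by
    rw [List.head?_eq_some_head hPn] at hh; exact Option.some.inj hh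
  refine ⟨P ++ Q, hPc.isPth.close hQ hPn hQn ?_ ?_ ?_, ?_, ?_⟩
  · intro x hx hx'
    exact hd x hx' (hP.mem_iff.1 hx)
  · rw [e1]; exact h1
  · rw [e2]; exact h2
  · rw [List.length_append, hP.perm.length_eq]
  · intro y
    rw [List.mem_append, hP.mem_iff]

/-- The set of ports (successors of vertices of `M`). -/
def IsPort (M : Finset V) (C : List V) (u : V) : Prop := ∃ m ∈ M, Sc C m u

theorem IsPort.mem {M : Finset V} {C : List V} {u : V} (h : IsPort M C u) : u ∈ C := by
  obtain ⟨m, _, h⟩ := h
  exact h.right_mem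

/-- Splitting a cyclic list at two ports. -/
theorem IsPort.split {M : Finset V} {C : List V} (hC : C.Nodup) {u w : V} (hu : IsPort M C u)
    (hw : IsPort M C w) (huw : u ≠ w) :
    ∃ P₁ P₂ : List V, ∃ (h1 : P₁ ≠ []) (h2 : P₂ ≠ []), P₁ ++ P₂ ~r C ∧ P₁.head h1 = u ∧
      P₂.head h2 = w ∧ P₁.getLast h1 ∈ M ∧ P₂.getLast h2 ∈ M := by
  obtain ⟨m, hm, P, hP, hl, hh⟩ := hu
  obtain ⟨m', hm', P', hP', hl', hh'⟩ := hw
  have hwP : w ∈ P := by
    rw [hP.mem_iff, ← hP'.mem_iff]; exact List.mem_of_head? hh'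
  obtain ⟨P₁, P₂, rfl⟩ := List.append_of_mem hwP
  have h1 : P₁ ≠ [] := by
    rintro rfl
    simp only [List.nil_append, List.head?_cons, Option.some.injEq] at hh
    exact huw hh.symm
  refine ⟨P₁, w :: P₂, h1, by simp, hP, ?_, by simp, ?_, ?_⟩
  · rw [List.head?_append_of_ne_nil _ h1, List.head?_eq_some_head h1] at hh
    exact Option.some.inj hh
  · have hr : (w :: P₂) ++ P₁ ~r P' :=
      (List.isRotated_append.trans hP).trans hP'.symm
    have hnd : ((w :: P₂) ++ P₁).Nodup := (hr.trans hP').nodup_iff.2 hC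
    have := rot_unique hr hnd (a := w) (by simp) hh'
    rw [← this, List.getLast?_append_of_ne_nil _ h1, List.getLast?_eq_getLast_of_ne_nil h1] at hl'
    rw [Option.some.inj hl']; exact hm'
  · rw [List.getLast?_append_of_ne_nil _ (by simp), List.getLast?_eq_getLast_of_ne_nil (by simp)]
      at hl
    rw [Option.some.inj hl]; exact hm

/-- Linking two different ports by an outside path `Q`. -/
theorem IsPort.link {M : Finset V} {C : List V} (hC : IsCyc G C)
    (hM : ∀ a ∈ M, ∀ b ∈ M, a ≠ b → G.Adj a b) {u w : V} (hu : IsPort M C u)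
    (hw : IsPort M C w) (huw : u ≠ w) {Q : List V} (hQ : IsPth G Q) (hQn : Q ≠ [])
    (hd : ∀ x ∈ Q, x ∉ C) (h1 : G.Adj u (Q.head hQn)) (h2 : G.Adj (Q.getLast hQn) w) :
    ∃ C', IsCyc G C' ∧ C'.length = C.length + Q.length ∧ (∀ y, y ∈ C' ↔ y ∈ C ∨ y ∈ Q) := by
  obtain ⟨P₁, P₂, n1, n2, hr, e1, e2, m1, m2⟩ := hu.split hC.nodup hw huw
  have hcy : IsCyc G (P₁ ++ P₂) := hC.isRotated hr.symm
  have hnd := hcy.nodup
  have hne : P₁.getLast n1 ≠ P₂.getLast n2 := by
    intro h
    rw [List.nodup_append'] at hnd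
    exact hnd.2.2 (List.getLast_mem n1) (h ▸ List.getLast_mem n2)
  refine ⟨P₁.reverse ++ (Q ++ P₂), hcy.link n1 n2 (hM _ m1 _ m2 hne) hQ hQn ?_ ?_ ?_, ?_, ?_⟩
  · intro x hx hx'
    exact hd x hx (hr.mem_iff.1 hx')
  · rw [e1]; exact h1
  · rw [e2]; exact h2
  · rw [← hr.perm.length_eq]
    simp only [List.length_append, List.length_reverse]; omega
  · intro y
    rw [← hr.mem_iff]
    simp only [List.mem_append, List.mem_reverse]
    tauto

end Crest.Agent.R054
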