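import Crest.Agent.R054.Balls

/-!
# R054 / ThmASetup : maximal M-cycles exist, exclusion of `K_k`
-/

set_option autoImplicit false

open Finset

set_option linter.unusedSectionVars false

namespace Crest.Agent.R054

universe u

variable {V : Type u} [Fintype V] [DecidableEq V] {G : SimpleGraph V} {k : ℕ}

/-- A clique is the vertex set of a (cyclic) list. -/
theorem exists_isCyc_clique {M : Finset V} (hM : ∀ a ∈ M, ∀ b ∈ M, a ≠ b → G.Adj a b)
    (h2 : 2 ≤ M.card) : ∃ L : List V, IsCyc G L ∧ L.length = M.card ∧ ∀ x, x ∈ L ↔ x ∈ M := by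
  obtain ⟨L, hL, hlen, -, hsub⟩ := exists_isCyc_of_blocks (G := G) hM [] (by simp) (by simp)
    (n := M.card) (by simp) (by simp) h2
  refine ⟨L, hL, hlen, ?_⟩
  have hs : L.toFinset ⊆ M := by
    intro x hx
    have := hsub x (List.mem_toFinset.1 hx)
    simpa using this
  have he : L.toFinset = M := by
    apply eq_of_subset_of_card_le hs
    rw [List.toFinset_card_of_nodup hL.nodup, hlen]
  intro x
  rw [← he, List.mem_toFinset]

/-- Existence of a maximum clique. -/
theorem exists_max_clique (G : SimpleGraph V) : ∃ M : Finset V,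
    (∀ a ∈ M, ∀ b ∈ M, a ≠ b → G.Adj a b) ∧
      ∀ K : Finset V, (∀ a ∈ K, ∀ b ∈ K, a ≠ b → G.Adj a b) → K.card ≤ M.card := by
  classical
  let S : Finset (Finset V) := univ.filter (fun K => ∀ a ∈ K, ∀ b ∈ K, a ≠ b → G.Adj a b)
  have hne : S.Nonempty := ⟨∅, by simp [S]⟩
  obtain ⟨M, hM, hmax⟩ := S.exists_max_image card hne
  exact ⟨M, (mem_filter.1 hM).2, fun K hK => hmax K (mem_filter.2 ⟨mem_univ _, hK⟩)⟩

/-- Existence of a maximal M-cycle of length at most `k`. -/
theorem MinCE.exists_maxCyc (h : MinCE k G) {M : Finset V}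
    (hM : ∀ a ∈ M, ∀ b ∈ M, a ≠ b → G.Adj a b)
    (hmaxM : ∀ K : Finset V, (∀ a ∈ K, ∀ b ∈ K, a ≠ b → G.Adj a b) → K.card ≤ M.card)
    (h2 : 2 ≤ M.card) (hMk : M.card ≤ k) : ∃ C, MaxCyc k G M C := by
  classical
  obtain ⟨L, hL, hLl, hLm⟩ := exists_isCyc_clique hM h2
  let p : ℕ → Prop := fun n => ∃ C, IsCyc G C ∧ (∀ a ∈ M, a ∈ C) ∧ C.length = n
  have hp : p M.card := ⟨L, hL, fun a ha => (hLm a).2 ha, hLl⟩
  obtain ⟨C, hC, hMC, hCl⟩ := Nat.findGreatest_spec (P := p) hMk hp
  refine ⟨C, h.proper, h.card_eq, h.alp_le, h.free, by have := h.hk; omega, hM, hmaxM, hC, hMC, ?_, ?_⟩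
  · rw [hCl]; exact Nat.findGreatest_le k
  · intro C' hC' hMC' hl
    rw [hCl]
    exact Nat.le_findGreatest hl ⟨C', hC', hMC', rfl⟩

/-- An outside path joining two different clique vertices: all lengths. -/
theorem hasCyc_of_ear {M : Finset V} (hM : ∀ a ∈ M, ∀ b ∈ M, a ≠ b → G.Adj a b) {u w : V}
    (hu : u ∈ M) (hw : w ∈ M) (huw : u ≠ w) {Q : List V} (hQ : IsPth G Q) (hQn : Q ≠ [])
    (hd : ∀ x ∈ Q, x ∉ M) (h1 : G.Adj u (Q.head hQn)) (h2 : G.Adj (Q.getLast hQn) w) {n : ℕ}
    (hn1 : Q.length + 2 ≤ n) (hn2 : n ≤ Q.length + M.card) : HasCyc G n := by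
  have hP : IsPth G ([u] ++ (Q ++ [w])) := by
    rw [isPth_append, isPth_append]
    refine ⟨isPth_singleton u, ⟨hQ, isPth_singleton w, ?_, ?_⟩, ?_, ?_⟩
    · intro x hx hx'
      rw [List.mem_singleton] at hx'
      subst hx'
      exact hd x hx hw
    · intro x hx y hy
      rw [List.getLast?_eq_getLast_of_ne_nil hQn] at hx
      simp only [Option.mem_def, Option.some.injEq, List.head?_cons] at hx hy
      subst hx; subst hy; exact h2
    · intro x hx hx'
      rw [List.mem_singleton] at hx
      subst hx
      rcases List.mem_append.1 hx' with hx' | hx'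
      · exact hd x hx' hu
      · rw [List.mem_singleton] at hx'; exact huw hx'
    · intro x hx y hy
      rw [List.head?_append_of_ne_nil _ hQn, List.head?_eq_some_head hQn] at hy
      simp only [List.getLast?_singleton, Option.mem_def, Option.some.injEq] at hx hy
      subst hx; subst hy; exact h1
  have hlen : ([u] ++ (Q ++ [w])).length = Q.length + 2 := by
    simp only [List.length_append, List.length_cons, List.length_nil]; omega
  have hQpos : 0 < Q.length := List.length_pos_iff.2 hQn
  refine hasCyc_of_blocks hM [[u] ++ (Q ++ [w])] ?_ ?_ (n := n) ?_ ?_ (by omega)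
  · intro b hb
    rw [List.mem_singleton] at hb
    subst hb
    refine ⟨hP.2, ?_, ?_⟩
    · intro a ha
      simp only [List.cons_append, List.head?_cons, Option.mem_def, Option.some.injEq] at ha
      subst ha; exact hu
    · intro a ha
      rw [← List.append_assoc, List.getLast?_append_of_ne_nil _ (by simp)] at ha
      simp only [List.getLast?_singleton, Option.mem_def, Option.some.injEq] at ha
      subst ha; exact hw
  · simpa using hP.1
  · simp only [List.flatten_cons, List.flatten_nil, List.append_nil]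
    omega
  · simp only [List.flatten_cons, List.flatten_nil, List.append_nil]
    have : M ∩ ([u] ++ (Q ++ [w])).toFinset ⊆ {u, w} := by
      intro x hx
      rw [mem_inter, List.mem_toFinset] at hx
      simp only [List.mem_append, List.mem_singleton] at hx
      rw [mem_insert, mem_singleton]
      rcases hx.2 with h' | h' | h'
      · exact Or.inl h'
      · exact absurd hx.1 (hd x h')
      · exact Or.inr h'
    have h3 := card_le_card this
    have h4 : ({u, w} : Finset V).card ≤ 2 := card_le_two
    have h5 := card_sdiff_add_card_inter M ([u] ++ (Q ++ [w])).toFinset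
    omega

/-- There is no `K_k` in a minimal counterexample (`k ≥ 4`). -/
theorem MinCE.no_clique_k (h : MinCE k G) (hk : 4 ≤ k) {M : Finset V}
    (hM : ∀ a ∈ M, ∀ b ∈ M, a ≠ b → G.Adj a b) (hMk : M.card = k) : False := by
  classical
  obtain ⟨I, hI, hIc, hIav⟩ := exists_max_indep_avoid h.proper h.card_eq M (by omega)
  have hex : ∀ u ∈ M, ∃ x ∈ I, G.Adj u x := fun u hu =>
    exists_adj_of_max hI hIc (fun hh => hIav u hh hu)
  choose! f hf using hex
  have hone : ∀ x, x ∉ M → ∀ u ∈ M, ∀ w ∈ M, u ≠ w → G.Adj u x → G.Adj w x → False := by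
    intro x hx u hu w hw huw h1 h2
    exact h.free (hasCyc_of_ear hM hu hw huw (Q := [x]) (isPth_singleton x) (by simp)
      (by simpa using hx) (by simpa using h1) (by simpa using h2.symm) (by simp; omega)
      (by simp; omega))
  have hinj : ∀ u ∈ M, ∀ w ∈ M, u ≠ w → f u ≠ f w := by
    intro u hu w hw huw he
    exact hone (f u) (hIav _ (hf u hu).1) u hu w hw huw (hf u hu).2 (he ▸ (hf w hw).2)
  have hdisj : ∀ u ∈ M, ∀ w ∈ M, u ≠ w → Disjoint (nbC G {f u}) (nbC G {f w}) := by
    intro u hu w hw huw
    rw [disjoint_left]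
    intro y hy1 hy2
    rw [mem_nbC_singleton] at hy1 hy2
    have hnadj := hI _ (hf u hu).1 _ (hf w hw).1
    rcases hy1 with rfl | hy1
    · rcases hy2 with hy2 | hy2
      · exact hinj u hu w hw huw hy2
      · exact hnadj hy2.symm
    · rcases hy2 with rfl | hy2
      · exact hnadj hy1
      · by_cases hyM : y ∈ M
        · have h1 : y = u := by
            by_contra hne
            exact hone _ (hIav _ (hf u hu).1) y hyM u hu hne hy1.symm (hf u hu).2
          have h2 : y = w := by
            by_contra hne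
            exact hone _ (hIav _ (hf w hw).1) y hyM w hw hne hy2.symm (hf w hw).2
          exact huw (h1.symm.trans h2)
        · refine h.free (hasCyc_of_ear hM hu hw huw (Q := [f u, y, f w]) ⟨?_, ?_⟩ (by simp) ?_
            (by simpa using (hf u hu).2) (by simpa using (hf w hw).2.symm) (by simp; omega)
            (by simp; omega))
          · simp only [List.nodup_cons, List.mem_cons, List.not_mem_nil, or_false, not_or,
              not_false_eq_true, List.nodup_nil, and_true]
            exact ⟨⟨hy1.ne, hinj u hu w hw huw⟩, hy2.ne'⟩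
          · simp only [List.isChain_cons_cons, List.isChain_singleton, and_true]
            exact ⟨hy1, hy2.symm⟩
          · intro z hz
            simp only [List.mem_cons, List.not_mem_nil, or_false] at hz
            rcases hz with rfl | rfl | rfl
            · exact hIav _ (hf u hu).1
            · exact hyM
            · exact hIav _ (hf w hw).1
  have h1 : (M.biUnion (fun u => nbC G {f u})).card = ∑ u ∈ M, (nbC G {f u}).card := by
    apply card_biUnion
    intro u hu w hw huw
    exact hdisj u hu w hw huw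
  have h2 : ∑ u ∈ M, (k + 1) ≤ ∑ u ∈ M, (nbC G {f u}).card :=
    sum_le_sum fun u _ => card_nbC_singleton_ge h.proper h.card_eq (f u)
  rw [sum_const, smul_eq_mul, hMk, ← h1] at h2
  have h3 := card_le_univ (M.biUnion (fun u => nbC G {f u}))
  have h4 := h.card_eq
  have h5 : k * alp G univ ≤ k * k := Nat.mul_le_mul_left k h.alp_le
  have h6 : k * (k + 1) = k * k + k := by ring
  omega

end Crest.Agent.R054
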